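import Vale.Agent.P128.Connected.Interface
import Mathlib.Topology.Connected.TotallyDisconnected

/-!
# The circle competitor, and finitely many continua in each disk

The density bound compares with cutting out a disk and adding its circle. In a disk, the component
of the singular set through a point of the inner disk reaches the outer circle, so it has length at
least the gap between the radii and there are only finitely many of them.
-/

namespace Vale.Agent.P128.Connected

open MeasureTheory Filter Metric Set Islands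
open scoped Topology ENNReal NNReal ContDiff

/-- One dimensional Hausdorff measure on the plane. -/
private noncomputable abbrev len : Measure ℂ := Measure.hausdorffMeasure 1

/-- Separation is kept when a disk inside `ball 0 R` is replaced by its circle. -/
lemma keepsSeparation_circle {K : Set ℂ} {c : ℂ} {r R : ℝ}
    (hsub : closedBall c r ⊆ ball 0 R) :
    KeepsSeparation K ((K \ ball c r) ∪ sphere c r) (ball 0 R) := by
  intro x y hx _ hxy hy
  set L := (K \ ball c r) ∪ sphere c r with hL
  set C := connectedComponentIn Lᶜ x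
  by_cases hxL : x ∈ Lᶜ
  swap
  · simp only [C, connectedComponentIn_eq_empty hxL, mem_empty_iff_false] at hy
  have hsplit : C ⊆ (closedBall c r)ᶜ ∪ ball c r := by
    intro z hz
    have hz' := connectedComponentIn_subset _ _ hz
    by_cases h : z ∈ ball c r
    · exact Or.inr h
    · refine Or.inl fun hzc => hz' (Or.inr ?_)
      rw [mem_closedBall] at hzc
      rw [mem_ball, not_lt] at h
      exact mem_sphere.2 (le_antisymm hzc h)
  have hCout : C ⊆ (closedBall c r)ᶜ :=
    isPreconnected_connectedComponentIn.subset_left_of_subset_union isClosed_closedBall.isOpen_compl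
      isOpen_ball (disjoint_compl_left.mono_right ball_subset_closedBall) hsplit
      ⟨x, mem_connectedComponentIn hxL, fun h => hx (Or.inl (hsub h))⟩
  have hCK : C ⊆ Kᶜ := fun z hz hzK =>
    connectedComponentIn_subset _ _ hz (Or.inl ⟨hzK, fun h => hCout hz (ball_subset_closedBall h)⟩)
  exact hxy (isPreconnected_connectedComponentIn.subset_connectedComponentIn
    (mem_connectedComponentIn hxL) hCK hy)

/-- The density bound. -/
theorem densityGoal (hLen : LengthGoal) : DensityGoal := by
  intro u K h c r hr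
  rcases hr.eq_or_lt with rfl | hr'
  · simp
  set ρ := ‖c‖ + r with hρ
  set B := ball (0 : ℂ) (ρ + 1) with hB
  have hcb : closedBall c r ⊆ closedBall 0 ρ :=
    closedBall_subset_closedBall' (le_of_eq (by rw [dist_zero_right, hρ, add_comm]))
  have hcB : closedBall c r ⊆ B := hcb.trans (closedBall_subset_ball (by linarith))
  have hbB : ball c r ⊆ B := ball_subset_closedBall.trans hcB
  set L := (K \ ball c r) ∪ sphere c r with hL
  classical
  set δ : ℂ → ℝ := fun x => if x ∈ ball c r then - u x else 0 with hδ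
  have hLc : IsClosed L := (h.isClosed.sdiff isOpen_ball).union isClosed_sphere
  have hsph : (volume : Measure ℂ) (sphere c r) = 0 := Measure.addHaar_sphere _ _ _
  have hLn : (volume : Measure ℂ) L = 0 :=
    measure_union_null (measure_mono_null sdiff_subset h.null) hsph
  have hin : ∀ x ∈ ball c r, grad δ x = -grad u x := by
    intro x hx
    rw [grad_congr (g := fun y => -u y)]
    · simp [grad, fderiv_fun_neg, Complex.ext_iff]
    · filter_upwards [isOpen_ball.mem_nhds hx] with y hy using if_pos hy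
  have hout : ∀ x, x ∉ closedBall c r → grad δ x = 0 := fun x hx =>
    grad_eq_zero_outside isClosed_closedBall
      (fun y hy => if_neg fun hy' => hy (ball_subset_closedBall hy')) hx
  have hgd : grad δ =ᵐ[volume] (ball c r).indicator fun x => -grad u x := by
    filter_upwards [measure_eq_zero_iff_ae_notMem.1 hsph] with x hx
    by_cases hxb : x ∈ ball c r
    · rw [indicator_of_mem hxb, hin x hxb]
    · rw [indicator_of_notMem hxb, hout x fun hc => ?_]
      rw [mem_closedBall] at hc
      rw [mem_ball, not_lt] at hxb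
      exact hx (mem_sphere.2 (le_antisymm hc hxb))
  have hmem : MemLp (grad u) 2 (volume.restrict (ball c r)) :=
    (h.memLp (ρ + 1)).mono_measure (Measure.restrict_mono_set _ hbB)
  have hdmem : MemLp (grad δ) 2 :=
    (memLp_congr_ae hgd).2 ((memLp_indicator_iff_restrict measurableSet_ball).2 hmem.neg)
  have hsmooth : ContDiffOn ℝ ∞ (fun x => u x + δ x) Lᶜ := by
    intro x hx
    refine ContDiffAt.contDiffWithinAt ?_
    by_cases hxb : x ∈ ball c r
    · refine (contDiffAt_const (c := (0 : ℝ))).congr_of_eventuallyEq ?_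
      filter_upwards [isOpen_ball.mem_nhds hxb] with y hy
      rw [hδ]
      simp only [if_pos hy, add_neg_cancel]
    · have hxc : x ∉ closedBall c r := fun hc => hx (Or.inr (by
        rw [mem_closedBall] at hc
        rw [mem_ball, not_lt] at hxb
        exact mem_sphere.2 (le_antisymm hc hxb)))
      have hxK : x ∈ Kᶜ := fun hK => hx (Or.inl ⟨hK, hxb⟩)
      refine ((h.smooth x hxK).contDiffAt
        (h.isClosed.isOpen_compl.mem_nhds hxK)).congr_of_eventuallyEq ?_
      filter_upwards [isClosed_closedBall.isOpen_compl.mem_nhds hxc] with y hy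
      have hy' : y ∉ ball c r := fun h' => hy (ball_subset_closedBall h')
      rw [hδ]
      simp only [if_neg hy', add_zero]
  have hzero : ∀ x, x ∉ closedBall 0 ρ → δ x = 0 := fun x hx =>
    if_neg fun hx' => hx (hcb (ball_subset_closedBall hx'))
  have heq : L \ closedBall 0 ρ = K \ closedBall 0 ρ := by
    ext x
    constructor
    · rintro ⟨⟨hK, -⟩ | hs, hx⟩
      · exact ⟨hK, hx⟩
      · exact absurd (hcb (sphere_subset_closedBall hs)) hx
    · rintro ⟨hK, hx⟩
      exact ⟨Or.inl ⟨hK, fun hb => hx (hcb (ball_subset_closedBall hb))⟩, hx⟩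
  have hkin : len (K ∩ ball c r) ≠ ⊤ :=
    ne_top_of_le_ne_top (h.length_ne_top (ρ + 1)) (measure_mono (inter_subset_inter_right _ hbB))
  have hkout : len ((K ∩ B) \ ball c r) ≠ ⊤ :=
    ne_top_of_le_ne_top (h.length_ne_top (ρ + 1)) (measure_mono sdiff_subset)
  have hcirc := hLen.2.2.1 c r hr
  have hLle : len (L ∩ B) ≤ len ((K ∩ B) \ ball c r) + ENNReal.ofReal (2 * Real.pi * r) := by
    refine (measure_mono (fun x hx => ?_)).trans
      ((measure_union_le _ (sphere c r)).trans (add_le_add_right hcirc _))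
    rcases hx with ⟨⟨hK, hb⟩ | hs, hxB⟩
    · exact Or.inl ⟨⟨hK, hxB⟩, hb⟩
    · exact Or.inr hs
  have hLtop : len (L ∩ B) ≠ ⊤ :=
    ne_top_of_le_ne_top (ENNReal.add_ne_top.2 ⟨hkout, ENNReal.ofReal_ne_top⟩) hLle
  have hKB : len (K ∩ B) = len (K ∩ ball c r) + len ((K ∩ B) \ ball c r) := by
    rw [← measure_inter_add_sdiff (K ∩ B) (measurableSet_ball (x := c) (ε := r)),
      inter_assoc, inter_eq_self_of_subset_right hbB]
  have hv := h.vary L δ ρ hLc hLn hsmooth hzero heq (keepsSeparation_circle hcB) hLtop hdmem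
  have e1 : ∫ x, ‖grad δ x‖ ^ 2 = ∫ x in ball c r, ‖grad u x‖ ^ 2 := by
    rw [← integral_indicator measurableSet_ball]
    refine integral_congr_ae (hgd.mono fun x hx => ?_)
    simp only [hx]
    by_cases hxb : x ∈ ball c r <;> simp [hxb]
  have e2 : ∫ x, dot (grad u x) (grad δ x) = -∫ x in ball c r, ‖grad u x‖ ^ 2 := by
    rw [← integral_indicator measurableSet_ball, ← integral_neg]
    refine integral_congr_ae (hgd.mono fun x hx => ?_)
    simp only [hx]
    by_cases hxb : x ∈ ball c r
    · simp only [indicator_of_mem hxb, Complex.sq_norm, Complex.normSq_apply, dot, Complex.neg_re,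
        Complex.neg_im]
      ring
    · simp [hxb, dot]
  rw [e1, e2, show Measure.hausdorffMeasure 1 (K ∩ ball 0 (ρ + 1)) = _ from hKB,
    ENNReal.toReal_add hkin hkout] at hv
  have hreal := ENNReal.toReal_mono (ENNReal.add_ne_top.2 ⟨hkout, ENNReal.ofReal_ne_top⟩) hLle
  have hπ : 0 ≤ 2 * Real.pi * r := by positivity
  rw [ENNReal.toReal_add hkout ENNReal.ofReal_ne_top, ENNReal.toReal_ofReal hπ] at hreal
  have hI : 0 ≤ ∫ x in ball c r, ‖grad u x‖ ^ 2 := integral_nonneg fun x => by positivity
  refine ⟨(ENNReal.le_ofReal_iff_toReal_le hkin hπ).2 ?_, ?_⟩ <;>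
    linarith [ENNReal.toReal_nonneg (a := len (K ∩ ball c r))]

/-- In a disk, a component of a set with unbounded components reaches the circle. -/
lemma component_meets_sphere {K : Set ℂ} (hK : IsClosed K) {R : ℝ} {x : ℂ}
    (hx : x ∈ K ∩ closedBall 0 R) (hunb : ¬ Bornology.IsBounded (connectedComponentIn K x)) :
    (connectedComponentIn (K ∩ closedBall 0 R) x ∩ sphere 0 R).Nonempty := by
  set X := K ∩ closedBall (0 : ℂ) R with hX
  have hXc : IsCompact X := (isCompact_closedBall _ _).inter_left hK
  have := isCompact_iff_compactSpace.1 hXc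
  by_contra hne
  rw [not_nonempty_iff_eq_empty] at hne
  set p : X := ⟨x, hx⟩
  have hT : IsCompact ((Subtype.val : X → ℂ) ⁻¹' sphere 0 R) :=
    (isClosed_sphere.preimage continuous_subtype_val).isCompact
  obtain ⟨t, ht⟩ := hT.elim_finite_subfamily_closed
    (fun s : { s : Set X // IsClopen s ∧ p ∈ s } => (s : Set X)) (fun s => s.2.1.1) (by
      rw [← connectedComponent_eq_iInter_isClopen, eq_empty_iff_forall_notMem]
      rintro q ⟨hq, hqc⟩
      exact eq_empty_iff_forall_notMem.1 hne q
        ⟨connectedComponentIn_eq_image hx ▸ mem_image_of_mem _ hqc, hq⟩)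
  set Z : Set X := ⋂ i ∈ t, (i : Set X)
  have hZ : IsClopen Z := isClopen_biInter_finset fun i _ => i.2.1
  have hpZ : p ∈ Z := mem_iInter₂.2 fun i _ => i.2.2
  obtain ⟨U, hU, hUZ⟩ := isOpen_induced_iff.1 hZ.isOpen
  set Zv : Set ℂ := Subtype.val '' Z
  have hball : Zv ⊆ ball 0 R := by
    rintro _ ⟨q, hq, rfl⟩
    have h1 : q.1 ∉ sphere (0 : ℂ) R := fun h => eq_empty_iff_forall_notMem.1 ht q ⟨h, hq⟩
    have h2 := q.2.2
    rw [mem_closedBall] at h2
    exact mem_ball.2 (lt_of_le_of_ne h2 fun h => h1 (mem_sphere.2 h))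
  have hZc : IsClosed Zv := (hZ.isClosed.isCompact.image continuous_subtype_val).isClosed
  refine hunb ((isBounded_ball (x := (0 : ℂ)) (r := R)).subset (Subset.trans ?_ hball))
  set C := connectedComponentIn K x
  have hsub : C ⊆ (U ∩ ball 0 R) ∪ Zvᶜ := by
    intro q hq
    by_cases h : q ∈ Zv
    · refine Or.inl ⟨?_, hball h⟩
      obtain ⟨z, hz, rfl⟩ := h
      rw [← hUZ] at hz
      exact hz
    · exact Or.inr h
  intro q hq
  by_contra hqZ
  obtain ⟨z, hzC, ⟨hzU, hzB⟩, hzZ⟩ := isPreconnected_connectedComponentIn (U ∩ ball 0 R) Zvᶜ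
    (hU.inter isOpen_ball) hZc.isOpen_compl hsub
    ⟨x, mem_connectedComponentIn hx.1, (hUZ.symm ▸ hpZ : p ∈ Subtype.val ⁻¹' U),
      hball (mem_image_of_mem Subtype.val hpZ)⟩ ⟨q, hq, hqZ⟩
  refine hzZ ⟨⟨z, connectedComponentIn_subset _ _ hzC, ball_subset_closedBall hzB⟩, ?_, rfl⟩
  rw [← hUZ]
  exact hzU

/-- A connected set from `ball 0 R` to the circle of radius `2 R` has length at least `R`. -/
lemma length_ge_of_crossing {J : Set ℂ} {R : ℝ} (hJ : IsPreconnected J)
    (h₁ : (J ∩ ball 0 R).Nonempty) (h₂ : (J ∩ sphere 0 (2 * R)).Nonempty) :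
    ENNReal.ofReal R ≤ len (J ∩ ball 0 (2 * R)) := by
  obtain ⟨a, haJ, ha⟩ := h₁
  obtain ⟨b, hbJ, hb⟩ := h₂
  rw [mem_ball_zero_iff] at ha
  rw [mem_sphere_zero_iff_norm] at hb
  have hsub : Ioo R (2 * R) ⊆ norm '' (J ∩ ball 0 (2 * R)) := by
    intro t ht
    obtain ⟨z, hz, rfl⟩ := hJ.intermediate_value haJ hbJ continuous_norm.continuousOn
      ⟨ha.le.trans ht.1.le, ht.2.le.trans_eq hb.symm⟩
    exact ⟨z, ⟨hz, mem_ball_zero_iff.2 ht.2⟩, rfl⟩
  calc ENNReal.ofReal R = volume (Ioo R (2 * R)) := by rw [Real.volume_Ioo]; ring_nf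
    _ ≤ volume (norm '' (J ∩ ball 0 (2 * R))) := measure_mono hsub
    _ = Measure.hausdorffMeasure 1 (norm '' (J ∩ ball 0 (2 * R))) := by rw [hausdorffMeasure_real]
    _ ≤ ((1 : ℝ≥0) : ℝ≥0∞) ^ (1 : ℝ) * len (J ∩ ball 0 (2 * R)) :=
        lipschitzWith_one_norm.hausdorffMeasure_image_le zero_le_one _
    _ = _ := by simp

/-- Finitely many continua cover each disk. -/
theorem coverGoal : CoverGoal := by
  intro K hK hunb hfin R hR
  set X := K ∩ closedBall (0 : ℂ) (2 * R) with hX
  have hXc : IsCompact X := (isCompact_closedBall _ _).inter_left hK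
  have := isCompact_iff_compactSpace.1 hXc
  set Jf := fun x => connectedComponentIn X x with hJf
  have hmem : ∀ x ∈ K ∩ ball 0 R, x ∈ X := fun x hx =>
    ⟨hx.1, ball_subset_closedBall (ball_subset_ball (by linarith) hx.2)⟩
  have hcomp : ∀ x ∈ K ∩ ball 0 R, IsCompact (Jf x) := fun x hx => by
    simp only [Jf, connectedComponentIn_eq_image (hmem x hx)]
    exact isClosed_connectedComponent.isCompact.image continuous_subtype_val
  have hlen : ∀ x ∈ K ∩ ball 0 R, ENNReal.ofReal R ≤ len (Jf x ∩ ball 0 (2 * R)) := fun x hx =>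
    length_ge_of_crossing isPreconnected_connectedComponentIn
      ⟨x, mem_connectedComponentIn (hmem x hx), hx.2⟩
      (component_meets_sphere hK (hmem x hx) (hunb x hx.1))
  have hfam : (Jf '' (K ∩ ball 0 R)).Finite := by
    by_contra hinf
    obtain ⟨N, hN⟩ := exists_nat_gt ((len (K ∩ ball 0 (2 * R))).toReal / R)
    obtain ⟨T, hTsub, hTcard⟩ := Set.Infinite.exists_subset_card_eq hinf N
    have hdisj : (T : Set (Set ℂ)).PairwiseDisjoint fun J => J ∩ ball (0 : ℂ) (2 * R) := by
      intro A hA B hB hAB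
      obtain ⟨a, -, rfl⟩ := hTsub hA
      obtain ⟨b, -, rfl⟩ := hTsub hB
      refine disjoint_left.2 fun z hza hzb => hAB ?_
      exact (connectedComponentIn_eq hza.1).trans (connectedComponentIn_eq hzb.1).symm
    have hle : (N : ℝ≥0∞) * ENNReal.ofReal R ≤ len (K ∩ ball 0 (2 * R)) := by
      calc (N : ℝ≥0∞) * ENNReal.ofReal R = ∑ _J ∈ T, ENNReal.ofReal R := by
            rw [Finset.sum_const, hTcard, nsmul_eq_mul]
        _ ≤ ∑ J ∈ T, len (J ∩ ball 0 (2 * R)) := Finset.sum_le_sum fun J hJ => by
            obtain ⟨a, ha, rfl⟩ := hTsub hJ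
            exact hlen a ha
        _ = len (⋃ J ∈ T, J ∩ ball 0 (2 * R)) := (measure_biUnion_finset hdisj fun J hJ => by
            obtain ⟨a, ha, rfl⟩ := hTsub hJ
            exact (hcomp a ha).measurableSet.inter measurableSet_ball).symm
        _ ≤ _ := measure_mono (iUnion₂_subset fun J hJ => by
            obtain ⟨a, -, rfl⟩ := hTsub hJ
            exact inter_subset_inter_left _
              ((connectedComponentIn_subset _ _).trans inter_subset_left))
    have h2 := ENNReal.toReal_mono (hfin _) hle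
    rw [ENNReal.toReal_mul, ENNReal.toReal_natCast, ENNReal.toReal_ofReal hR.le] at h2
    rw [div_lt_iff₀ hR] at hN
    linarith
  refine ⟨hfam.toFinset, fun J hJ => ?_, fun x hx => ?_⟩
  · obtain ⟨a, ha, rfl⟩ := hfam.mem_toFinset.1 hJ
    refine ⟨hcomp a ha, isPreconnected_connectedComponentIn,
      ⟨a, mem_connectedComponentIn (hmem a ha)⟩,
      (connectedComponentIn_subset _ _).trans inter_subset_left, ?_⟩
    exact ne_top_of_le_ne_top (hfin (2 * R + 1)) (measure_mono
      ((connectedComponentIn_subset _ _).trans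
        (inter_subset_inter_right _ (closedBall_subset_ball (by linarith)))))
  · exact mem_iUnion₂.2 ⟨_, hfam.mem_toFinset.2 ⟨x, hx, rfl⟩, mem_connectedComponentIn (hmem x hx)⟩

end Vale.Agent.P128.Connected
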