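import Vale.Agent.P128.Connected.Potential.Curve

/-!
# The conjugate potential and its constancy along curves in the singular set
-/

namespace Vale.Agent.P128.Connected

open Islands

theorem potentialGoal : PotentialGoal := fun _ _ hR hD => by
  obtain ⟨v, hc, hs, hg, -⟩ := Potential.exists_potential hR hD
  exact ⟨v, hc, hs, hg⟩

theorem curveConstantGoal : CurveConstantGoal := fun _ _ _ hR hD hvc hvs hvg γ _ hγ hK => by
  rw [← sub_eq_zero, Potential.sub_eq_dipole hR hD hvc hvs hvg,
    Potential.integral_dipole_eq_zero hR hD hγ hK, mul_zero, neg_zero, zero_div]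

end Vale.Agent.P128.Connected
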