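import Vale.Agent.P128.Connected.Interface
import Vale.Agent.P128.Islands.Calculus

/-!
# The second variation along weighted translations

The competitor of `(u, K)` is obtained from the diffeomorphism `x ↦ x + ζ x • a` and a correction
of `u`. Summing over the four translations `± t, ± t * I` cancels the first order terms; the
length is estimated on the cone pieces of `K`.
-/

namespace Vale.Agent.P128.Connected

open MeasureTheory Filter Metric Set Islands
open scoped Topology ENNReal NNReal ContDiff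

/-- The weighted translation. -/
noncomputable def shift (a : ℂ) (ζ : ℂ → ℝ) (x : ℂ) : ℂ := x + ζ x • a

/-- The energy density of the moved field, pulled back. -/
noncomputable def pullVal (a b X : ℂ) : ℝ :=
  (1 + dot a b) * dot X X - 2 * dot a X * dot b X + dot b b * dot a X ^ 2 / (1 + dot a b)

lemma fderiv_eq_dot_grad (f : ℂ → ℝ) (x h : ℂ) : fderiv ℝ f x h = dot (grad f x) h := by
  have e : h = h.re • (1 : ℂ) + h.im • Complex.I := by simp
  conv_lhs => rw [e]
  rw [map_add, map_smul, map_smul]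
  simp [dot, grad_re, grad_im]
  ring

lemma abs_dot_le (v w : ℂ) : |dot v w| ≤ ‖v‖ * ‖w‖ := by
  rw [dot_eq_inner]; exact abs_real_inner_le_norm v w

/-- Squared length of a moved unit vector, to second order. -/
lemma norm_add_smul_le {τ a : ℂ} (hτ : ‖τ‖ = 1) (β : ℝ) :
    ‖τ + β • a‖ ≤ 1 + dot a τ * β + ‖a‖ ^ 2 * β ^ 2 / 2 := by
  have h1 : ‖τ + β • a‖ ^ 2 = 1 + (2 * (dot a τ * β) + ‖a‖ ^ 2 * β ^ 2) := by
    rw [norm_add_sq_dot, hτ, norm_smul, mul_pow, Real.norm_eq_abs, sq_abs]
    simp [dot]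
    ring
  nlinarith [sq_nonneg (2 * (dot a τ * β) + ‖a‖ ^ 2 * β ^ 2), norm_nonneg (τ + β • a),
    sq_nonneg ‖τ + β • a‖]

lemma det_shift (b a : ℂ) {A : ℂ →L[ℝ] ℂ} (hA : ∀ h, A h = h + dot b h • a) :
    A.det = 1 + dot a b := by
  change LinearMap.det (A : ℂ →ₗ[ℝ] ℂ) = _
  rw [← LinearMap.det_toMatrix Complex.basisOneI, Matrix.det_fin_two]
  simp [LinearMap.toMatrix_apply, hA, dot, Complex.coe_basisOneI_repr, Complex.coe_basisOneI]
  ring

/-- A weighted translation of small size is a diffeomorphism. -/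
lemma exists_shift_homeomorph {ζ : ℂ → ℝ} (hζ : ContDiff ℝ ∞ ζ) {B : ℝ} (hB : 0 ≤ B)
    (hb : ∀ x, ‖grad ζ x‖ ≤ B) {a : ℂ} (ha : ‖a‖ * B ≤ 1 / 2) :
    (∃ e : ℂ ≃ₜ ℂ, (∀ x, e x = shift a ζ x) ∧ ContDiff ℝ ∞ e.symm) ∧
      ∀ x, HasFDerivAt (shift a ζ) (ContinuousLinearMap.id ℝ ℂ + (fderiv ℝ ζ x).smulRight a) x := by
  have hd : ∀ x, HasFDerivAt (shift a ζ)
      (ContinuousLinearMap.id ℝ ℂ + (fderiv ℝ ζ x).smulRight a) x := fun x =>
    (hasFDerivAt_id x).add ((hζ.differentiable (by simp) x).hasFDerivAt.smul_const a)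
  have hlip : ∀ x y, |ζ x - ζ y| ≤ B * ‖x - y‖ := fun x y => by
    rw [← Real.norm_eq_abs]
    refine convex_univ.norm_image_sub_le_of_norm_fderiv_le (𝕜 := ℝ)
      (fun z _ => hζ.differentiable (by simp) z) (fun z _ => ?_) (mem_univ y) (mem_univ x)
    refine ContinuousLinearMap.opNorm_le_bound _ hB fun h => ?_
    rw [fderiv_eq_dot_grad, Real.norm_eq_abs]
    exact (abs_dot_le _ _).trans (mul_le_mul_of_nonneg_right (hb z) (norm_nonneg _))
  have hA : ApproximatesLinearOn (shift a ζ)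
      ((ContinuousLinearEquiv.refl ℝ ℂ : ℂ ≃L[ℝ] ℂ) : ℂ →L[ℝ] ℂ) univ (1 / 2 : ℝ≥0) := by
    intro x _ y _
    have e : shift a ζ x - shift a ζ y - (x - y) = (ζ x - ζ y) • a := by
      simp only [shift, sub_smul]; abel
    simp only [ContinuousLinearEquiv.coe_refl, ContinuousLinearMap.id_apply, e, norm_smul,
      Real.norm_eq_abs]
    refine (mul_le_mul_of_nonneg_right (hlip x y) (norm_nonneg a)).trans ?_
    push_cast
    calc B * ‖x - y‖ * ‖a‖ = ‖a‖ * B * ‖x - y‖ := by ring
      _ ≤ 1 / 2 * ‖x - y‖ := mul_le_mul_of_nonneg_right ha (norm_nonneg _)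
  refine ⟨⟨hA.toHomeomorph _ (Or.inr ?_), fun x => rfl, ?_⟩, hd⟩
  · have : ‖((ContinuousLinearEquiv.refl ℝ ℂ).symm : ℂ →L[ℝ] ℂ)‖₊ = 1 := by
      simp
    rw [this, inv_one]
    norm_num
  · have hdet : ∀ x, (ContinuousLinearMap.id ℝ ℂ + (fderiv ℝ ζ x).smulRight a).det ≠ 0 := by
      intro x
      rw [det_shift (grad ζ x) a fun h => by simp [fderiv_eq_dot_grad]]
      have := (abs_dot_le a (grad ζ x)).trans (mul_le_mul_of_nonneg_left (hb x) (norm_nonneg _))
      intro h0
      rw [show dot a (grad ζ x) = -1 by linarith] at this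
      norm_num at this
      linarith
    exact Homeomorph.contDiff_symm _
      (f₀' := fun x => ContinuousLinearMap.toContinuousLinearEquivOfDetNeZero _ (hdet x))
      (fun x => hd x) (contDiff_id.add (hζ.smul contDiff_const))

/-- The gradient of the moved function and its density. -/
lemma pull_density {a b X V : ℂ} (hpos : 1 + dot a b ≠ 0)
    (hV : ∀ h, dot X h = dot V (h + dot b h • a)) :
    V = X - (dot a X / (1 + dot a b)) • b ∧ (1 + dot a b) * dot V V = pullVal a b X := by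
  have h1 := hV 1
  have h2 := hV Complex.I
  simp [dot] at h1 h2
  have hax : dot a X = dot a V * (1 + dot a b) := by
    simp only [dot]; rw [h1, h2]; ring
  have e : dot a X / (1 + dot a b) = dot a V := by rw [hax]; field_simp
  have hX : X = V + dot a V • b := by
    apply Complex.ext <;> simp [dot, h1, h2] <;> ring
  refine ⟨?_, ?_⟩
  · rw [e, hX]; abel
  · unfold pullVal
    have e2 : dot b b * dot a X ^ 2 / (1 + dot a b) = dot b b * dot a V ^ 2 * (1 + dot a b) := by
      rw [hax]; field_simp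
    rw [e2, hax]
    simp only [dot]
    rw [h1, h2]
    ring

/-- The inequality of minimality against a moved configuration. -/
lemma vary_shift {u : ℂ → ℝ} {K : Set ℂ} (h : Reg u K) {ζ W : ℂ → ℝ} (hζ : IsTest univ ζ)
    (hW : ContDiffOn ℝ ∞ W Kᶜ) (hWg : MemLp (grad W) 2) {ρ : ℝ}
    (hζ0 : ∀ x, x ∉ closedBall (0 : ℂ) ρ → ζ x = 0)
    (hW0 : ∀ x, x ∉ closedBall (0 : ℂ) ρ → W x = 0) {B : ℝ} (hB : 0 ≤ B)
    (hb : ∀ x, ‖grad ζ x‖ ≤ B) {a : ℂ} (ha : ‖a‖ * B ≤ 1 / 2) :
    IntegrableOn (fun x => pullVal a (grad ζ x) (grad u x + grad W x)) (ball 0 (ρ + 1)) ∧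
      0 ≤ ((Measure.hausdorffMeasure 1 (shift a ζ '' (K ∩ ball 0 (ρ + 1)))).toReal -
        (Measure.hausdorffMeasure 1 (K ∩ ball 0 (ρ + 1))).toReal) +
        (∫ x in ball 0 (ρ + 1), pullVal a (grad ζ x) (grad u x + grad W x)) -
        ∫ x in ball 0 (ρ + 1), ‖grad u x‖ ^ 2 := by
  obtain ⟨⟨e, he, hes⟩, hd⟩ := exists_shift_homeomorph hζ.1 hB hb ha
  have hfix : ∀ x, x ∉ closedBall (0 : ℂ) ρ → e x = x := fun x hx => by
    simp [he, shift, hζ0 x hx]
  have hfix' : ∀ x, x ∉ closedBall (0 : ℂ) ρ → e.symm x = x := fun x hx => by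
    conv_lhs => rw [← hfix x hx]
    exact e.symm_apply_apply x
  have hin : closedBall (0 : ℂ) ρ ⊆ ball 0 (ρ + 1) := closedBall_subset_ball (by linarith)
  set D := ball (0 : ℂ) (ρ + 1) with hD
  have hDe : e '' D = D := by
    refine subset_antisymm (image_subset_iff.2 fun x hx => ?_) fun y hy => ?_
    · by_contra hn
      have h1 := hfix (e x) fun h' => hn (hin h')
      exact hn (show e x ∈ D by rw [e.injective h1]; exact hx)
    · refine ⟨e.symm y, ?_, e.apply_symm_apply y⟩
      by_contra hn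
      have h1 := hfix (e.symm y) fun h' => hn (hin h')
      rw [e.apply_symm_apply] at h1
      exact hn (h1 ▸ hy)
  have heq : (e : ℂ → ℂ) = shift a ζ := funext he
  set L := e '' K with hL
  have hLcl : IsClosed L := e.isClosedMap K h.isClosed
  have hLnull : (volume : Measure ℂ) L = 0 := by
    rw [hL, heq]
    exact addHaar_image_eq_zero_of_differentiableOn_of_addHaar_eq_zero _
      (fun x _ => (hd x).differentiableAt.differentiableWithinAt) h.null
  set v : ℂ → ℝ := fun y => u (e.symm y) + W (e.symm y) with hv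
  have hmaps : MapsTo e.symm Lᶜ Kᶜ := fun y hy hK => hy ⟨_, hK, e.apply_symm_apply y⟩
  have hvs : ContDiffOn ℝ ∞ v Lᶜ := (h.smooth.add hW).comp hes.contDiffOn hmaps
  set A : ℂ → ℂ →L[ℝ] ℂ := fun x => ContinuousLinearMap.id ℝ ℂ + (fderiv ℝ ζ x).smulRight a
  have hAx : ∀ x h', A x h' = h' + dot (grad ζ x) h' • a := fun x h' => by
    simp [A, fderiv_eq_dot_grad]
  have hdab : ∀ x, |dot a (grad ζ x)| ≤ 1 / 2 := fun x =>
    ((abs_dot_le _ _).trans (mul_le_mul_of_nonneg_left (hb x) (norm_nonneg _))).trans ha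
  have hpos : ∀ x, 0 < 1 + dot a (grad ζ x) := fun x => by
    linarith [neg_le_of_abs_le (hdab x)]
  set X : ℂ → ℂ := fun x => grad u x + grad W x with hX
  -- the gradient of the moved function
  have hgrad : ∀ x, x ∉ K → grad v (e x) =
      X x - (dot a (X x) / (1 + dot a (grad ζ x))) • grad ζ x ∧
      (1 + dot a (grad ζ x)) * dot (grad v (e x)) (grad v (e x)) =
        pullVal a (grad ζ x) (X x) := by
    intro x hx
    have hexL : e x ∈ Lᶜ := fun ⟨z, hz, hze⟩ => hx (e.injective hze ▸ hz)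
    have dv : DifferentiableAt ℝ v (e x) :=
      ((hvs _ hexL).contDiffAt (hLcl.isOpen_compl.mem_nhds hexL)).differentiableAt (by simp)
    have du : DifferentiableAt ℝ u x :=
      ((h.smooth x hx).contDiffAt (h.isClosed.isOpen_compl.mem_nhds hx)).differentiableAt (by simp)
    have dW : DifferentiableAt ℝ W x :=
      ((hW x hx).contDiffAt (h.isClosed.isOpen_compl.mem_nhds hx)).differentiableAt (by simp)
    have hc : (fun z => u z + W z) = v ∘ (shift a ζ) := by
      funext z; simp [hv, ← he]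
    have hf : fderiv ℝ (fun z => u z + W z) x = (fderiv ℝ v (e x)).comp (A x) := by
      rw [hc, fderiv_comp x (by rw [← he]; exact dv) (hd x).differentiableAt, (hd x).fderiv, ← he]
    refine pull_density (hpos x).ne' fun w => ?_
    have := congrArg (fun T : ℂ →L[ℝ] ℝ => T w) hf
    simp only [ContinuousLinearMap.comp_apply, fderiv_eq_dot_grad, grad_add du dW, hAx] at this
    exact this
  have hDm : MeasurableSet D := measurableSet_ball
  have hWD : MemLp X 2 (volume.restrict D) := (h.memLp _).add (hWg.restrict _)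
  have cb : Continuous (grad ζ) := by
    have := (contDiffOn_grad isOpen_univ hζ.1.contDiffOn).continuousOn
    rwa [continuousOn_univ] at this
  have cdot : Continuous fun p : ℂ × ℂ => dot p.1 p.2 := by unfold dot; fun_prop
  set T : ℂ → ℂ := fun x => X x - (dot a (X x) / (1 + dot a (grad ζ x))) • grad ζ x
  have hT : MemLp T 2 (volume.restrict D) := by
    refine hWD.of_le_mul (c := 2) ?_ (Eventually.of_forall fun x => ?_)
    · have hc : AEStronglyMeasurable (fun x => dot a (X x) * (1 + dot a (grad ζ x))⁻¹)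
          (volume.restrict D) := ?_
      · simp only [T, div_eq_mul_inv]
        exact hWD.1.sub (hc.smul cb.aestronglyMeasurable)
      refine AEStronglyMeasurable.mul ?_ (Continuous.aestronglyMeasurable ?_)
      · exact (cdot.comp (continuous_const.prodMk continuous_id)).comp_aestronglyMeasurable hWD.1
      · exact (continuous_const.add (cdot.comp (continuous_const.prodMk cb))).inv₀
          fun z => (hpos z).ne'
    · refine (norm_sub_le _ _).trans ?_
      have h1 : ‖(dot a (X x) / (1 + dot a (grad ζ x))) • grad ζ x‖ ≤ ‖X x‖ := by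
        rw [norm_smul, Real.norm_eq_abs, abs_div, abs_of_pos (hpos x), div_mul_eq_mul_div,
          div_le_iff₀ (hpos x)]
        calc |dot a (X x)| * ‖grad ζ x‖ ≤ ‖a‖ * ‖X x‖ * B :=
              mul_le_mul (abs_dot_le _ _) (hb x) (norm_nonneg _) (by positivity)
          _ = ‖X x‖ * (‖a‖ * B) := by ring
          _ ≤ ‖X x‖ * (1 + dot a (grad ζ x)) :=
              mul_le_mul_of_nonneg_left
                (by linarith [neg_le_of_abs_le (hdab x)]) (norm_nonneg _)
      linarith
  have hae : (fun x => |(A x).det| • ‖grad v (shift a ζ x)‖ ^ 2) =ᵐ[volume.restrict D]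
      fun x => pullVal a (grad ζ x) (X x) := by
    filter_upwards [ae_restrict_of_ae (measure_eq_zero_iff_ae_notMem.1 h.null)] with x hx
    rw [det_shift (grad ζ x) a (hAx x), abs_of_pos (hpos x), ← he, norm_sq_eq_dot, smul_eq_mul,
      (hgrad x hx).2]
  have hint : IntegrableOn (fun x => pullVal a (grad ζ x) (X x)) D := by
    have hbnd : Integrable (fun x => (1 + dot a (grad ζ x)) * ‖T x‖ ^ 2) (volume.restrict D) :=
      hT.norm.integrable_sq.bdd_mul (c := 2) (Continuous.aestronglyMeasurable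
        (continuous_const.add (cdot.comp (continuous_const.prodMk cb))))
        (Eventually.of_forall fun x => by
          rw [Real.norm_eq_abs, abs_of_pos (hpos x)]; linarith [le_of_abs_le (hdab x)])
    refine hbnd.congr ?_
    filter_upwards [ae_restrict_of_ae (measure_eq_zero_iff_ae_notMem.1 h.null)] with x hx
    rw [← (hgrad x hx).2, (hgrad x hx).1, norm_sq_eq_dot]
  refine ⟨hint, ?_⟩
  have himg : shift a ζ '' D = D := heq ▸ hDe
  have hinj : InjOn (shift a ζ) D := heq ▸ e.injective.injOn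
  have hvi : IntegrableOn (fun y => ‖grad v y‖ ^ 2) D := by
    rw [← himg, integrableOn_image_iff_integrableOn_abs_det_fderiv_smul volume hDm
      (fun x _ => (hd x).hasFDerivWithinAt) hinj]
    exact hint.congr hae.symm
  have hvv : ∫ y in D, ‖grad v y‖ ^ 2 = ∫ x in D, pullVal a (grad ζ x) (X x) := by
    conv_lhs => rw [← himg]
    rw [integral_image_eq_integral_abs_det_fderiv_smul volume hDm
      (fun x _ => (hd x).hasFDerivWithinAt) hinj]
    exact integral_congr_ae hae
  have hvm : MemLp (grad v) 2 (volume.restrict D) := by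
    refine (memLp_two_iff_integrable_sq_norm ?_).2 hvi
    rw [← Measure.restrict_congr_set (sdiff_null_ae_eq_self hLnull)]
    exact ((contDiffOn_grad hLcl.isOpen_compl hvs).continuousOn.aestronglyMeasurable
      hLcl.isOpen_compl.measurableSet).mono_set fun y hy => hy.2
  set δ : ℂ → ℝ := fun y => v y - u y with hδ
  have hδ0 : ∀ y, y ∉ closedBall (0 : ℂ) ρ → δ y = 0 := fun y hy => by
    simp [hδ, hv, hfix' y hy, hW0 y hy]
  have hgδ0 : ∀ y, y ∉ D → grad δ y = 0 := fun y hy =>
    grad_eq_zero_outside isClosed_closedBall hδ0 fun h' => hy (hin h')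
  have hgδ : ∀ᵐ y : ℂ, grad δ y = grad v y - grad u y := by
    filter_upwards [measure_eq_zero_iff_ae_notMem.1 h.null,
      measure_eq_zero_iff_ae_notMem.1 hLnull] with y hy hy'
    exact grad_sub
      (((hvs y hy').contDiffAt (hLcl.isOpen_compl.mem_nhds hy')).differentiableAt (by simp))
      (((h.smooth y hy).contDiffAt (h.isClosed.isOpen_compl.mem_nhds hy)).differentiableAt
        (by simp))
  have hδm : MemLp (grad δ) 2 := by
    have h0 : MemLp (grad δ) 2 (volume.restrict D) :=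
      (memLp_congr_ae (ae_restrict_of_ae hgδ)).2 (hvm.sub (h.memLp _))
    have := (memLp_indicator_iff_restrict hDm).2 h0
    rwa [indicator_eq_self.2 fun y hy => by_contra fun hn => hy (hgδ0 y hn)] at this
  have hLD : L ∩ D = shift a ζ '' (K ∩ D) := by
    rw [image_inter (heq ▸ e.injective), himg, hL, heq]
  have hLfin : Measure.hausdorffMeasure 1 (L ∩ D) ≠ ⊤ := by
    rw [hLD]
    obtain ⟨C, hC⟩ : ∃ C, LipschitzWith C (shift a ζ) := by
      obtain ⟨C, hC⟩ := hζ.1.lipschitzWith_of_hasCompactSupport hζ.2.1 (by simp)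
      exact ⟨_, LipschitzWith.id.add ((ContinuousLinearMap.toSpanSingleton ℝ a).lipschitz.comp hC)⟩
    exact ne_top_of_le_ne_top
      (ENNReal.mul_ne_top (ENNReal.rpow_ne_top_of_nonneg zero_le_one ENNReal.coe_ne_top)
        (h.length_ne_top _)) (hC.hausdorffMeasure_image_le zero_le_one _)
  have hsep : KeepsSeparation K L D := by
    intro x y hx hy hn hyL
    refine hn ?_
    have fx : e.symm x = x := hfix' x fun h' => hx (Or.inl (hin h'))
    have fy : e.symm y = y := hfix' y fun h' => hy (Or.inl (hin h'))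
    have hxL : x ∈ Lᶜ := fun ⟨z, hz, hze⟩ => hx (Or.inr (by
      rw [← fx, ← hze, e.symm_apply_apply]; exact hz))
    exact (isPreconnected_connectedComponentIn.image e.symm
      e.symm.continuous.continuousOn).subset_connectedComponentIn
      ⟨x, mem_connectedComponentIn hxL, fx⟩
      (by rintro _ ⟨z, hz, rfl⟩; exact hmaps (connectedComponentIn_subset _ _ hz))
      ⟨y, hyL, fy⟩
  have hLK : L \ closedBall 0 ρ = K \ closedBall 0 ρ := by
    ext y
    constructor
    · rintro ⟨⟨z, hz, rfl⟩, hy⟩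
      have := hfix' (e z) hy
      rw [e.symm_apply_apply] at this
      exact ⟨this ▸ hz, hy⟩
    · rintro ⟨hy, hy'⟩
      exact ⟨⟨y, hy, hfix y hy'⟩, hy'⟩
  have key := h.vary L δ ρ hLcl hLnull (hvs.congr fun y _ => by simp [hδ]) hδ0 hLK hsep hLfin hδm
  have hcross : Integrable fun y => dot (grad u y) (grad δ y) :=
    h.integrable_dot hδm (r := ρ + 1) hgδ0
  have e1 : (∫ y, ‖grad δ y‖ ^ 2) + 2 * ∫ y, dot (grad u y) (grad δ y) =
      (∫ y in D, ‖grad v y‖ ^ 2) - ∫ y in D, ‖grad u y‖ ^ 2 := by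
    rw [← integral_const_mul, ← integral_add hδm.norm.integrable_sq (hcross.const_mul 2),
      ← integral_sub hvi (h.memLp (ρ + 1)).norm.integrable_sq,
      ← setIntegral_eq_integral_of_forall_compl_eq_zero (s := D)
        (fun y hy => by simp [hgδ0 y hy, dot])]
    refine integral_congr_ae ((ae_restrict_of_ae hgδ).mono fun y hy => ?_)
    simp only [hy, norm_sq_eq_dot, dot, Complex.sub_re, Complex.sub_im]
    ring
  rw [hLD, hvv] at *
  linarith

/-- The length of the four moved sets. -/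
lemma length_four {S : Set ℂ} (hP : ConePieces S)
    (hfin : Measure.hausdorffMeasure 1 S ≠ ⊤) {ζ : ℂ → ℝ} (hζ : ContDiff ℝ ∞ ζ) {B : ℝ}
    (hB : 0 ≤ B) (hb : ∀ x, ‖grad ζ x‖ ≤ B) {M : ℝ≥0} (hM : LipschitzWith M (fderiv ℝ ζ))
    {t : ℝ} (ht : 0 ≤ t) (ht1 : t ≤ 1) (htB : t * B ≤ 1 / 2) :
    (Measure.hausdorffMeasure 1 (shift t ζ '' S)).toReal +
      (Measure.hausdorffMeasure 1 (shift (-t) ζ '' S)).toReal +
      (Measure.hausdorffMeasure 1 (shift (t * Complex.I) ζ '' S)).toReal +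
      (Measure.hausdorffMeasure 1 (shift (-t * Complex.I) ζ '' S)).toReal ≤
      4 * (Measure.hausdorffMeasure 1 S).toReal +
        2 * t ^ 2 * ∫ x in S, ‖grad ζ x‖ ^ 2 ∂Measure.hausdorffMeasure 1 := by
  set m := (Measure.hausdorffMeasure 1 : Measure ℂ) with hm
  have : IsFiniteMeasure (m.restrict S) := isFiniteMeasure_restrict.2 hfin
  have cb : Continuous (grad ζ) := by
    have := (contDiffOn_grad isOpen_univ hζ.contDiffOn).continuousOn
    rwa [continuousOn_univ] at this
  have hib : IntegrableOn (fun x => ‖grad ζ x‖ ^ 2) S m :=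
    (integrable_const (B ^ 2)).mono' (cb.norm.pow 2).aestronglyMeasurable
      (Eventually.of_forall fun x => by
        rw [Real.norm_eq_abs, abs_of_nonneg (by positivity)]
        exact pow_le_pow_left₀ (norm_nonneg _) (hb x) 2)
  set k : ℝ := 4 * (2 + M) + 8 * B * M with hk
  have hk0 : 0 ≤ k := by positivity
  refine le_of_forall_pos_le_add fun ε hε => ?_
  set η := ε / (k * ((m S).toReal + 1) + 1) with hηd
  have hη : 0 < η := by positivity
  obtain ⟨E, τ, hEm, hEd, hτ, hES, hcone, hrest⟩ := hP η hη η hη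
  -- the Lipschitz constant on each piece
  have hcov : ∀ a : ℂ, ‖a‖ = t → ∀ L : ℕ → ℝ, (∀ i, 0 ≤ L i) →
      (∀ i, ∀ x ∈ E i, ∀ y ∈ E i, ‖shift a ζ y - shift a ζ x‖ ≤ L i * ‖y - x‖) →
      m (shift a ζ '' S) ≤ ∑' i, ENNReal.ofReal (L i) * m (E i) := by
    intro a ha L hL0 hL
    have hlip : LipschitzWith 2 (shift a ζ) := by
      refine lipschitzWith_of_nnnorm_fderiv_le (𝕜 := ℝ) (fun x => ?_) fun x => ?_
      · exact ((hasFDerivAt_id x).add
          ((hζ.differentiable (by simp) x).hasFDerivAt.smul_const a)).differentiableAt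
      · have hd := (hasFDerivAt_id x).add ((hζ.differentiable (by simp) x).hasFDerivAt.smul_const a)
        rw [← NNReal.coe_le_coe, coe_nnnorm, show fderiv ℝ (shift a ζ) x = _ from hd.fderiv]
        refine ContinuousLinearMap.opNorm_le_bound _ (by norm_num) fun h => ?_
        simp only [ContinuousLinearMap.add_apply, ContinuousLinearMap.id_apply,
          ContinuousLinearMap.smulRight_apply, fderiv_eq_dot_grad, NNReal.coe_ofNat]
        refine (norm_add_le _ _).trans ?_
        rw [norm_smul, Real.norm_eq_abs, ha]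
        calc ‖h‖ + |dot (grad ζ x) h| * t ≤ ‖h‖ + B * ‖h‖ * t := by
              gcongr
              exact (abs_dot_le _ _).trans (mul_le_mul_of_nonneg_right (hb x) (norm_nonneg _))
          _ = ‖h‖ + ‖h‖ * (t * B) := by ring
          _ ≤ 2 * ‖h‖ := by nlinarith [norm_nonneg h]
    calc m (shift a ζ '' S)
        ≤ m (shift a ζ '' (⋃ i, E i)) + m (shift a ζ '' (S \ ⋃ i, E i)) := by
          refine le_trans (measure_mono ?_) (measure_union_le _ _)
          rw [← image_union]
          exact image_mono fun x hx => (em (x ∈ ⋃ i, E i)).imp id fun h => ⟨hx, h⟩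
      _ = m (shift a ζ '' (⋃ i, E i)) := by
          have := hlip.hausdorffMeasure_image_le zero_le_one (S \ ⋃ i, E i)
          rw [hrest, mul_zero] at this
          rw [nonpos_iff_eq_zero.1 this, add_zero]
      _ ≤ ∑' i, m (shift a ζ '' E i) := by rw [image_iUnion]; exact measure_iUnion_le _
      _ ≤ _ := by
          refine ENNReal.tsum_le_tsum fun i => ?_
          have h1 : LipschitzOnWith (L i).toNNReal (shift a ζ) (E i) :=
            lipschitzOnWith_iff_norm_sub_le.2 fun x hx y hy => by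
              rw [Real.coe_toNNReal _ (hL0 i)]
              exact hL i y hy x hx
          have := h1.hausdorffMeasure_image_le (d := 1) zero_le_one
          rwa [ENNReal.rpow_one] at this
  choose! x₀ hx₀ using fun i (h : (E i).Nonempty) => h
  set β : ℕ → ℝ := fun i => dot (grad ζ (x₀ i)) (τ i) with hβ
  set Λ : ℂ → ℕ → ℝ := fun a i =>
    1 + dot a (τ i) * β i + ‖a‖ ^ 2 * β i ^ 2 / 2 + η * (2 + M) with hΛ
  have hΛ0 : ∀ a i, 0 ≤ Λ a i := fun a i => by
    have := (norm_nonneg _).trans (norm_add_smul_le (a := a) (hτ i) (β i))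
    simp only [hΛ]
    positivity
  have hstr : ∀ a : ℂ, ‖a‖ = t → ∀ i, ∀ x ∈ E i, ∀ y ∈ E i,
      ‖shift a ζ y - shift a ζ x‖ ≤ Λ a i * ‖y - x‖ := by
    intro a ha i x hx y hy
    have h0 := hx₀ i ⟨x, hx⟩
    obtain ⟨hd, hc⟩ := hcone i x hx y hy
    set w := y - x with hw
    set s := dot w (τ i)
    set r := w - s • τ i with hr
    have hsub : |ζ y - ζ x - dot (grad ζ (x₀ i)) w| ≤ M * η * ‖w‖ := by
      rw [← fderiv_eq_dot_grad, ← Real.norm_eq_abs]
      refine (convex_closedBall (x₀ i) η).norm_image_sub_le_of_norm_fderiv_le' (𝕜 := ℝ)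
        (fun z _ => hζ.differentiable (by simp) z) (fun z hz => ?_)
        (by simpa [dist_eq_norm] using (hcone i _ h0 x hx).1)
        (by simpa [dist_eq_norm] using (hcone i _ h0 y hy).1)
      rw [mem_closedBall] at hz
      refine le_trans ?_ (mul_le_mul_of_nonneg_left hz M.coe_nonneg)
      simpa [dist_eq_norm] using hM.dist_le_mul z (x₀ i)
    have e : shift a ζ y - shift a ζ x = s • (τ i + β i • a) + (r +
        dot (grad ζ (x₀ i)) r • a + (ζ y - ζ x - dot (grad ζ (x₀ i)) w) • a) := by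
      simp only [hr, hw, hβ, shift]
      apply Complex.ext <;> simp [dot] <;> ring
    have hs : |s| ≤ ‖w‖ := (abs_dot_le _ _).trans (by rw [hτ i, mul_one])
    have n1 : ‖s • (τ i + β i • a)‖ ≤ (Λ a i - η * (2 + M)) * ‖w‖ := by
      rw [norm_smul, Real.norm_eq_abs, mul_comm]
      refine mul_le_mul ?_ hs (abs_nonneg _) ?_
      · simpa [hΛ] using norm_add_smul_le (a := a) (hτ i) (β i)
      · simpa [hΛ] using (norm_nonneg _).trans (norm_add_smul_le (a := a) (hτ i) (β i))
    have n2 : ‖dot (grad ζ (x₀ i)) r • a‖ ≤ η * ‖w‖ := by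
      rw [norm_smul, Real.norm_eq_abs, ha]
      calc |dot (grad ζ (x₀ i)) r| * t ≤ B * ‖r‖ * t := by
            gcongr
            exact (abs_dot_le _ _).trans (mul_le_mul_of_nonneg_right (hb _) (norm_nonneg _))
        _ = ‖r‖ * (t * B) := by ring
        _ ≤ ‖r‖ * 1 := by gcongr; linarith
        _ ≤ η * ‖w‖ := by rw [mul_one]; exact hc
    have n3 : ‖(ζ y - ζ x - dot (grad ζ (x₀ i)) w) • a‖ ≤ M * η * ‖w‖ := by
      rw [norm_smul, Real.norm_eq_abs, ha]
      calc |ζ y - ζ x - dot (grad ζ (x₀ i)) w| * t ≤ M * η * ‖w‖ * 1 :=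
            mul_le_mul hsub ht1 ht (by positivity)
        _ = _ := mul_one _
    rw [e]
    refine (norm_add_le _ _).trans ?_
    refine (add_le_add n1 (norm_add₃_le.trans (add_le_add (add_le_add hc n2) n3))).trans
      (le_of_eq ?_)
    ring
  have n₁ : ‖(t : ℂ)‖ = t := by simp [abs_of_nonneg ht]
  have n₂ : ‖(-t : ℂ)‖ = t := by simp [abs_of_nonneg ht]
  have n₃ : ‖(t * Complex.I : ℂ)‖ = t := by simp [abs_of_nonneg ht]
  have n₄ : ‖(-t * Complex.I : ℂ)‖ = t := by simp [abs_of_nonneg ht]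
  set g : ℂ → ℝ := fun x => 4 + 2 * t ^ 2 * ‖grad ζ x‖ ^ 2 + k * η with hg
  have hg0 : ∀ x, 0 ≤ g x := fun x => by positivity
  have hgi : IntegrableOn g S m := by
    refine Integrable.add (Integrable.add ?_ (hib.const_mul _)) ?_ <;> exact integrable_const _
  have hpiece : ∀ i, (ENNReal.ofReal (Λ t i) + ENNReal.ofReal (Λ (-t) i) +
      ENNReal.ofReal (Λ (t * Complex.I) i) + ENNReal.ofReal (Λ (-t * Complex.I) i)) * m (E i) ≤
      ∫⁻ x in E i, ENNReal.ofReal (g x) ∂m := by
    intro i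
    rw [← setLIntegral_const]
    refine setLIntegral_mono' (hEm i) fun x hx => ?_
    rw [← ENNReal.ofReal_add (hΛ0 _ _) (hΛ0 _ _), ← ENNReal.ofReal_add
      (add_nonneg (hΛ0 _ _) (hΛ0 _ _)) (hΛ0 _ _), ← ENNReal.ofReal_add
      (add_nonneg (add_nonneg (hΛ0 _ _) (hΛ0 _ _)) (hΛ0 _ _)) (hΛ0 _ _)]
    refine ENNReal.ofReal_le_ofReal ?_
    simp only [hΛ, n₁, n₂, n₃, n₄]
    have h0 := hx₀ i ⟨x, hx⟩
    have e1 : β i ^ 2 ≤ ‖grad ζ (x₀ i)‖ ^ 2 := by
      rw [← sq_abs (β i)]
      refine pow_le_pow_left₀ (abs_nonneg _) ?_ 2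
      simpa [hτ i] using abs_dot_le (grad ζ (x₀ i)) (τ i)
    have e2 : ‖grad ζ (x₀ i)‖ - ‖grad ζ x‖ ≤ 2 * M * η := by
      refine (norm_sub_norm_le _ _).trans ?_
      have hh : ∀ v : ℂ, ‖v‖ = 1 → |dot (grad ζ (x₀ i) - grad ζ x) v| ≤ M * η := by
        intro v hv
        have : dot (grad ζ (x₀ i) - grad ζ x) v = (fderiv ℝ ζ (x₀ i) - fderiv ℝ ζ x) v := by
          simp [fderiv_eq_dot_grad, dot]; ring
        rw [this, ← Real.norm_eq_abs]
        refine (ContinuousLinearMap.le_opNorm _ _).trans ?_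
        rw [hv, mul_one]
        refine le_trans ?_ (mul_le_mul_of_nonneg_left (hcone i x hx _ h0).1 M.coe_nonneg)
        simpa [dist_eq_norm] using hM.dist_le_mul (x₀ i) x
      refine (Complex.norm_le_abs_re_add_abs_im _).trans ?_
      have h1 := hh 1 (by simp)
      have h2 := hh Complex.I (by simp)
      simp [dot] at h1 h2 ⊢
      linarith
    have e3 : ‖grad ζ (x₀ i)‖ ^ 2 ≤ ‖grad ζ x‖ ^ 2 + 4 * B * M * η := by
      nlinarith [mul_le_mul_of_nonneg_right e2
        (add_nonneg (norm_nonneg (grad ζ (x₀ i))) (norm_nonneg (grad ζ x))),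
        mul_le_mul_of_nonneg_left (add_le_add (hb (x₀ i)) (hb x))
          (mul_nonneg (mul_nonneg zero_le_two M.coe_nonneg) hη.le)]
    have e4 : t ^ 2 * β i ^ 2 ≤ t ^ 2 * ‖grad ζ x‖ ^ 2 + 4 * B * M * η * (t ^ 2) := by
      nlinarith [mul_le_mul_of_nonneg_left (e1.trans e3) (sq_nonneg t)]
    have e5 : 4 * B * M * η * (2 * t ^ 2) ≤ 4 * B * M * η * 2 := by
      gcongr; nlinarith
    have e6 : dot (t : ℂ) (τ i) + dot (-t : ℂ) (τ i) + dot (t * Complex.I : ℂ) (τ i) +
        dot (-t * Complex.I : ℂ) (τ i) = 0 := by simp [dot]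
    simp only [hg, hk]
    linear_combination 2 * e4 + e5 + β i * e6
  have htot : m (shift t ζ '' S) + m (shift (-t) ζ '' S) + m (shift (t * Complex.I) ζ '' S) +
      m (shift (-t * Complex.I) ζ '' S) ≤ ENNReal.ofReal (∫ x in S, g x ∂m) := by
    refine (add_le_add (add_le_add (add_le_add
      (hcov _ n₁ _ (hΛ0 _) (hstr _ n₁)) (hcov _ n₂ _ (hΛ0 _) (hstr _ n₂)))
      (hcov _ n₃ _ (hΛ0 _) (hstr _ n₃))) (hcov _ n₄ _ (hΛ0 _) (hstr _ n₄))).trans ?_
    simp only [← ENNReal.tsum_add, ← add_mul]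
    refine (ENNReal.tsum_le_tsum hpiece).trans ?_
    rw [← lintegral_iUnion hEm hEd, ofReal_integral_eq_lintegral_ofReal hgi
      (Eventually.of_forall hg0)]
    exact lintegral_mono_set (iUnion_subset hES)
  have hreal := ENNReal.toReal_mono ENNReal.ofReal_ne_top htot
  have hne := ne_top_of_le_ne_top ENNReal.ofReal_ne_top htot
  simp only [ENNReal.add_ne_top] at hne
  rw [ENNReal.toReal_add (by simp [hne.1.1.1, hne.1.1.2, hne.1.2]) hne.2,
    ENNReal.toReal_add (by simp [hne.1.1.1, hne.1.1.2]) hne.1.2,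
    ENNReal.toReal_add hne.1.1.1 hne.1.1.2,
    ENNReal.toReal_ofReal (integral_nonneg hg0)] at hreal
  refine hreal.trans ?_
  have i1 : Integrable (fun _ : ℂ => (4 : ℝ)) (m.restrict S) := integrable_const _
  have i2 : Integrable (fun _ : ℂ => k * η) (m.restrict S) := integrable_const _
  simp only [hg]
  rw [integral_add (i1.fun_add (hib.const_mul _)) i2, integral_add i1 (hib.const_mul _),
    integral_const_mul, setIntegral_const, setIntegral_const, smul_eq_mul, smul_eq_mul,
    measureReal_def]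
  have : (m S).toReal * (k * η) ≤ ε := by
    rw [hηd, mul_div_assoc', mul_div_assoc', div_le_iff₀ (by positivity)]
    nlinarith [mul_nonneg hε.le hk0, hε]
  linarith

lemma pair_le {B t : ℝ} (hB : 0 ≤ B) (ht : 0 ≤ t) (htB : t * B ≤ 1 / 2) (ht1 : t ≤ 1)
    {e b G Y : ℂ} (he : ‖e‖ = 1) (hb : ‖b‖ ≤ B) :
    pullVal (t • e) b (G + t • Y) + pullVal ((-t) • e) b (G + (-t) • Y) ≤
      2 * dot G G + 2 * t ^ 2 * (dot Y Y + 2 * dot e b * dot G Y - 2 * dot e G * dot b Y -
        2 * dot b G * dot e Y + dot b b * dot e G ^ 2) +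
      2 * B ^ 2 * (2 * B + 4) * t ^ 3 * (dot G G + dot Y Y) := by
  set D := dot G G + dot Y Y with hD
  have hsq : ∀ Z, dot e Z ^ 2 ≤ dot Z Z := fun Z => by
    rw [← norm_sq_eq_dot, ← sq_abs]
    exact pow_le_pow_left₀ (abs_nonneg _) (by simpa [he] using abs_dot_le e Z) 2
  have hG := hsq G
  have hY := hsq Y
  have hG0 : 0 ≤ dot G G := (sq_nonneg _).trans hG
  have hY0 : 0 ≤ dot Y Y := (sq_nonneg _).trans hY
  have hD0 : 0 ≤ D := by linarith
  have hrem : ∀ s : ℝ, |s| = t →
      dot b b * dot (s • e) (G + s • Y) ^ 2 / (1 + dot (s • e) b) ≤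
        t ^ 2 * dot b b * dot e G ^ 2 + B ^ 2 * (2 * B + 4) * t ^ 3 * D := by
    intro s hs
    set z := dot (s • e) b
    have hz : |z| ≤ t * B := by
      refine (abs_dot_le _ _).trans ?_
      rw [norm_smul, he, Real.norm_eq_abs, hs, mul_one]
      exact mul_le_mul_of_nonneg_left hb ht
    have hpos : 0 < 1 + z := by linarith [neg_le_of_abs_le hz]
    have e1 : dot (s • e) (G + s • Y) = s * (dot e G + s * dot e Y) := by
      simp [dot]; ring
    have hs2 : s ^ 2 = t ^ 2 := by rw [← hs, sq_abs]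
    have e2 : (dot e G + s * dot e Y) ^ 2 ≤ dot e G ^ 2 + 2 * t * D := by
      have a1 : 2 * s * (dot e G * dot e Y) ≤ t * (dot e G ^ 2 + dot e Y ^ 2) := by
        have := two_mul_le_add_sq |dot e G| |dot e Y|
        calc 2 * s * (dot e G * dot e Y) ≤ |2 * s * (dot e G * dot e Y)| := le_abs_self _
          _ = t * (2 * |dot e G| * |dot e Y|) := by simp [abs_mul, hs]; ring
          _ ≤ t * (dot e G ^ 2 + dot e Y ^ 2) := by
              rw [← sq_abs (dot e G), ← sq_abs (dot e Y)]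
              exact mul_le_mul_of_nonneg_left this ht
      have a2 : s ^ 2 * dot e Y ^ 2 ≤ t * dot Y Y := by
        rw [hs2]
        exact mul_le_mul (by nlinarith) hY (sq_nonneg _) ht
      nlinarith [mul_le_mul_of_nonneg_left hG ht, mul_le_mul_of_nonneg_left hY ht,
        mul_nonneg ht hG0]
    have hinv : (1 + z)⁻¹ ≤ 1 + 2 * (t * B) := by
      rw [inv_le_iff_one_le_mul₀ hpos]
      have h1 : 1 - t * B ≤ 1 + z := by linarith [neg_le_of_abs_le hz]
      nlinarith [mul_le_mul_of_nonneg_left h1 (by positivity : (0 : ℝ) ≤ 1 + 2 * (t * B)),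
        mul_nonneg ht hB]
    have hbb : 0 ≤ dot b b ∧ dot b b ≤ B ^ 2 := by
      rw [← norm_sq_eq_dot]
      exact ⟨sq_nonneg _, pow_le_pow_left₀ (norm_nonneg _) hb 2⟩
    have e3 : (dot e G + s * dot e Y) ^ 2 * (1 + z)⁻¹ ≤
        dot e G ^ 2 + t * (2 * B + 4) * D := by
      refine (mul_le_mul e2 hinv (inv_nonneg.2 hpos.le) (by positivity)).trans ?_
      have hGD : dot e G ^ 2 ≤ D := by linarith
      nlinarith [mul_le_mul_of_nonneg_left hGD (mul_nonneg ht hB),
        mul_le_mul_of_nonneg_left htB (mul_nonneg ht hD0)]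
    calc dot b b * dot (s • e) (G + s • Y) ^ 2 / (1 + z)
        = t ^ 2 * (dot b b * ((dot e G + s * dot e Y) ^ 2 * (1 + z)⁻¹)) := by
          rw [e1, mul_pow, hs2]; ring
      _ ≤ t ^ 2 * (dot b b * (dot e G ^ 2 + t * (2 * B + 4) * D)) := by
          gcongr
          exact hbb.1
      _ ≤ _ := by
          have : dot b b * (t ^ 3 * (2 * B + 4) * D) ≤ B ^ 2 * (t ^ 3 * (2 * B + 4) * D) :=
            mul_le_mul_of_nonneg_right hbb.2 (by positivity)
          linarith
  have h1 := hrem t (abs_of_nonneg ht)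
  have h2 := hrem (-t) (by rw [abs_neg, abs_of_nonneg ht])
  have e4 : ∀ s : ℝ, (1 + dot (s • e) b) * dot (G + s • Y) (G + s • Y) -
      2 * dot (s • e) (G + s • Y) * dot b (G + s • Y) =
      dot G G + s * (dot e b * dot G G + 2 * dot G Y - 2 * dot e G * dot b G) +
        s ^ 2 * (dot Y Y + 2 * dot e b * dot G Y - 2 * dot e G * dot b Y -
          2 * dot b G * dot e Y) +
        s ^ 3 * (dot e b * dot Y Y - 2 * dot e Y * dot b Y) := fun s => by
    simp [dot]; ring
  simp only [pullVal, e4]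
  linarith

/-- The pointwise expansion of the four densities. -/
lemma pullVal_four {B t : ℝ} (hB : 0 ≤ B) (ht : 0 ≤ t) (htB : t * B ≤ 1 / 2) (ht1 : t ≤ 1)
    {b G Y₁ Y₂ : ℂ} (hb : ‖b‖ ≤ B) :
    pullVal t b (G + t • Y₁) + pullVal (-t) b (G + (-t) • Y₁) +
      pullVal (t * Complex.I) b (G + t • Y₂) + pullVal (-t * Complex.I) b (G + (-t) • Y₂) ≤
      4 * dot G G + 2 * t ^ 2 * secVal G b Y₁ Y₂ +
      2 * B ^ 2 * (2 * B + 4) * t ^ 3 * (2 * dot G G + dot Y₁ Y₁ + dot Y₂ Y₂) := by
  have h1 := pair_le hB ht htB ht1 (e := 1) (b := b) (G := G) (Y := Y₁) (by simp) hb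
  have h2 := pair_le hB ht htB ht1 (e := Complex.I) (b := b) (G := G) (Y := Y₂) (by simp) hb
  simp only [Complex.real_smul, mul_one, Complex.ofReal_neg] at h1 h2 ⊢
  have e : dot Y₁ Y₁ + 2 * dot 1 b * dot G Y₁ - 2 * dot 1 G * dot b Y₁ -
        2 * dot b G * dot 1 Y₁ + dot b b * dot 1 G ^ 2 +
      (dot Y₂ Y₂ + 2 * dot Complex.I b * dot G Y₂ - 2 * dot Complex.I G * dot b Y₂ -
        2 * dot b G * dot Complex.I Y₂ + dot b b * dot Complex.I G ^ 2) =
      secVal G b Y₁ Y₂ := by simp [secVal, dot]; ring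
  rw [← e]
  linarith

lemma integrableOn_secVal {S : Set ℂ} {B : ℝ} {G b Y₁ Y₂ : ℂ → ℂ}
    (hG : MemLp G 2 (volume.restrict S)) (hY₁ : MemLp Y₁ 2 (volume.restrict S))
    (hY₂ : MemLp Y₂ 2 (volume.restrict S)) (hbc : Continuous b) (hb : ∀ x, ‖b x‖ ≤ B) :
    IntegrableOn (fun x => secVal (G x) (b x) (Y₁ x) (Y₂ x)) S := by
  have hbre : ∀ x, |(b x).re| ≤ B := fun x => (Complex.abs_re_le_norm _).trans (hb x)
  have hbim : ∀ x, |(b x).im| ≤ B := fun x => (Complex.abs_im_le_norm _).trans (hb x)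
  have hm : ∀ (c : ℂ → ℝ), Continuous c → (∀ x, |c x| ≤ B) →
      MemLp (fun x => c x • G x) 2 (volume.restrict S) := fun c hc hcb =>
    hG.of_le_mul (c := B) (hc.aestronglyMeasurable.smul hG.1) (Eventually.of_forall fun x => by
      rw [norm_smul, Real.norm_eq_abs]
      exact mul_le_mul_of_nonneg_right (hcb x) (norm_nonneg _))
  have hs : ∀ (c : ℂ → ℝ), AEStronglyMeasurable c (volume.restrict S) →
      (∀ x, |c x| ≤ ‖G x‖) → MemLp (fun x => c x • b x) 2 (volume.restrict S) := fun c hc hcb =>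
    hG.of_le_mul (c := B) (hc.smul hbc.aestronglyMeasurable) (Eventually.of_forall fun x => by
      rw [norm_smul, Real.norm_eq_abs, mul_comm B]
      exact mul_le_mul (hcb x) (hb x) (norm_nonneg _) (norm_nonneg _))
  have p1 := hm _ (Complex.continuous_re.comp hbc) hbre
  have p2 := hm _ (Complex.continuous_im.comp hbc) hbim
  have p3 := hs _ (Complex.continuous_re.comp_aestronglyMeasurable hG.1)
    fun x => Complex.abs_re_le_norm _
  have p4 := hs _ (Complex.continuous_im.comp_aestronglyMeasurable hG.1)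
    fun x => Complex.abs_im_le_norm _
  have q1 : MemLp (fun x => (((dot (b x) (G x) : ℝ)) : ℂ)) 2 (volume.restrict S) :=
    hG.of_le_mul (c := B)
      ((Complex.continuous_ofReal.comp (by unfold dot; fun_prop :
        Continuous fun p : ℂ × ℂ => dot p.1 p.2)).comp_aestronglyMeasurable
          (hbc.aestronglyMeasurable.prodMk hG.1))
      (Eventually.of_forall fun x => by
        rw [Complex.norm_real, Real.norm_eq_abs]
        exact (abs_dot_le _ _).trans (mul_le_mul_of_nonneg_right (hb x) (norm_nonneg _)))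
  have q2 : MemLp (fun x => (dot (b x) (G x) : ℂ) * Complex.I) 2 (volume.restrict S) :=
    q1.mul_const _
  refine Integrable.congr
    (((((Islands.integrable_dot hY₁ hY₁).add (Islands.integrable_dot hY₂ hY₂)).add
      (((Islands.integrable_dot p1 hY₁).add (Islands.integrable_dot p2 hY₂)).const_mul 2)).sub
      (((Islands.integrable_dot p3 hY₁).add (Islands.integrable_dot p4 hY₂)).const_mul 2)).sub
      (((Islands.integrable_dot q1 hY₁).add (Islands.integrable_dot q2 hY₂)).const_mul 2) |>.add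
      ((Islands.integrable_dot p1 p1).add (Islands.integrable_dot p2 p2)))
    (Eventually.of_forall fun x => ?_)
  simp [secVal, dot]
  ring

/-- **Stability under weighted translations.** -/
theorem secondVarGoal : SecondVarGoal := by
  intro u K hu hP ζ U₁ U₂ hζ hU₁ hU₂ hc₁ hc₂ hg₁ hg₂
  obtain ⟨ρ, hρ⟩ := ((hζ.2.1.isCompact.union hc₁.isCompact).union
    hc₂.isCompact).isBounded.subset_closedBall (0 : ℂ)
  have z0 : ∀ x, x ∉ closedBall (0 : ℂ) ρ → ζ x = 0 := fun x hx =>
    image_eq_zero_of_notMem_tsupport fun h => hx (hρ (Or.inl (Or.inl h)))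
  have z1 : ∀ (s : ℝ) x, x ∉ closedBall (0 : ℂ) ρ → s * U₁ x = 0 := fun s x hx => by
    rw [image_eq_zero_of_notMem_tsupport fun h => hx (hρ (Or.inl (Or.inr h))), mul_zero]
  have z2 : ∀ (s : ℝ) x, x ∉ closedBall (0 : ℂ) ρ → s * U₂ x = 0 := fun s x hx => by
    rw [image_eq_zero_of_notMem_tsupport fun h => hx (hρ (Or.inr h)), mul_zero]
  have cb : Continuous (grad ζ) := by
    have := (contDiffOn_grad isOpen_univ hζ.1.contDiffOn).continuousOn
    rwa [continuousOn_univ] at this
  obtain ⟨B, hb⟩ := (HasCompactSupport.intro hζ.2.1.isCompact fun x hx =>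
    grad_eq_zero_of_notMem_tsupport hx : HasCompactSupport (grad ζ)).exists_bound_of_continuous cb
  have hB : 0 ≤ B := (norm_nonneg _).trans (hb 0)
  obtain ⟨M, hM⟩ := ((hζ.1.fderiv_right (m := ∞) le_rfl).lipschitzWith_of_hasCompactSupport
    (hζ.2.1.fderiv ℝ) (by simp))
  set D := ball (0 : ℂ) (ρ + 1) with hD
  set G := grad u with hG
  set N := ∫ x in D, (2 * dot (G x) (G x) + dot (grad U₁ x) (grad U₁ x) +
    dot (grad U₂ x) (grad U₂ x))
  set C := 2 * B ^ 2 * (2 * B + 4)
  set I₂ := ∫ x in D, secVal (G x) (grad ζ x) (grad U₁ x) (grad U₂ x)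
  set J := ∫ x in K ∩ D, ‖grad ζ x‖ ^ 2 ∂Measure.hausdorffMeasure 1
  have hin : closedBall (0 : ℂ) ρ ⊆ D := closedBall_subset_ball (by linarith)
  have out : ∀ x, x ∉ D → grad ζ x = 0 ∧ grad U₁ x = 0 ∧ grad U₂ x = 0 := fun x hx =>
    ⟨grad_eq_zero_outside isClosed_closedBall z0 fun h => hx (hin h),
      grad_eq_zero_outside isClosed_closedBall (by simpa using z1 1) fun h => hx (hin h),
      grad_eq_zero_outside isClosed_closedBall (by simpa using z2 1) fun h => hx (hin h)⟩
  have hI : secondVar u ζ U₁ U₂ = I₂ :=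
    (setIntegral_eq_integral_of_forall_compl_eq_zero fun x hx => by
      obtain ⟨a, b, c⟩ := out x hx
      simp [a, b, c, secVal, dot]).symm
  have hJ : ∫ x in K, ‖grad ζ x‖ ^ 2 ∂Measure.hausdorffMeasure 1 = J :=
    setIntegral_eq_of_subset_of_forall_sdiff_eq_zero hu.isClosed.measurableSet inter_subset_left
      fun x hx => by simp [(out x fun h => hx.2 ⟨hx.1, h⟩).1]
  have main : ∀ t : ℝ, 0 < t → t ≤ 1 → t * B ≤ 1 / 2 → 0 ≤ J + I₂ + C * t / 2 * N := by
    intro t ht ht1 htB
    have sm : ∀ (U : ℂ → ℝ), ContDiffOn ℝ ∞ U Kᶜ → MemLp (grad U) 2 → ∀ s : ℝ,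
        ContDiffOn ℝ ∞ (fun x => s * U x) Kᶜ ∧ MemLp (grad fun x => s * U x) 2 ∧
          ∀ᵐ x : ℂ, grad (fun y => s * U y) x = s • grad U x := by
      intro U hU hUg s
      have hae : ∀ᵐ x : ℂ, grad (fun y => s * U y) x = s • grad U x := by
        filter_upwards [measure_eq_zero_iff_ae_notMem.1 hu.null] with x hx
        exact grad_const_mul s
          (((hU x hx).contDiffAt (hu.isClosed.isOpen_compl.mem_nhds hx)).differentiableAt (by simp))
      exact ⟨contDiffOn_const.mul hU, (memLp_congr_ae hae).2 (hUg.const_smul s), hae⟩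
    have na : ∀ a : ℂ, ‖a‖ = t → ‖a‖ * B ≤ 1 / 2 := fun a h => h ▸ htB
    obtain ⟨a1, b1, c1⟩ := sm U₁ hU₁ hg₁ t
    obtain ⟨a2, b2, c2⟩ := sm U₁ hU₁ hg₁ (-t)
    obtain ⟨a3, b3, c3⟩ := sm U₂ hU₂ hg₂ t
    obtain ⟨a4, b4, c4⟩ := sm U₂ hU₂ hg₂ (-t)
    obtain ⟨i1, v1⟩ := vary_shift hu hζ a1 b1 z0 (z1 t) hB hb
      (na (t : ℂ) (by simp [abs_of_pos ht]))
    obtain ⟨i2, v2⟩ := vary_shift hu hζ a2 b2 z0 (z1 (-t)) hB hb
      (na (-t : ℂ) (by simp [abs_of_pos ht]))
    obtain ⟨i3, v3⟩ := vary_shift hu hζ a3 b3 z0 (z2 t) hB hb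
      (na (t * Complex.I : ℂ) (by simp [abs_of_pos ht]))
    obtain ⟨i4, v4⟩ := vary_shift hu hζ a4 b4 z0 (z2 (-t)) hB hb
      (na (-t * Complex.I : ℂ) (by simp [abs_of_pos ht]))
    have hlen := length_four (hP (ρ + 1)) (hu.length_ne_top _) hζ.1 hB hb hM ht.le ht1 htB
    have g2 : IntegrableOn (fun x => ‖G x‖ ^ 2) D := (hu.memLp _).norm.integrable_sq
    have g3 : IntegrableOn (fun x => dot (G x) (G x)) D :=
      Islands.integrable_dot (hu.memLp _) (hu.memLp _)
    have y1 : IntegrableOn (fun x => dot (grad U₁ x) (grad U₁ x)) D :=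
      (Islands.integrable_dot hg₁ hg₁).integrableOn
    have y2 : IntegrableOn (fun x => dot (grad U₂ x) (grad U₂ x)) D :=
      (Islands.integrable_dot hg₂ hg₂).integrableOn
    have s2 := integrableOn_secVal (B := B) (hu.memLp (ρ + 1)) (hg₁.restrict D) (hg₂.restrict D)
      cb hb
    have r1 : IntegrableOn (fun x => 2 * t ^ 2 * secVal (G x) (grad ζ x) (grad U₁ x) (grad U₂ x))
        D := s2.const_mul _
    have r2 : IntegrableOn (fun x => C * t ^ 3 * (2 * dot (G x) (G x) +
        dot (grad U₁ x) (grad U₁ x) + dot (grad U₂ x) (grad U₂ x))) D :=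
      (((g3.const_mul 2).add y1).add y2).const_mul _
    have hle := integral_mono_ae (((i1.add i2).add i3).add i4)
      (((g2.const_mul 4).add r1).add r2) (by
        filter_upwards [ae_restrict_of_ae c1, ae_restrict_of_ae c2, ae_restrict_of_ae c3,
          ae_restrict_of_ae c4] with x e1 e2 e3 e4
        simp only [Pi.add_apply, e1, e2, e3, e4, norm_sq_eq_dot]
        exact pullVal_four hB ht.le htB ht1 (hb x))
    simp only [Pi.add_apply] at hle
    rw [integral_add ((i1.fun_add i2).fun_add i3) i4, integral_add (i1.fun_add i2) i3, integral_add i1 i2,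
      integral_add ((g2.const_mul 4).fun_add r1) r2, integral_add (g2.const_mul 4) r1,
      integral_const_mul, integral_const_mul, integral_const_mul] at hle
    have : 0 ≤ 2 * t ^ 2 * (J + I₂ + C * t / 2 * N) := by linarith
    exact nonneg_of_mul_nonneg_right this (by positivity)
  rw [hI, hJ, add_comm]
  have ht : Tendsto (fun t : ℝ => J + I₂ + C * t / 2 * N) (𝓝[>] 0) (𝓝 (J + I₂)) := by
    have : Continuous fun t : ℝ => J + I₂ + C * t / 2 * N := by fun_prop
    simpa using (this.tendsto 0).mono_left nhdsWithin_le_nhds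
  refine ge_of_tendsto ht ?_
  have hp : 0 < min 1 (1 / (2 * (B + 1))) := by positivity
  filter_upwards [Ioo_mem_nhdsGT hp] with t ht
  have ht2 : t ≤ 1 / (2 * (B + 1)) := (ht.2.trans_le (min_le_right _ _)).le
  rw [le_div_iff₀ (by positivity)] at ht2
  refine main t ht.1 (ht.2.trans_le (min_le_left _ _)).le ?_
  linarith [ht.1]

end Vale.Agent.P128.Connected
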