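import Vale.Agent.P128.Connected.Interface
import Vale.Agent.P128.Islands.Interface
import Mathlib.Geometry.Manifold.PartitionOfUnity
import Mathlib.Topology.Separation.Lemmas

/-!
# Connectedness of the singular set of a global minimiser: assembly of the modules
-/

namespace Vale.Agent.P128.Connected

open MeasureTheory Filter Metric Set Islands
open scoped Topology ENNReal NNReal ContDiff Manifold

/-- Rotated gradients of test functions are continuous. -/
lemma continuous_rgrad {θ : ℂ → ℝ} (h : ContDiff ℝ ∞ θ) : Continuous (rgrad θ) := by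
  have hc := (contDiffOn_grad isOpen_univ h.contDiffOn).continuousOn
  rw [continuousOn_univ] at hc
  exact continuous_const.mul hc

/-- Pairing a continuous field with a constant one. -/
lemma _root_.Continuous.clm_dot {f : ℂ → ℂ} (hf : Continuous f) (c : ℂ) :
    Continuous fun z => dot c (f z) :=
  (continuous_const.mul (Complex.continuous_re.comp hf)).add
    (continuous_const.mul (Complex.continuous_im.comp hf))

lemma integrable_mul_rgrad {O : Set ℂ} {p q : ℂ → ℝ} {θ : ℂ → ℝ} (hO : IsOpen O)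
    (hp : ContinuousOn p O) (hq : ContinuousOn q O) (hθ : IsTest O θ) :
    Integrable fun z => dot ⟨p z, q z⟩ (rgrad θ z) := by
  refine ((integrable_mul_test hO hp (hθ.fderiv_apply Complex.I)).neg.add
    (integrable_mul_test hO hq (hθ.fderiv_apply 1))).congr (Eventually.of_forall fun z => ?_)
  simp [dot, rgrad_re, rgrad_im]

lemma _root_.Vale.Agent.P128.Islands.IsPotentialField.integrable_dot_rgrad {O : Set ℂ}
    {s : ℂ → ℂ} (h : IsPotentialField O s) {θ : ℂ → ℝ} (hO : IsOpen O) (hθ : IsTest O θ) :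
    Integrable fun z => dot (s z) (rgrad θ z) :=
  integrable_mul_rgrad hO (Complex.continuous_re.comp_continuousOn h.2.2.1.continuousOn)
    (Complex.continuous_im.comp_continuousOn h.2.2.1.continuousOn) hθ

/-- Potential fields are curl free. -/
lemma _root_.Vale.Agent.P128.Islands.IsPotentialField.curl_free {O : Set ℂ}
    {s : ℂ → ℂ} (h : IsPotentialField O s) {θ : ℂ → ℝ} (hO : IsOpen O) (hθ : IsTest O θ) :
    ∫ z, dot (s z) (rgrad θ z) = 0 := by
  have hp : ContDiffOn ℝ ∞ (fun z => (s z).re) O := Complex.reCLM.contDiff.comp_contDiffOn h.2.2.1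
  have hq : ContDiffOn ℝ ∞ (fun z => (s z).im) O := Complex.imCLM.contDiff.comp_contDiffOn h.2.2.1
  have e : ∀ z, dot (s z) (rgrad θ z) =
      (s z).im * fderiv ℝ θ z 1 - (s z).re * fderiv ℝ θ z Complex.I := fun z => by
    simp [dot, rgrad_re, rgrad_im]; ring
  simp only [e]
  rw [integral_sub (integrable_mul_test hO hq.continuousOn (hθ.fderiv_apply 1))
    (integrable_mul_test hO hp.continuousOn (hθ.fderiv_apply Complex.I))]
  have a := integral_fderiv_mul_test hO hq hθ 1
  have b := integral_fderiv_mul_test hO hp hθ Complex.I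
  have e2 : (fun z => fderiv ℝ (fun y => (s y).im) z 1 * θ z) =
      fun z => fderiv ℝ (fun y => (s y).re) z Complex.I * θ z := by
    funext z
    by_cases hz : z ∈ O
    · have hd : DifferentiableAt ℝ s z :=
        ((h.2.2.1 z hz).contDiffAt (hO.mem_nhds hz)).differentiableAt (by simp)
      rw [show fderiv ℝ (fun y => (s y).im) z = Complex.imCLM.comp (fderiv ℝ s z) from
          (Complex.imCLM.hasFDerivAt.comp z hd.hasFDerivAt).fderiv,
        show fderiv ℝ (fun y => (s y).re) z = Complex.reCLM.comp (fderiv ℝ s z) from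
          (Complex.reCLM.hasFDerivAt.comp z hd.hasFDerivAt).fderiv]
      simp [(h.2.2.2 z hz).1]
    · simp [image_eq_zero_of_notMem_tsupport fun h' => hz (hθ.2.2 h')]
  rw [e2] at a
  linarith

/-- A smooth cutoff between two disjoint closed sets of the plane. -/
lemma exists_split_cutoff {K₁ K₂ : Set ℂ} (h₁ : IsClosed K₁) (h₂ : IsClosed K₂)
    (hd : Disjoint K₁ K₂) :
    ∃ χ : ℂ → ℝ, ContDiff ℝ ∞ χ ∧ (∀ x, χ x ∈ Icc (0 : ℝ) 1) ∧
      (∀ᶠ x in 𝓝ˢ K₁, χ x = 1) ∧ ∀ᶠ x in 𝓝ˢ K₂, χ x = 0 := by
  obtain ⟨f, h0, h1, hf⟩ :=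
    exists_contMDiffMap_zero_one_nhds_of_isClosed (n := (⊤ : ℕ∞)) 𝓘(ℝ, ℂ) h₂ h₁ hd.symm
  exact ⟨f, f.contMDiff.contDiff, hf, h1, h0⟩

/-- Finitely many components: each component is closed and has closed complement. -/
lemma closed_split {K : Set ℂ} (hK : IsClosed K) {N : ℕ}
    (hN : ∀ F : Finset ℂ, ↑F ⊆ K →
      (∀ x ∈ F, ∀ y ∈ F, connectedComponentIn K x = connectedComponentIn K y → x = y) →
        F.card ≤ N) (x : ℂ) (hx : x ∈ K) :
    IsClosed (connectedComponentIn K x) ∧ IsClosed (K \ connectedComponentIn K x) ∧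
      (connectedComponentIn K '' K).Finite := by
  have hcl : ∀ y, IsClosed (connectedComponentIn K y) := by
    intro y
    by_cases hy : y ∈ K
    · refine closure_subset_iff_isClosed.1 ?_
      exact isPreconnected_connectedComponentIn.closure.subset_connectedComponentIn
        (subset_closure (mem_connectedComponentIn hy))
        (closure_minimal (connectedComponentIn_subset _ _) hK)
    · rw [connectedComponentIn_eq_empty hy]; exact isClosed_empty
  have hfin : (connectedComponentIn K '' K).Finite := by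
    by_contra hinf
    obtain ⟨T, hTsub, hTcard⟩ := Set.Infinite.exists_subset_card_eq hinf (N + 1)
    have hpick : ∀ C ∈ T, ∃ y ∈ K, connectedComponentIn K y = C := fun C hC => hTsub hC
    choose g hgK hgC using hpick
    classical
    let F : Finset ℂ := T.attach.image fun C => g C.1 C.2
    have hcard : F.card = N + 1 := by
      rw [Finset.card_image_of_injective _ ?_, Finset.card_attach, hTcard]
      intro A B hAB
      exact Subtype.ext ((hgC A.1 A.2).symm.trans
        ((congrArg (connectedComponentIn K) hAB).trans (hgC B.1 B.2)))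
    have := hN F (fun y hy => by
        obtain ⟨C, _, rfl⟩ := Finset.mem_image.1 hy
        exact hgK _ _) (fun a ha b hb hab => by
        obtain ⟨A, _, rfl⟩ := Finset.mem_image.1 ha
        obtain ⟨B, _, rfl⟩ := Finset.mem_image.1 hb
        rw [hgC, hgC] at hab
        rw [Subtype.ext (a1 := A) (a2 := B) hab])
    omega
  refine ⟨hcl x, ?_, hfin⟩
  have e : K \ connectedComponentIn K x =
      ⋃ C ∈ (connectedComponentIn K '' K) \ {connectedComponentIn K x}, C := by
    ext y
    simp only [Set.mem_sdiff, mem_iUnion, mem_image, mem_singleton_iff, exists_prop]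
    constructor
    · rintro ⟨hy, hn⟩
      exact ⟨_, ⟨⟨y, hy, rfl⟩, fun h => hn (h ▸ mem_connectedComponentIn hy)⟩,
        mem_connectedComponentIn hy⟩
    · rintro ⟨C, ⟨⟨z, hz, rfl⟩, hne⟩, hyC⟩
      refine ⟨connectedComponentIn_subset _ _ hyC, fun h => hne ?_⟩
      exact (connectedComponentIn_eq hyC).trans (connectedComponentIn_eq h).symm
  rw [e]
  exact (hfin.subset sdiff_subset).isClosed_biUnion fun C hC => by
    obtain ⟨z, _, rfl⟩ := hC.1
    exact hcl z

/-- The potential is constant on each component. -/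
lemma constant_on_component {u v : ℂ → ℝ} {K : Set ℂ} (hCov : CoverGoal) (hCont : ContinuumGoal)
    (hCC : CurveConstantGoal) (hreg : Reg u K) (hD : HasDensityBound u K)
    (hunb : ∀ x ∈ K, ¬ Bornology.IsBounded (connectedComponentIn K x))
    (hvc : Continuous v) (hvs : ContDiffOn ℝ ∞ v Kᶜ) (hvg : ∀ x ∉ K, grad v x = rgrad u x)
    {x y : ℂ} (hx : x ∈ K) (hy : y ∈ connectedComponentIn K x) : v y = v x := by
  set C := connectedComponentIn K x
  have hJ : ∀ n : ℕ, (v '' (C ∩ ball 0 ((n : ℝ) + 1))).Countable := by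
    intro n
    obtain ⟨F, hF, hcov⟩ := hCov K hreg.isClosed hunb hreg.length_ne_top _
      (by positivity : (0 : ℝ) < (n : ℝ) + 1)
    have hsub : v '' (C ∩ ball 0 ((n : ℝ) + 1)) ⊆ ⋃ J ∈ F, v '' J := by
      rintro _ ⟨z, ⟨hzC, hzB⟩, rfl⟩
      obtain ⟨J, hJF, hzJ⟩ := mem_iUnion₂.1 (hcov ⟨connectedComponentIn_subset _ _ hzC, hzB⟩)
      exact mem_iUnion₂.2 ⟨J, hJF, mem_image_of_mem v hzJ⟩
    refine Set.Countable.mono hsub ((F.countable_toSet).biUnion fun J hJF => ?_)
    obtain ⟨hJc, hJp, hJn, hJK, hJfin⟩ := hF J hJF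
    obtain ⟨γ, L, hγ, hγJ⟩ := hCont J hJc hJp hJn hJfin
    refine Set.Countable.mono ?_ (Set.countable_singleton (v (γ 0)))
    rintro _ ⟨z, hz, rfl⟩
    rw [← hγJ] at hz
    obtain ⟨t, ht, rfl⟩ := hz
    have hlip : LipschitzWith (L * ‖t‖₊) (fun s : ℝ => γ (t * s)) :=
      hγ.comp (LipschitzWith.of_dist_le_mul fun a b => by
        simp [Real.dist_eq, ← mul_sub, abs_mul])
    have h1 := hCC u K v hreg hD hvc hvs hvg _ _ hlip (by
      rintro _ ⟨s, hs, rfl⟩
      exact hJK (hγJ ▸ ⟨t * s, ⟨mul_nonneg ht.1 hs.1, mul_le_one₀ ht.2 hs.1 hs.2⟩, rfl⟩))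
    simp at h1
    simp [h1]
  have hall : (v '' C).Countable := by
    refine Set.Countable.mono ?_ (Set.countable_iUnion hJ)
    rintro _ ⟨z, hz, rfl⟩
    obtain ⟨n, hn⟩ := exists_nat_gt ‖z‖
    exact mem_iUnion.2 ⟨n, z, ⟨hz, by rw [mem_ball_zero_iff]; linarith⟩, rfl⟩
  have hsub : (v '' C).Subsingleton :=
    hall.isTotallyDisconnected _ subset_rfl
      (isPreconnected_connectedComponentIn.image v hvc.continuousOn)
  exact hsub (mem_image_of_mem v hy) (mem_image_of_mem v (mem_connectedComponentIn hx))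

/-- **Assembly.** -/
theorem connected_of (hW : WeylGoal) (hL : LengthGoal) (hU : UnboundedComponentsGoal)
    (hCr : CriticalGoal) (hDen : DensityGoal) (hCov : CoverGoal) (hCont : ContinuumGoal)
    (hCP : CurvePiecesGoal) (hPU : PiecesUnionGoal) (hPot : PotentialGoal)
    (hCC : CurveConstantGoal) (hT : TraceGoal) (hLay : LayersGoal) (hLim : LimitGoal)
    (hGain : GainGoal) (hOff : OffCriticalGoal) (hRem : RemovalGoal) : ConnectedGoal := by
  intro u₀ G₀ K hm hred hKc
  obtain ⟨hunb, hcount⟩ := hU u₀ G₀ K hm hred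
  obtain ⟨u, hreg⟩ := exists_reg hW hL hm
  have hD := hDen u K hreg
  have hpieces : ∀ R, ConePieces (K ∩ ball 0 R) := by
    intro R
    obtain ⟨F, hF, hcov⟩ := hCov K hreg.isClosed hunb hreg.length_ne_top (|R| + 1) (by positivity)
    refine hPU F _ (fun J hJ => ?_) (hreg.isClosed.measurableSet.inter measurableSet_ball) ?_
    · obtain ⟨hJc, hJp, hJn, _, hJf⟩ := hF J hJ
      obtain ⟨γ, L, hγ, hγJ⟩ := hCont J hJc hJp hJn hJf
      exact ⟨hγJ ▸ hCP γ L hγ, hJc.measurableSet⟩
    · exact fun z hz => hcov ⟨hz.1, ball_subset_ball (by linarith [le_abs_self R]) hz.2⟩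
  by_contra hnot
  obtain ⟨x, hx⟩ : K.Nonempty :=
    nonempty_iff_ne_empty.2 fun h => hnot (h ▸ isPreconnected_empty)
  obtain ⟨h₁, h₂, hfin⟩ := closed_split hreg.isClosed hcount x hx
  set K₁ := connectedComponentIn K x with hK₁
  set K₂ := K \ K₁ with hK₂
  have hne₂ : K₂.Nonempty := by
    by_contra h
    rw [not_nonempty_iff_eq_empty, hK₂, sdiff_eq_empty] at h
    exact hnot (subset_antisymm h (connectedComponentIn_subset _ _) ▸
      isPreconnected_connectedComponentIn)
  obtain ⟨χ, hχs, hχr, hχ1, hχ0⟩ := exists_split_cutoff h₁ h₂ disjoint_sdiff_right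
  have hS : Split u K K₁ K₂ χ :=
    ⟨hreg, hD, union_sdiff_cancel (connectedComponentIn_subset _ _), h₁, h₂, hχs, hχr, hχ1, hχ0⟩
  have hS' : Split u K K₂ K₁ fun z => 1 - χ z :=
    ⟨hreg, hD, sdiff_union_of_subset (connectedComponentIn_subset _ _), h₂, h₁,
      contDiff_const.sub hχs, fun z => ⟨by linarith [(hχr z).2], by linarith [(hχr z).1]⟩,
      hχ0.mono fun z hz => by simp [hz], hχ1.mono fun z hz => by simp [hz]⟩
  -- the potential
  obtain ⟨v, hvc, hvs, hvg⟩ := hPot u K hreg hD
  have hconst : ∀ y ∈ K, ∀ z ∈ connectedComponentIn K y, v z = v y := fun y hy z hz =>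
    constant_on_component hCov hCont hCC hreg hD hunb hvc hvs hvg hy hz
  have hvals : (v '' K).Finite := by
    classical
    let val : Set ℂ → ℝ := fun C => if h : C.Nonempty then v h.choose else 0
    refine (hfin.image val).subset ?_
    rintro _ ⟨y, hy, rfl⟩
    refine ⟨_, ⟨y, hy, rfl⟩, ?_⟩
    have hn : (connectedComponentIn K y).Nonempty := ⟨y, mem_connectedComponentIn hy⟩
    simp only [val, dif_pos hn]
    exact hconst y hy _ hn.choose_spec
  have hc₁ : ∀ y ∈ K₁, v y = v x := hconst x hx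
  obtain ⟨M, hM, hsep⟩ : ∃ M > (0 : ℝ), ∀ y ∈ K, v y = v x ∨ M ≤ |v y - v x| := by
    obtain ⟨M, hM, hb⟩ := Metric.isOpen_iff.1
      ((hvals.sdiff : ((v '' K) \ {v x}).Finite).isClosed.isOpen_compl) (v x) (by simp)
    refine ⟨M, hM, fun y hy => ?_⟩
    by_contra h
    push Not at h
    exact hb (by simpa [Real.dist_eq] using h.2 : v y ∈ ball (v x) M)
      ⟨mem_image_of_mem v hy, h.1⟩
  obtain ⟨C, hC⟩ := hT u K K₁ K₂ χ v (v x) M hS hvc hvs hvg hM hc₁ hsep
  obtain ⟨C', S, P, hlay⟩ := hLay u K K₁ K₂ χ C hS hC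
  obtain ⟨g, s, hgp, hsp, hsum, hlimg⟩ := hLim u K K₁ K₂ χ C' S P hS hlay
  have hpair := hGain u K K₁ K₂ χ C' S P g hS hpieces hlay hgp hlimg
  have hnull := hreg.null
  have hO : IsPreconnected K₂ᶜ := by
    refine hKc.subset_closure (compl_subset_compl.2 sdiff_subset) ?_
    have hd : closure Kᶜ = univ := by
      rw [closure_compl, compl_univ_iff]
      exact Measure.interior_eq_empty_of_null hnull
    rw [hd]; exact subset_univ _
  rcases hCr K₂ᶜ g (grad u) h₂.isOpen_compl hO hgp
      (fun Z hZ => by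
        obtain ⟨R', hR'⟩ := hZ.isBounded.subset_ball (0 : ℂ)
        exact (hreg.memLp R').mono_measure (Measure.restrict_mono_set _ hR'))
      (hOff u K K₁ K₂ χ g hS hgp hpair) with ⟨c, hc⟩ | hcurl
  · -- constant field: the other part has no curl
    refine hne₂.ne_empty (hRem u K K₂ K₁ _ hS' hred hKc fun θ hθ => ?_)
    have hθ' := hθ.mono (subset_univ _)
    obtain ⟨R', hR'⟩ := hθ.2.1.isCompact.isBounded.subset_ball (0 : ℂ)
    -- on `Kᶜ` the field is `s + c`, and both are curl free on `K₁ᶜ`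
    have hcr := hsp.curl_free h₁.isOpen_compl hθ
    have hce : ∫ z, dot c (rgrad θ z) = 0 := by
      have := integral_grad_rgrad isOpen_univ
        (f := fun z : ℂ => c.re * z.re + c.im * z.im)
        ((contDiff_const.mul Complex.reCLM.contDiff).add
          (contDiff_const.mul Complex.imCLM.contDiff)).contDiffOn hθ'
      refine Eq.trans (integral_congr_ae (Eventually.of_forall fun z => ?_)) this
      have hl : (fun z : ℂ => c.re * z.re + c.im * z.im) =
          ⇑(c.re • Complex.reCLM + c.im • Complex.imCLM) := by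
        funext w; simp
      rw [hl]
      simp only [grad, dot, ContinuousLinearMap.fderiv]
      simp
    have he : (fun z => dot (grad u z) (rgrad θ z)) =ᵐ[volume]
        fun z => dot (s z) (rgrad θ z) + dot c (rgrad θ z) := by
      filter_upwards [measure_eq_zero_iff_ae_notMem.1 hnull] with z hz
      rw [← hsum z hz, hc z fun h => hz h.1]
      simp [dot]; ring
    have i1 : Integrable fun z => dot (s z) (rgrad θ z) := hsp.integrable_dot_rgrad h₁.isOpen_compl hθ
    have i2 : Integrable fun z => dot c (rgrad θ z) := by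
      refine ((continuous_rgrad hθ.1).clm_dot c).integrable_of_hasCompactSupport ?_
      exact HasCompactSupport.intro hθ.2.1.isCompact fun z hz => by
        simp [rgrad, grad_eq_zero_of_notMem_tsupport hz, dot]
    rw [integral_congr_ae he, integral_add i1 i2, hcr, hce, add_zero]
  · exact Set.Nonempty.ne_empty (s := K₁) ⟨x, mem_connectedComponentIn hx⟩
      (hRem u K K₁ K₂ χ hS hred hKc hcurl)

end Vale.Agent.P128.Connected
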