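import Vale.Agent.P128.Connected.Interface

/-!
# Continua of finite length, their parametrisation, and cone pieces
-/

namespace Vale.Agent.P128.Connected

open MeasureTheory Filter Metric Set Islands
open scoped Topology ENNReal NNReal

/-- A countable family of cone pieces gives the enumerated disjoint family. -/
lemma conePieces_of_countable {ι : Type*} [Countable ι] {S : Set ℂ} {η d : ℝ} (A : ι → Set ℂ)
    (τ : ι → ℂ) (hA : ∀ i, MeasurableSet (A i)) (hAS : ∀ i, A i ⊆ S) (hτ : ∀ i, ‖τ i‖ = 1)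
    (hcone : ∀ i, ∀ x ∈ A i, ∀ y ∈ A i,
      ‖y - x‖ ≤ d ∧ ‖(y - x) - dot (y - x) (τ i) • τ i‖ ≤ η * ‖y - x‖)
    (hnull : Measure.hausdorffMeasure 1 (S \ ⋃ i, A i) = 0) :
    ∃ (E : ℕ → Set ℂ) (τ : ℕ → ℂ),
      (∀ i, MeasurableSet (E i)) ∧ Pairwise (Function.onFun Disjoint E) ∧ (∀ i, ‖τ i‖ = 1) ∧
      (∀ i, E i ⊆ S) ∧
      (∀ i, ∀ x ∈ E i, ∀ y ∈ E i,
        ‖y - x‖ ≤ d ∧ ‖(y - x) - dot (y - x) (τ i) • τ i‖ ≤ η * ‖y - x‖) ∧
      Measure.hausdorffMeasure 1 (S \ ⋃ i, E i) = 0 := by
  obtain ⟨e, he⟩ := exists_surjective_nat (Option ι)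
  set B : ℕ → Set ℂ := fun n => (e n).elim ∅ A with B_def
  set t : ℕ → ℂ := fun n => (e n).elim 1 τ with t_def
  have hB : ∀ n, MeasurableSet (B n) ∧ B n ⊆ S ∧ ‖t n‖ = 1 ∧ ∀ x ∈ B n, ∀ y ∈ B n,
      ‖y - x‖ ≤ d ∧ ‖(y - x) - dot (y - x) (t n) • t n‖ ≤ η * ‖y - x‖ := by
    intro n
    simp only [B_def, t_def]
    cases e n with
    | none => simp
    | some i => exact ⟨hA i, hAS i, hτ i, hcone i⟩
  have hU : ⋃ n, B n = ⋃ i, A i := by
    refine subset_antisymm (iUnion_subset fun n => ?_) (iUnion_subset fun i => ?_)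
    · simp only [B_def]
      cases e n with
      | none => exact empty_subset _
      | some i => exact subset_iUnion A i
    · obtain ⟨n, hn⟩ := he (some i)
      exact subset_trans (le_of_eq (by simp [B_def, hn])) (subset_iUnion B n)
  refine ⟨disjointed B, t, MeasurableSet.disjointed fun n => (hB n).1, disjoint_disjointed B,
    fun n => (hB n).2.2.1, fun n => (disjointed_subset B n).trans (hB n).2.1,
    fun n x hx y hy => (hB n).2.2.2 x (disjointed_subset B n hx) y (disjointed_subset B n hy), ?_⟩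
  rwa [iUnion_disjointed, hU]

theorem piecesUnionGoal : PiecesUnionGoal := by
  intro F S hF hS hsub η hη d hd
  choose E τ hEm hEd hτ hES hcone hnull using fun J : F => (hF J J.2).1 η hη d hd
  refine conePieces_of_countable (fun p : F × ℕ => E p.1 p.2 ∩ S) (fun p => τ p.1 p.2)
    (fun p => (hEm p.1 p.2).inter hS) (fun p => inter_subset_right) (fun p => hτ p.1 p.2)
    (fun p x hx y hy => hcone p.1 p.2 x hx.1 y hy.1) ?_
  refine measure_mono_null (t := ⋃ J : F, ((J : Set ℂ) \ ⋃ n, E J n)) ?_ (measure_iUnion_null hnull)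
  rintro x ⟨hxS, hx⟩
  obtain ⟨J, hJ, hxJ⟩ := mem_iUnion₂.1 (hsub hxS)
  refine mem_iUnion.2 ⟨⟨J, hJ⟩, hxJ, fun h => hx ?_⟩
  obtain ⟨n, hn⟩ := mem_iUnion.1 h
  exact mem_iUnion.2 ⟨(⟨J, hJ⟩, n), hn, hxS⟩

/-- A set of times with vanishing derivative has image of length zero. -/
lemma image_deriv_zero_null {γ : ℝ → ℂ} {s : Set ℝ} (hs : volume s ≠ ⊤) (hsm : MeasurableSet s)
    (hd : ∀ t ∈ s, HasDerivAt γ 0 t) : Measure.hausdorffMeasure 1 (γ '' s) = 0 := by
  refine le_antisymm (ENNReal.le_of_forall_pos_le_add fun ε hε _ => ?_) zero_le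
  set a : ℝ≥0 := ε / ((volume s).toNNReal + 1) with a_def
  have ha : 0 < a := by positivity
  obtain ⟨t, A, htd, htm, hst, happ, hA⟩ :=
    exists_partition_approximatesLinearOn_of_hasFDerivWithinAt γ s (fun _ => 0)
      (fun x hx => by
        have h := (hd x hx).hasFDerivAt.hasFDerivWithinAt (s := s)
        simpa using h)
      (fun _ => a) (fun _ => ha.ne')
  rcases s.eq_empty_or_nonempty with rfl | hne
  · simp
  have hlip : ∀ n, LipschitzOnWith a γ (s ∩ t n) := by
    intro n
    obtain ⟨y, -, hy⟩ := hA hne n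
    refine LipschitzOnWith.of_dist_le_mul fun x hx z hz => ?_
    have := happ n x hx z hz
    simpa [hy, dist_eq_norm] using this
  have hcov : γ '' s ⊆ ⋃ n, γ '' (s ∩ t n) := by
    rw [← image_iUnion, ← inter_iUnion, inter_eq_left.2 hst]
  calc Measure.hausdorffMeasure 1 (γ '' s)
      ≤ ∑' n, Measure.hausdorffMeasure 1 (γ '' (s ∩ t n)) :=
        (measure_mono hcov).trans (measure_iUnion_le _)
    _ ≤ ∑' n, (a : ℝ≥0∞) * volume (s ∩ t n) := by
        refine ENNReal.tsum_le_tsum fun n => ?_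
        have := (hlip n).hausdorffMeasure_image_le (d := 1) zero_le_one
        simpa [hausdorffMeasure_real] using this
    _ = a * volume s := by
        rw [ENNReal.tsum_mul_left, ← measure_iUnion
          (fun i j hij => (htd hij).mono inter_subset_right inter_subset_right)
          (fun n => hsm.inter (htm n)), ← inter_iUnion, inter_eq_left.2 hst]
    _ ≤ 0 + ε := by
        rw [zero_add, ← ENNReal.coe_toNNReal hs, ← ENNReal.coe_mul, ENNReal.coe_le_coe, a_def,
          div_mul_eq_mul_div, div_le_iff₀ (by positivity)]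
        rw [mul_add, mul_one]
        exact le_self_add

theorem curvePiecesGoal : CurvePiecesGoal := by
  intro γ C hγ η hη d hd
  set D := {t : ℝ | DifferentiableAt ℝ γ t} with D_def
  have hDm : MeasurableSet D := measurableSet_of_differentiableAt ℝ γ
  set Z := {t : ℝ | deriv γ t = 0} with Z_def
  have hZm : MeasurableSet Z := measurable_deriv γ (measurableSet_singleton 0)
  set s := (Icc (0 : ℝ) 1 ∩ D) \ Z with s_def
  have hsm : MeasurableSet s := (measurableSet_Icc.inter hDm).diff hZm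
  -- the negligible part
  have hbad : Measure.hausdorffMeasure 1 (γ '' Icc 0 1 \ γ '' s) = 0 := by
    have h1 : Measure.hausdorffMeasure 1 (γ '' Dᶜ) = 0 := by
      have h := hγ.hausdorffMeasure_image_le (d := 1) zero_le_one Dᶜ
      rw [hausdorffMeasure_real, show volume Dᶜ = 0 from ae_iff.1 hγ.ae_differentiableAt_real] at h
      simpa using h
    have h2 : Measure.hausdorffMeasure 1 (γ '' (Icc 0 1 ∩ D ∩ Z)) = 0 := by
      refine image_deriv_zero_null ?_ ((measurableSet_Icc.inter hDm).inter hZm) fun t ht => ?_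
      · exact measure_ne_top_of_subset (inter_subset_left.trans inter_subset_left)
          (by simp [Real.volume_Icc])
      · have h3 : deriv γ t = 0 := ht.2
        have := (show DifferentiableAt ℝ γ t from ht.1.2).hasDerivAt
        rwa [h3] at this
    refine measure_mono_null ?_ (measure_union_null h1 h2)
    rintro _ ⟨⟨t, ht, rfl⟩, hns⟩
    by_cases hD : t ∈ D
    · by_cases hZ : t ∈ Z
      · exact Or.inr ⟨t, ⟨⟨ht, hD⟩, hZ⟩, rfl⟩
      · exact absurd ⟨t, ⟨⟨ht, hD⟩, hZ⟩, rfl⟩ hns
    · exact Or.inl ⟨t, hD, rfl⟩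
  rcases s.eq_empty_or_nonempty with hse | hne
  · refine conePieces_of_countable (fun _ : Empty => ∅) (fun _ => 1) (by simp) (by simp)
      (by simp) (by simp) ?_
    simpa [hse] using hbad
  -- linear approximation
  set η' : ℝ≥0 := Real.toNNReal (min (η / 4) (1 / 2)) with η'_def
  have hη' : (η' : ℝ) = min (η / 4) (1 / 2) := Real.coe_toNNReal _ (le_min (by linarith) (by norm_num))
  have hη'0 : 0 < (η' : ℝ) := by rw [hη']; exact lt_min (by linarith) (by norm_num)
  let r : (ℝ →L[ℝ] ℂ) → ℝ≥0 := fun A => if A 1 = 0 then 1 else η' * ‖A 1‖₊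
  have hr : ∀ A, r A ≠ 0 := by
    intro A
    simp only [r]
    split_ifs with h
    · exact one_ne_zero
    · exact mul_ne_zero (fun h' => by simp [h'] at hη'0) (by simpa using h)
  obtain ⟨t, A, -, htm, hst, happ, hA⟩ :=
    exists_partition_approximatesLinearOn_of_hasFDerivWithinAt γ s (fun x => fderiv ℝ γ x)
      (fun x hx => (show DifferentiableAt ℝ γ x from hx.1.2).hasFDerivAt.hasFDerivWithinAt) r hr
  set v : ℕ → ℂ := fun n => A n 1 with v_def
  have hv : ∀ n, v n ≠ 0 := by
    intro n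
    obtain ⟨y, hy, hAy⟩ := hA hne n
    simp only [v_def, hAy, fderiv_apply_one_eq_deriv]
    exact hy.2
  set ρ : ℝ := d / (C + 1) with ρ_def
  have hρ : 0 < ρ := by positivity
  set T : ℕ × ℤ → Set ℝ := fun p =>
    s ∩ t p.1 ∩ Ico ((p.2 : ℝ) * ρ) (((p.2 : ℝ) + 1) * ρ) with T_def
  have hlin : ∀ n, ∀ x ∈ s ∩ t n, ∀ y ∈ s ∩ t n,
      ‖γ y - γ x - (y - x) • v n‖ ≤ η' * ‖(y - x) • v n‖ := by
    intro n x hx y hy
    have h := happ n y hy x hx
    have e : A n (y - x) = (y - x) • v n := by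
      simp only [v_def]
      rw [← map_smul, smul_eq_mul, mul_one]
    rw [e] at h
    refine h.trans (le_of_eq ?_)
    rw [show r (A n) = η' * ‖A n 1‖₊ from if_neg (hv n), NNReal.coe_mul, coe_nnnorm, norm_smul]
    simp only [v_def]
    ring
  have hlow : ∀ n, ∀ x ∈ s ∩ t n, ∀ y ∈ s ∩ t n, ‖(y - x) • v n‖ ≤ 2 * ‖γ y - γ x‖ := by
    intro n x hx y hy
    have h := hlin n x hx y hy
    have h2 := norm_le_norm_add_norm_sub' ((y - x) • v n) (γ y - γ x)
    rw [norm_sub_rev] at h
    have : (η' : ℝ) ≤ 1 / 2 := by rw [hη']; exact min_le_right _ _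
    have := mul_le_mul_of_nonneg_right this (norm_nonneg ((y - x) • v n))
    linarith
  refine conePieces_of_countable (fun p => γ '' T p)
    (fun p => (‖v p.1‖)⁻¹ • v p.1) (fun p => ?_) (fun p => image_mono ?_) (fun p => ?_) ?_ ?_
  · refine ((hsm.inter (htm _)).inter measurableSet_Ico).image_of_continuousOn_injOn
      hγ.continuous.continuousOn fun x hx y hy hxy => ?_
    have := hlow p.1 x hx.1 y hy.1
    rw [← hxy, sub_self, norm_zero, mul_zero, norm_le_zero_iff, smul_eq_zero] at this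
    exact (sub_eq_zero.1 (this.resolve_right (hv _))).symm
  · exact fun x hx => hx.1.1.1.1
  · rw [norm_smul, norm_inv, norm_norm, inv_mul_cancel₀ (norm_ne_zero_iff.2 (hv _))]
  · rintro p _ ⟨x, hx, rfl⟩ _ ⟨y, hy, rfl⟩
    constructor
    · have h1 : |y - x| ≤ ρ := by
        obtain ⟨a1, a2⟩ := hx.2; obtain ⟨b1, b2⟩ := hy.2
        rw [abs_le]; constructor <;> nlinarith
      have h2 : ‖γ y - γ x‖ ≤ C * |y - x| := by
        simpa [Real.norm_eq_abs, dist_eq_norm] using hγ.dist_le_mul y x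
      refine h2.trans ((mul_le_mul_of_nonneg_left h1 C.coe_nonneg).trans ?_)
      rw [ρ_def, mul_div_assoc', div_le_iff₀ (by positivity)]
      nlinarith [C.coe_nonneg]
    · set τ := (‖v p.1‖)⁻¹ • v p.1 with τ_def
      set w := (y - x) • v p.1 with w_def
      set g := γ y - γ x
      have hτ1 : ‖τ‖ = 1 := by
        rw [τ_def, norm_smul, norm_inv, norm_norm, inv_mul_cancel₀ (norm_ne_zero_iff.2 (hv _))]
      have hw : dot w τ • τ = w := by
        rw [dot_eq_inner, τ_def, w_def, real_inner_smul_left, real_inner_smul_right,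
          real_inner_self_eq_norm_sq, smul_smul]
        congr 1
        field_simp [norm_ne_zero_iff.2 (hv p.1)]
      have key : g - dot g τ • τ = (g - w) - dot (g - w) τ • τ := by
        have : dot (g - w) τ = dot g τ - dot w τ := by simp [dot_eq_inner, inner_sub_left]
        rw [this, sub_smul, hw]; abel
      have hb : |dot (g - w) τ| ≤ ‖g - w‖ := by
        rw [dot_eq_inner]
        simpa [hτ1] using abs_real_inner_le_norm (g - w) τ
      rw [key]
      refine (norm_sub_le _ _).trans ?_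
      rw [norm_smul, hτ1, mul_one, Real.norm_eq_abs]
      have h1 := hlin p.1 x hx.1 y hy.1
      have h2 := hlow p.1 x hx.1 y hy.1
      have h3 : (η' : ℝ) * ‖w‖ ≤ η / 4 * (2 * ‖g‖) := by
        refine mul_le_mul ?_ h2 (norm_nonneg _) (by linarith)
        rw [hη']; exact min_le_left _ _
      linarith
  · refine measure_mono_null (t := γ '' Icc 0 1 \ γ '' s) (fun x hx => ⟨hx.1, fun h => hx.2 ?_⟩) hbad
    obtain ⟨a, ha, rfl⟩ := h
    obtain ⟨n, hn⟩ := mem_iUnion.1 (hst ha)
    exact mem_iUnion.2 ⟨(n, ⌊a / ρ⌋), show γ a ∈ γ '' T (n, ⌊a / ρ⌋) from ⟨a,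
      show a ∈ s ∩ t n ∩ Ico ((⌊a / ρ⌋ : ℝ) * ρ) (((⌊a / ρ⌋ : ℝ) + 1) * ρ) from
        ⟨⟨ha, hn⟩, (le_div_iff₀ hρ).1 (Int.floor_le _),
          (div_lt_iff₀ hρ).1 (Int.lt_floor_add_one _)⟩, rfl⟩⟩

/-- A separated set in a continuum has bounded cardinality. -/
lemma card_le_length {J : Set ℂ} (hJc : IsCompact J) (hJp : IsPreconnected J)
    (hJf : Measure.hausdorffMeasure 1 J ≠ ⊤) {δ : ℝ} (hδ : 0 < δ) {F : Finset ℂ}
    (hF : ↑F ⊆ J) (hsep : ∀ p ∈ F, ∀ q ∈ F, p ≠ q → δ < dist p q) (h2 : 2 ≤ F.card) :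
    (F.card : ℝ) * δ ≤ 2 * (Measure.hausdorffMeasure 1 J).toReal := by
  have hball : ∀ p ∈ F, ENNReal.ofReal (δ / 2) ≤
      Measure.hausdorffMeasure 1 (J ∩ ball p (δ / 2)) := by
    intro p hp
    obtain ⟨q, hq, hqp⟩ := Finset.exists_mem_ne (s := F) (by omega) p
    have hlip : LipschitzWith 1 fun z : ℂ => dist z p := LipschitzWith.dist_left p
    have hiv : Icc (dist p p) (dist q p) ⊆ (fun z => dist z p) '' J :=
      hJp.intermediate_value (hF hp) (hF hq) hlip.continuous.continuousOn
    have hsub : Ico (0 : ℝ) (δ / 2) ⊆ (fun z => dist z p) '' (J ∩ ball p (δ / 2)) := by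
      intro r hr
      obtain ⟨z, hz, hzr⟩ := hiv (show r ∈ Icc (dist p p) (dist q p) from
        ⟨by simpa using hr.1, by have := hsep q hq p hp hqp; linarith [hr.2]⟩)
      exact ⟨z, ⟨hz, by simpa [hzr] using hr.2⟩, hzr⟩
    calc ENNReal.ofReal (δ / 2) = volume (Ico (0 : ℝ) (δ / 2)) := by simp [Real.volume_Ico]
      _ ≤ Measure.hausdorffMeasure 1 ((fun z => dist z p) '' (J ∩ ball p (δ / 2))) := by
          rw [← hausdorffMeasure_real]; exact measure_mono hsub
      _ ≤ _ := by
          simpa using hlip.hausdorffMeasure_image_le (d := 1) zero_le_one (J ∩ ball p (δ / 2))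
  have hdisj : Set.PairwiseDisjoint ↑F fun p => J ∩ ball p (δ / 2) := fun p hp q hq hpq =>
    (ball_disjoint_ball (by linarith [hsep p hp q hq hpq])).mono inter_subset_right inter_subset_right
  have hsum : (F.card : ℝ≥0∞) * ENNReal.ofReal (δ / 2) ≤ Measure.hausdorffMeasure 1 J := by
    calc (F.card : ℝ≥0∞) * ENNReal.ofReal (δ / 2) = ∑ _p ∈ F, ENNReal.ofReal (δ / 2) := by
          rw [Finset.sum_const, nsmul_eq_mul]
      _ ≤ ∑ p ∈ F, Measure.hausdorffMeasure 1 (J ∩ ball p (δ / 2)) := Finset.sum_le_sum hball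
      _ = Measure.hausdorffMeasure 1 (⋃ p ∈ F, J ∩ ball p (δ / 2)) :=
          (measure_biUnion_finset hdisj fun p _ => hJc.measurableSet.inter measurableSet_ball).symm
      _ ≤ _ := measure_mono (iUnion₂_subset fun p _ => inter_subset_left)
  have := ENNReal.toReal_mono hJf hsum
  rw [ENNReal.toReal_mul, ENNReal.toReal_natCast, ENNReal.toReal_ofReal (by linarith)] at this
  linarith

/-- At each scale a continuum has a short chain of points passing near all its points. -/
lemma exists_chain {J : Set ℂ} (hJc : IsCompact J) (hJp : IsPreconnected J) (hJn : J.Nonempty)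
    (hJf : Measure.hausdorffMeasure 1 J ≠ ⊤) {δ : ℝ} (hδ : 0 < δ) :
    ∃ (m : ℕ) (g : ℕ → ℂ), (∀ i, g i ∈ J) ∧ (∀ i < m, dist (g i) (g (i + 1)) ≤ 2 * δ) ∧
      (m : ℝ) * (2 * δ) ≤ 8 * (Measure.hausdorffMeasure 1 J).toReal ∧
      ∀ x ∈ J, ∃ i ≤ m, dist x (g i) ≤ δ := by
  classical
  set L := (Measure.hausdorffMeasure 1 J).toReal
  let Sep : Finset ℂ → Prop := fun F => ↑F ⊆ J ∧ ∀ p ∈ F, ∀ q ∈ F, p ≠ q → δ < dist p q
  obtain ⟨x0, hx0⟩ := hJn
  let P : ℕ → Prop := fun n => ∃ F, Sep F ∧ F.card = n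
  have hbd : ∀ n, P n → n ≤ ⌈2 * L / δ⌉₊ + 1 := by
    rintro n ⟨F, hF, rfl⟩
    by_cases h : 2 ≤ F.card
    · have h1 := card_le_length hJc hJp hJf hδ hF.1 hF.2 h
      have : (F.card : ℝ) ≤ ⌈2 * L / δ⌉₊ := ((le_div_iff₀ hδ).2 h1).trans (Nat.le_ceil _)
      exact (Nat.cast_le.1 this).trans (Nat.le_succ _)
    · omega
  have hP1 : P 1 := ⟨{x0}, ⟨by simpa using hx0, by simp⟩, by simp⟩
  set N := Nat.findGreatest P (⌈2 * L / δ⌉₊ + 1) with N_def
  obtain ⟨F, hF, hFN⟩ : P N := Nat.findGreatest_spec (hbd 1 hP1) hP1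
  have hN1 : 1 ≤ F.card := hFN ▸ Nat.le_findGreatest (hbd 1 hP1) hP1
  have hcov : ∀ x ∈ J, ∃ p ∈ F, dist x p ≤ δ := by
    intro x hx
    by_contra hno
    push Not at hno
    have hxF : x ∉ F := fun h => by have := hno x h; simp at this; linarith
    have hP : P (F.card + 1) := by
      refine ⟨insert x F, ⟨by simpa [insert_subset_iff] using And.intro hx hF.1, ?_⟩,
        Finset.card_insert_of_notMem hxF⟩
      intro p hp q hq hpq
      simp only [Finset.mem_insert] at hp hq
      rcases hp with rfl | hp <;> rcases hq with rfl | hq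
      · exact absurd rfl hpq
      · exact hno q hq
      · rw [dist_comm]; exact hno p hp
      · exact hF.2 p hp q hq hpq
    have := Nat.le_findGreatest (hbd _ hP) hP
    omega
  have grow : ∀ k, 1 ≤ k → k ≤ F.card → ∃ (m : ℕ) (g : ℕ → ℂ) (S : Finset ℂ),
      S.card = k ∧ S ⊆ F ∧ m ≤ 2 * (k - 1) ∧ (∀ i, g i ∈ S) ∧
      (∀ i < m, dist (g i) (g (i + 1)) ≤ 2 * δ) ∧ ∀ p ∈ S, ∃ i ≤ m, g i = p := by
    intro k
    induction k with
    | zero => omega
    | succ k ih =>
        intro _ hk
        rcases Nat.eq_zero_or_pos k with rfl | hk0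
        · obtain ⟨p, hp⟩ := Finset.card_pos.1 (show 0 < F.card by omega)
          exact ⟨0, fun _ => p, {p}, by simp, by simpa using hp, le_rfl, by simp, by simp,
            fun q hq => ⟨0, le_rfl, (Finset.mem_singleton.1 hq).symm⟩⟩
        obtain ⟨m, g, S, hcard, hSF, hm, hgS, hstep, hall⟩ := ih hk0 (by omega)
        have hSp : S.Nonempty := Finset.card_pos.1 (by omega)
        have hTp : (F \ S).Nonempty := by
          rw [Finset.sdiff_nonempty]
          intro h; have := Finset.card_le_card h; omega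
        obtain ⟨q, hq, p, hp, hpq⟩ : ∃ q ∈ F \ S, ∃ p ∈ S, dist p q ≤ 2 * δ := by
          obtain ⟨a, ha⟩ := hSp
          obtain ⟨b, hb⟩ := hTp
          obtain ⟨z, -, hz1, hz2⟩ := isPreconnected_closed_iff.1 hJp
            (⋃ p ∈ (S : Set ℂ), closedBall p δ) (⋃ p ∈ ((F \ S : Finset ℂ) : Set ℂ), closedBall p δ)
            (S.finite_toSet.isClosed_biUnion fun _ _ => isClosed_closedBall)
            ((F \ S).finite_toSet.isClosed_biUnion fun _ _ => isClosed_closedBall)
            (fun x hx => by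
              obtain ⟨p, hp, hxp⟩ := hcov x hx
              by_cases h : p ∈ S
              · exact Or.inl (mem_iUnion₂.2 ⟨p, h, hxp⟩)
              · exact Or.inr (mem_iUnion₂.2 ⟨p, by simp [hp, h], hxp⟩))
            ⟨a, hF.1 (hSF ha), mem_iUnion₂.2 ⟨a, ha, by simp [hδ.le]⟩⟩
            ⟨b, hF.1 (Finset.sdiff_subset hb), mem_iUnion₂.2 ⟨b, hb, by simp [hδ.le]⟩⟩
          obtain ⟨p, hp, hzp⟩ := mem_iUnion₂.1 hz1
          obtain ⟨q, hq, hzq⟩ := mem_iUnion₂.1 hz2
          refine ⟨q, hq, p, hp, ?_⟩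
          have := dist_triangle_left p q z
          rw [mem_closedBall] at hzp hzq
          linarith
        obtain ⟨j, hjm, hj⟩ := hall p hp
        rw [Finset.mem_sdiff] at hq
        refine ⟨m + 2, fun i => if i ≤ j then g i else if i = j + 1 then q else g (i - 2),
          insert q S, by rw [Finset.card_insert_of_notMem hq.2, hcard],
          Finset.insert_subset hq.1 hSF, by omega, ?_, ?_, ?_⟩
        · intro i
          simp only
          split_ifs
          · exact Finset.mem_insert_of_mem (hgS i)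
          · exact Finset.mem_insert_self _ _
          · exact Finset.mem_insert_of_mem (hgS _)
        · intro i hi
          simp only
          rcases lt_trichotomy i j with h | h | h
          · rw [if_pos h.le, if_pos (by omega : i + 1 ≤ j)]
            exact hstep i (by omega)
          · subst h
            rw [if_pos le_rfl, if_neg (by omega), if_pos rfl, hj]
            exact hpq
          · rw [if_neg (by omega : ¬ i ≤ j), if_neg (by omega : ¬ i + 1 ≤ j),
              if_neg (by omega : ¬ i + 1 = j + 1)]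
            by_cases h' : i = j + 1
            · subst h'
              rw [if_pos rfl, show j + 1 + 1 - 2 = j by omega, hj, dist_comm]
              exact hpq
            · rw [if_neg h', show i + 1 - 2 = i - 2 + 1 by omega]
              exact hstep _ (by omega)
        · intro r hr
          rcases Finset.mem_insert.1 hr with rfl | hr
          · exact ⟨j + 1, by omega, by simp⟩
          · obtain ⟨i, hi, hir⟩ := hall r hr
            by_cases h : i ≤ j
            · exact ⟨i, by omega, by simp [h, hir]⟩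
            · refine ⟨i + 2, by omega, ?_⟩
              simp only [if_neg (by omega : ¬ i + 2 ≤ j), if_neg (by omega : ¬ i + 2 = j + 1)]
              simpa using hir
  obtain ⟨m, g, S, hcard, hSF, hm, hgS, hstep, hall⟩ := grow F.card hN1 le_rfl
  have hSeq : S = F := Finset.eq_of_subset_of_card_le hSF hcard.ge
  refine ⟨m, g, fun i => hF.1 (hSF (hgS i)), hstep, ?_, fun x hx => ?_⟩
  · rcases Nat.lt_or_ge F.card 2 with h | h
    · have : m = 0 := by omega
      simp [this, L]
    · have h1 := card_le_length hJc hJp hJf hδ hF.1 hF.2 h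
      have : (m : ℝ) ≤ 2 * F.card := by exact_mod_cast (show m ≤ 2 * F.card by omega)
      nlinarith
  · obtain ⟨p, hp, hxp⟩ := hcov x hx
    obtain ⟨i, hi, hip⟩ := hall p (hSeq ▸ hp)
    exact ⟨i, hi, hip ▸ hxp⟩

theorem continuumGoal : ContinuumGoal := by
  intro J hJc hJp hJn hJf
  set L := (Measure.hausdorffMeasure 1 J).toReal with L_def
  have hL : 0 ≤ L := ENNReal.toReal_nonneg
  set δ : ℕ → ℝ := fun n => 1 / (n + 1) with δ_def
  have hδ : ∀ n, 0 < δ n := fun n => by positivity
  have hδ0 : Tendsto δ atTop (𝓝 0) := tendsto_one_div_add_atTop_nhds_zero_nat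
  choose m g hgJ hstep hlen hcov using fun n => exists_chain hJc hJp hJn hJf (hδ n)
  set idx : ℕ → ℝ → ℕ := fun n t => min ⌊t * m n⌋₊ (m n) with idx_def
  set f : ℕ → ℝ → ℂ := fun n t => g n (idx n t) with f_def
  have hchain : ∀ n i k, i + k ≤ m n → dist (g n i) (g n (i + k)) ≤ k * (2 * δ n) := by
    intro n i k
    induction k with
    | zero => simp
    | succ k ih =>
        intro h
        have h1 := dist_triangle (g n i) (g n (i + k)) (g n (i + (k + 1)))
        have h2 := hstep n (i + k) (by omega)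
        have h3 := ih (by omega)
        push_cast
        rw [← add_assoc i k 1] at h1 ⊢
        linarith
  have hcoarse : ∀ n t s, dist (f n t) (f n s) ≤ 8 * L * |t - s| + 2 * δ n := by
    intro n
    have main : ∀ t s, t ≤ s → dist (f n t) (f n s) ≤ 8 * L * |t - s| + 2 * δ n := by
      intro t s hts
      have hle : idx n t ≤ idx n s :=
        min_le_min_right _ (Nat.floor_mono (mul_le_mul_of_nonneg_right hts (Nat.cast_nonneg _)))
      obtain ⟨k, hk⟩ := Nat.exists_eq_add_of_le hle
      have h1 := hchain n (idx n t) k (hk ▸ min_le_right _ _)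
      rw [← hk] at h1
      have hk2 : (k : ℝ) ≤ (s - t) * m n + 1 := by
        simp only [idx_def] at hk
        rcases Nat.eq_zero_or_pos k with rfl | hkpos
        · have : 0 ≤ (s - t) * m n := mul_nonneg (by linarith) (Nat.cast_nonneg _)
          push_cast; linarith
        have hts' : ⌊t * m n⌋₊ + k ≤ ⌊s * m n⌋₊ := by omega
        have hs0 : 0 < ⌊s * m n⌋₊ := by omega
        have h3 : ((⌊s * m n⌋₊ : ℕ) : ℝ) ≤ s * m n := Nat.floor_le (Nat.pos_of_floor_pos hs0).le
        have h4 := Nat.lt_floor_add_one (t * m n)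
        have h5 : (⌊t * m n⌋₊ : ℝ) + k ≤ ⌊s * m n⌋₊ := by exact_mod_cast hts'
        linarith
      refine h1.trans ?_
      rw [abs_of_nonpos (by linarith), neg_sub]
      have h6 := mul_le_mul_of_nonneg_right hk2 (by linarith [hδ n] : (0 : ℝ) ≤ 2 * δ n)
      have h7 := mul_le_mul_of_nonneg_left (hlen n) (show 0 ≤ s - t by linarith)
      linarith
    intro t s
    rcases le_total t s with h | h
    · exact main t s h
    · rw [dist_comm, abs_sub_comm]; exact main s t h
  set U := Ultrafilter.of (atTop : Filter ℕ) with U_def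
  have hU : (U : Filter ℕ) ≤ atTop := Ultrafilter.of_le _
  have hlim : ∀ t, ∃ z ∈ J, Tendsto (fun n => f n t) U (𝓝 z) := fun t => by
    obtain ⟨z, hz, hle⟩ := hJc.ultrafilter_le_nhds (U.map fun n => f n t)
      (le_principal_iff.2 (Filter.Eventually.of_forall (p := fun n => f n t ∈ J)
        fun n => hgJ n _))
    exact ⟨z, hz, hle⟩
  choose γ hγJ hγ using hlim
  have hδU : Tendsto δ U (𝓝 0) := hδ0.mono_left hU
  have hlipd : ∀ t s, dist (γ t) (γ s) ≤ 8 * L * |t - s| := by
    intro t s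
    have h2 : Tendsto (fun n => 8 * L * |t - s| + 2 * δ n) U (𝓝 (8 * L * |t - s|)) := by
      simpa using (hδU.const_mul 2).const_add (8 * L * |t - s|)
    exact le_of_tendsto_of_tendsto' ((hγ t).dist (hγ s)) h2 fun n => hcoarse n t s
  refine ⟨γ, Real.toNNReal (8 * L), LipschitzWith.of_dist_le_mul fun t s => ?_, ?_⟩
  · rw [Real.coe_toNNReal _ (by positivity), Real.dist_eq]; exact hlipd t s
  refine subset_antisymm (image_subset_iff.2 fun t _ => hγJ t) fun x hx => ?_
  choose i hi hxi using fun n => hcov n x hx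
  set τ : ℕ → ℝ := fun n => (i n : ℝ) / m n with τ_def
  have hτ : ∀ n, τ n ∈ Icc (0 : ℝ) 1 ∧ idx n (τ n) = i n := by
    intro n
    rcases Nat.eq_zero_or_pos (m n) with h | h
    · have : i n = 0 := by have := hi n; omega
      simp [τ_def, idx_def, h, this]
    · have hm : (0 : ℝ) < m n := by exact_mod_cast h
      refine ⟨⟨by positivity, ?_⟩, ?_⟩
      · rw [τ_def, div_le_one hm]; exact_mod_cast hi n
      · simp only [τ_def, idx_def]
        rw [div_mul_cancel₀ _ hm.ne', Nat.floor_natCast, min_eq_left (hi n)]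
  obtain ⟨t, ht, hle⟩ := (isCompact_Icc (a := (0 : ℝ)) (b := 1)).ultrafilter_le_nhds (U.map τ)
    (le_principal_iff.2 (Filter.Eventually.of_forall (p := fun n => τ n ∈ Icc (0 : ℝ) 1)
      fun n => (hτ n).1))
  have hτlim : Tendsto τ U (𝓝 t) := hle
  refine ⟨t, ht, dist_le_zero.1 (le_of_tendsto_of_tendsto' ((hγ t).dist tendsto_const_nhds)
    (show Tendsto (fun n => 8 * L * |t - τ n| + 3 * δ n) U (𝓝 0) from ?_) fun n => ?_)⟩
  · simpa using (((tendsto_const_nhds (x := t)).sub hτlim).abs.const_mul (8 * L)).add (hδU.const_mul 3)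
  · have h1 := hcoarse n t (τ n)
    have h2 : f n (τ n) = g n (i n) := by simp only [f_def, (hτ n).2]
    have h3 := dist_triangle (f n t) (f n (τ n)) x
    rw [h2] at h1 h3
    have h4 := hxi n
    rw [dist_comm] at h4
    linarith

end Vale.Agent.P128.Connected
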