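import Vale.Agent.P128.Connected.Interface
import Vale.Agent.P128.Islands.Weak

/-!
# The layers converge
-/

namespace Vale.Agent.P128.Connected

open MeasureTheory Filter Metric Set InnerProductSpace Islands
open Weak
open scoped Topology ENNReal ContDiff ComplexConjugate Laplacian

/-- Potential fields are conjugates of holomorphic functions. -/
lemma differentiableOn_conj_field {O : Set ℂ} (hO : IsOpen O) {g : ℂ → ℂ}
    (h : IsPotentialField O g) : DifferentiableOn ℂ (fun x => conj (g x)) O := by
  intro x hx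
  have hd : DifferentiableAt ℝ g x :=
    ((h.2.2.1 x hx).contDiffAt (hO.mem_nhds hx)).differentiableAt (by simp)
  have hF : fderiv ℝ (fun y => conj (g y)) x =
      (Complex.conjCLE : ℂ →L[ℝ] ℂ).comp (fderiv ℝ g x) :=
    (Complex.conjCLE.hasFDerivAt.comp x hd.hasFDerivAt).fderiv
  refine (differentiableAt_complex_iff_differentiableAt_real.2
    ⟨(Complex.conjCLE.differentiableAt).comp x hd, ?_⟩).differentiableWithinAt
  change fderiv ℝ (fun y => conj (g y)) x Complex.I =
    Complex.I • fderiv ℝ (fun y => conj (g y)) x 1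
  rw [hF]
  refine Complex.ext ?_ ?_ <;> simp [(h.2.2.2 x hx).1, (h.2.2.2 x hx).2]

/-- The derivative of the conjugate of a holomorphic function. -/
lemma fderiv_conj_apply {F : ℂ → ℂ} {x : ℂ} (h : DifferentiableAt ℂ F x) (e : ℂ) :
    fderiv ℝ (fun y => conj (F y)) x e = conj (deriv F x * e) := by
  have hd := h.hasDerivAt.hasFDerivAt.restrictScalars ℝ
  rw [show fderiv ℝ (fun y => conj (F y)) x = _ from (Complex.conjCLE.hasFDerivAt.comp x hd).fderiv]
  simp [mul_comm]

lemma isPotentialField_of_differentiableOn {O : Set ℂ} (hO : IsOpen O) {F : ℂ → ℂ}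
    (h : DifferentiableOn ℂ F O) : IsPotentialField O (fun x => conj (F x)) := by
  have hF : ContDiffOn ℝ ∞ F O := (h.contDiffOn hO).restrict_scalars ℝ
  refine ⟨fun x hx => ?_, fun x hx => ?_, Complex.conjCLE.contDiff.comp_contDiffOn hF,
    fun x hx => ?_⟩
  · simpa using (h.analyticAt (hO.mem_nhds hx)).harmonicAt_re
  · simpa [Pi.neg_def] using (h.analyticAt (hO.mem_nhds hx)).harmonicAt_im.neg
  · rw [fderiv_conj_apply (h.differentiableAt (hO.mem_nhds hx)),
      fderiv_conj_apply (h.differentiableAt (hO.mem_nhds hx))]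
    simp

lemma IsPotentialField_congr {O : Set ℂ} (hO : IsOpen O) {f g : ℂ → ℂ}
    (h : IsPotentialField O f) (hfg : EqOn f g O) : IsPotentialField O g := by
  have h1 := differentiableOn_conj_field hO h
  have h2 : DifferentiableOn ℂ (fun x => conj (g x)) O :=
    h1.congr fun x hx => by rw [hfg hx]
  simpa using isPotentialField_of_differentiableOn hO h2

/-- Harmonic functions are bounded by their square integral. -/
lemma exists_sup_bound : ∃ B, 0 ≤ B ∧ ∀ (O : Set ℂ) (f : ℂ → ℝ) (x : ℂ) (a : ℝ), IsOpen O →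
    ContDiffOn ℝ ∞ f O → HarmonicOnNhd f O → 0 < a → closedBall x a ⊆ O →
    |f x| ≤ B * ((∫ y in closedBall x a, f y ^ 2) / a ^ 2 + 1) := by
  obtain ⟨B, hB0, hB⟩ := exists_ker_bound
  refine ⟨B * (1 + Real.pi), by positivity, fun O f x a hO hf hh ha hsub => ?_⟩
  have hw : IsWeakHarmonic O f := by
    refine ⟨hf.continuousOn.locallyIntegrableOn hO.measurableSet, fun φ hφ => ?_⟩
    have hcd : ContDiff ℝ 2 φ := hφ.1.of_le (WithTop.coe_le_coe.2 le_top)
    have hfv : ∀ v, ContDiffOn ℝ ∞ (fun y => fderiv ℝ f y v) O := fun v =>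
      (hf.fderiv_of_isOpen hO (m := ∞) le_rfl).clm_apply contDiffOn_const
    have key : ∀ v : ℂ, ∫ y, f y * fderiv ℝ (fun z => fderiv ℝ φ z v) y v =
        ∫ y, fderiv ℝ (fun z => fderiv ℝ f z v) y v * φ y := fun v => by
      have e1 := integral_fderiv_mul_test hO hf (hφ.fderiv_apply v) v
      have e2 := integral_fderiv_mul_test hO (hfv v) hφ v
      linarith
    have hi : ∀ v : ℂ, Integrable fun y => f y * fderiv ℝ (fun z => fderiv ℝ φ z v) y v :=
      fun v => integrable_mul_test hO hf.continuousOn ((hφ.fderiv_apply v).fderiv_apply v)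
    have hi' : ∀ v : ℂ, Integrable fun y => fderiv ℝ (fun z => fderiv ℝ f z v) y v * φ y :=
      fun v => integrable_mul_test hO
        (((hfv v).fderiv_of_isOpen hO (m := ∞) le_rfl).clm_apply contDiffOn_const).continuousOn hφ
    have e : ∀ y, f y * Δ φ y = f y * fderiv ℝ (fun z => fderiv ℝ φ z 1) y 1 +
        f y * fderiv ℝ (fun z => fderiv ℝ φ z Complex.I) y Complex.I := fun y => by
      rw [Weak.lap_eq hcd, Weak.dd, Weak.dd, mul_add]
    simp only [e]
    rw [integral_add (hi 1) (hi Complex.I), key, key, ← integral_add (hi' 1) (hi' Complex.I)]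
    refine integral_eq_zero_of_ae (Eventually.of_forall fun y => ?_)
    by_cases hy : y ∈ O
    · have hl := (hh y hy).2.self_of_nhds
      have hfy : ContDiffAt ℝ ∞ f y := (hf y hy).contDiffAt (hO.mem_nhds hy)
      have hd : ∀ v : ℂ, fderiv ℝ (fun z => fderiv ℝ f z v) y v =
          fderiv ℝ (fderiv ℝ f) y v v := fun v => by
        rw [fderiv_clm_apply ((hfy.fderiv_right (m := ∞) le_rfl).differentiableAt (by simp))
          (differentiableAt_const v)]
        simp
      simp only [Pi.zero_apply, ← add_mul, hd]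
      simp [laplacian_eq_iteratedFDeriv_complexPlane, iteratedFDeriv_two_apply] at hl
      rw [hl, zero_mul]
    · simp [image_eq_zero_of_notMem_tsupport fun h => hy (hφ.2.2 h)]
  have hvol : ∀ b : ℝ, 0 ≤ b →
      (volume : Measure ℂ).real (closedBall x b) = b ^ 2 * Real.pi := fun b hb => by
    simp [measureReal_def, Complex.volume_closedBall, hb]
  have hcont : ContinuousOn f (closedBall x a) := hf.continuousOn.mono hsub
  have hfa : |moll a f x| ≤ B * (1 + Real.pi) * ((∫ y in closedBall x a, f y ^ 2) / a ^ 2 + 1) := by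
    have i1 : IntegrableOn (fun y => f y ^ 2) (closedBall x a) :=
      (hcont.pow 2).integrableOn_compact (isCompact_closedBall _ _)
    have i2 : IntegrableOn (fun _ => (1 : ℝ)) (closedBall x a) (volume : Measure ℂ) :=
      integrableOn_const (isCompact_closedBall x a).measure_lt_top.ne
    rw [moll, ← setIntegral_eq_integral_of_forall_compl_eq_zero (s := closedBall x a)
      fun y hy => by rw [ker_eq_zero ha (by simpa [dist_eq_norm] using hy), mul_zero]]
    refine (abs_integral_le_integral_abs).trans ?_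
    refine (integral_mono_of_nonneg (Eventually.of_forall fun y => abs_nonneg _)
      (((i1.add i2)).const_mul (B / a ^ 2)) (Eventually.of_forall fun y => ?_)).trans (le_of_eq_of_le
        (integral_const_mul _ _) ?_)
    · show |f y * ker a (y - x)| ≤ B / a ^ 2 * (f y ^ 2 + 1)
      rw [abs_mul, mul_comm]
      refine mul_le_mul (hB a _) ?_ (abs_nonneg _) (by positivity)
      nlinarith [sq_nonneg (|f y| - 1), sq_abs (f y), abs_nonneg (f y)]
    · simp only [Pi.add_apply]
      rw [integral_add i1 i2, setIntegral_const, hvol a ha.le, smul_eq_mul, mul_one]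
      have hI : 0 ≤ (∫ y in closedBall x a, f y ^ 2) / a ^ 2 :=
        div_nonneg (integral_nonneg fun y => sq_nonneg _) (sq_nonneg _)
      calc B / a ^ 2 * ((∫ y in closedBall x a, f y ^ 2) + a ^ 2 * Real.pi)
          = B * ((∫ y in closedBall x a, f y ^ 2) / a ^ 2 + Real.pi) := by field_simp
        _ ≤ B * (1 + Real.pi) * ((∫ y in closedBall x a, f y ^ 2) / a ^ 2 + 1) := by
            nlinarith [mul_nonneg (mul_nonneg hB0 Real.pi_pos.le) hI]
  refine le_of_forall_pos_le_add fun ε hε => ?_
  have hBε : 0 < ε / (B * Real.pi + 1) := by positivity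
  obtain ⟨δ, hδ, hδf⟩ := Metric.continuousWithinAt_iff.1
    (hcont x (mem_closedBall_self ha.le)) _ hBε
  set b := min a (δ / 2) with hbdef
  have hb : 0 < b := lt_min ha (by positivity)
  have heq : moll a f x = moll b f x := moll_eq_moll hw ha hb (by
    rw [max_eq_left (min_le_left _ _)]; exact hsub)
  have hbs : closedBall x b ⊆ closedBall x a := closedBall_subset_closedBall (min_le_left _ _)
  have hk : Integrable fun y => ker b (y - x) :=
    ((contDiff_ker b).continuous.integrable_of_hasCompactSupport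
      (hasCompactSupport_ker hb)).comp_sub_right x
  have hfk : Integrable fun y => f y * ker b (y - x) := by
    refine (integrableOn_iff_integrable_of_support_subset ?_).1
      ((hcont.mono hbs).mul ((contDiff_ker b).continuous.comp (continuous_sub_right x)).continuousOn
        |>.integrableOn_compact (isCompact_closedBall x b))
    intro y hy
    by_contra hn
    exact hy (by simp [ker_eq_zero hb (by simpa [dist_eq_norm] using hn)])
  have hclose : |moll b f x - f x| ≤ ε := by
    have e : moll b f x - f x = ∫ y, (f y - f x) * ker b (y - x) := by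
      simp only [sub_mul]
      rw [integral_sub hfk (hk.const_mul _), integral_const_mul,
        integral_sub_right_eq_self (fun y => ker b y) x, integral_ker hb, mul_one, moll]
    rw [e, ← setIntegral_eq_integral_of_forall_compl_eq_zero (s := closedBall x b)
      fun y hy => by rw [ker_eq_zero hb (by simpa [dist_eq_norm] using hy), mul_zero]]
    have hbd := norm_setIntegral_le_of_norm_le_const
      (μ := (volume : Measure ℂ)) (s := closedBall x b)
      (f := fun y => (f y - f x) * ker b (y - x))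
      (C := ε / (B * Real.pi + 1) * (B / b ^ 2))
      (isCompact_closedBall x b).measure_lt_top fun y hy => by
        rw [norm_mul, Real.norm_eq_abs, Real.norm_eq_abs]
        refine mul_le_mul ?_ (hB b _) (abs_nonneg _) hBε.le
        refine (hδf (hbs hy) ?_).le
        exact lt_of_le_of_lt (mem_closedBall.1 hy)
          (lt_of_le_of_lt (min_le_right _ _) (by linarith))
    rw [Real.norm_eq_abs, hvol b hb.le] at hbd
    refine hbd.trans ?_
    calc ε / (B * Real.pi + 1) * (B / b ^ 2) * (b ^ 2 * Real.pi)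
        = ε / (B * Real.pi + 1) * (B * Real.pi) := by field_simp
      _ ≤ ε / (B * Real.pi + 1) * (B * Real.pi + 1) := by gcongr; linarith
      _ = ε := div_mul_cancel₀ _ (by positivity)
  rw [← heq] at hclose
  linarith [abs_sub_abs_le_abs_sub (f x) (moll a f x), abs_sub_comm (moll a f x) (f x)]

lemma rad_pos (k : ℕ) : 0 < rad k := pow_pos (by norm_num) k

lemma rad_succ (k : ℕ) : rad (k + 1) = 4 * rad k := by simp [rad, pow_succ, mul_comm]

lemma rad_mono {j k : ℕ} (h : j ≤ k) : rad j ≤ rad k := pow_le_pow_right₀ (by norm_num) h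

lemma exists_rad_ge (R : ℝ) : ∃ k, R ≤ rad k :=
  (pow_unbounded_of_one_lt R (by norm_num : (1 : ℝ) < 4)).imp fun _ h => h.le

/-- A sequence of potential fields with geometric increments converges with its derivatives. -/
theorem limit_field {K' : Set ℂ} (hK' : IsClosed K') {Q : ℕ → ℂ → ℂ}
    (hQ : ∀ k, IsPotentialField (ball 0 (2 * rad k) \ K') (Q k)) {C : ℝ}
    (hstep : ∀ k, ∀ x ∈ ball (0 : ℂ) (rad k) \ K', ‖Q (k + 1) x - Q k x‖ ≤ C * ‖x‖ / rad k) :
    ∃ g, IsPotentialField K'ᶜ g ∧ (∀ x ∉ K', Tendsto (fun k => Q k x) atTop (𝓝 (g x))) ∧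
      ∀ Z, IsCompact Z → Z ⊆ K'ᶜ → ∀ e : ℂ, TendstoUniformlyOn
        (fun k x => fderiv ℝ (Q k) x e) (fun x => fderiv ℝ g x e) atTop Z := by
  classical
  set F : ℕ → ℂ → ℂ := fun k x => conj (Q k x) with hF
  have hFd : ∀ k, DifferentiableOn ℂ (F k) (ball 0 (2 * rad k) \ K') := fun k =>
    differentiableOn_conj_field (isOpen_ball.sdiff hK') (hQ k)
  have hgeo : ∀ j, ∀ x ∈ ball (0 : ℂ) (rad j) \ K', ∀ n,
      dist (F (n + j) x) (F (n + 1 + j) x) ≤ |C| * (1 / 4) ^ n := by
    intro j x hx n
    have hx' : x ∈ ball (0 : ℂ) (rad (n + j)) \ K' :=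
      ⟨ball_subset_ball (rad_mono (by omega)) hx.1, hx.2⟩
    have h := hstep (n + j) x hx'
    have hxn : ‖x‖ ≤ rad j := (mem_ball_zero_iff.1 hx.1).le
    rw [dist_comm, dist_eq_norm, hF, show n + 1 + j = n + j + 1 by omega, ← map_sub,
      Complex.norm_conj]
    calc ‖Q (n + j + 1) x - Q (n + j) x‖ ≤ C * ‖x‖ / rad (n + j) := h
      _ ≤ |C| * rad j / rad (n + j) := by
          refine div_le_div_of_nonneg_right ?_ (rad_pos _).le
          exact le_trans (mul_le_mul_of_nonneg_right (le_abs_self C) (norm_nonneg _))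
            (mul_le_mul_of_nonneg_left hxn (abs_nonneg _))
      _ = |C| * (1 / 4) ^ n := by
          simp only [rad, pow_add, one_div, inv_pow]
          field_simp
  set G : ℂ → ℂ := fun x => limUnder atTop fun k => F k x with hG
  have hlim : ∀ x ∉ K', Tendsto (fun k => F k x) atTop (𝓝 (G x)) := by
    intro x hx
    obtain ⟨j, hj⟩ := exists_rad_ge (‖x‖ + 1)
    have hxj : x ∈ ball (0 : ℂ) (rad j) \ K' := ⟨mem_ball_zero_iff.2 (by linarith), hx⟩
    obtain ⟨y, hy⟩ := cauchySeq_tendsto_of_complete
      (cauchySeq_of_le_geometric (1 / 4) |C| (by norm_num) (hgeo j x hxj))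
    exact tendsto_nhds_limUnder ⟨y, (tendsto_add_atTop_iff_nat j).1 hy⟩
  have hunif : ∀ j, TendstoUniformlyOn F G atTop (ball (0 : ℂ) (rad j) \ K') := by
    intro j
    rw [Metric.tendstoUniformlyOn_iff]
    intro ε hε
    have ht : Tendsto (fun n : ℕ => |C| * (1 / 4 : ℝ) ^ n / (1 - 1 / 4)) atTop (𝓝 0) := by
      simpa using ((tendsto_pow_atTop_nhds_zero_of_lt_one (r := (1 / 4 : ℝ)) (by norm_num)
        (by norm_num)).const_mul
        |C|).div_const (1 - 1 / 4 : ℝ)
    obtain ⟨N, hN⟩ := eventually_atTop.1 (ht.eventually (gt_mem_nhds hε))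
    refine eventually_atTop.2 ⟨N + j, fun n hn x hx => ?_⟩
    have := dist_le_of_le_geometric_of_tendsto (1 / 4) |C| (by norm_num) (hgeo j x hx)
      ((hlim x hx.2).comp (tendsto_add_atTop_nat j)) (n - j)
    simp only [Nat.sub_add_cancel (by omega : j ≤ n)] at this
    rw [dist_comm]
    exact lt_of_le_of_lt this (hN _ (by omega))
  have hopen : IsOpen K'ᶜ := hK'.isOpen_compl
  have hloc : TendstoLocallyUniformlyOn F G atTop K'ᶜ := by
    refine (tendstoLocallyUniformlyOn_iff_forall_isCompact hopen).2 fun Z hZ' hZ => ?_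
    obtain ⟨R, hR⟩ := hZ.isBounded.subset_ball (0 : ℂ)
    obtain ⟨j, hj⟩ := exists_rad_ge R
    exact (hunif j).mono fun z hz => ⟨ball_subset_ball hj (hR hz), hZ' hz⟩
  have hGd : DifferentiableOn ℂ G K'ᶜ ∧
      ∀ Z, IsCompact Z → Z ⊆ K'ᶜ → TendstoUniformlyOn (fun k => deriv (F k)) (deriv G) atTop Z := by
    have hev : ∀ j, ∀ᶠ n in atTop, DifferentiableOn ℂ (F n) (ball (0 : ℂ) (rad j) \ K') :=
      fun j => eventually_atTop.2 ⟨j, fun n hn => (hFd n).mono fun z hz =>
        ⟨ball_subset_ball (by linarith [rad_mono hn, rad_pos n]) hz.1, hz.2⟩⟩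
    constructor
    · intro x hx
      obtain ⟨j, hj⟩ := exists_rad_ge (‖x‖ + 1)
      have ho : IsOpen (ball (0 : ℂ) (rad j) \ K') := isOpen_ball.sdiff hK'
      have hxj : x ∈ ball (0 : ℂ) (rad j) \ K' := ⟨mem_ball_zero_iff.2 (by linarith), hx⟩
      exact ((hunif j).tendstoLocallyUniformlyOn.differentiableOn (hev j) ho
        |>.differentiableAt (ho.mem_nhds hxj)).differentiableWithinAt
    · intro Z hZ hZK
      obtain ⟨R, hR⟩ := hZ.isBounded.subset_ball (0 : ℂ)
      obtain ⟨j, hj⟩ := exists_rad_ge R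
      have ho : IsOpen (ball (0 : ℂ) (rad j) \ K') := isOpen_ball.sdiff hK'
      exact (tendstoLocallyUniformlyOn_iff_forall_isCompact ho).1
        ((hunif j).tendstoLocallyUniformlyOn.deriv (hev j) ho) Z
        (fun z hz => ⟨ball_subset_ball hj (hR hz), hZK hz⟩) hZ
  refine ⟨fun x => conj (G x), isPotentialField_of_differentiableOn hopen hGd.1, fun x hx => ?_,
    fun Z hZ hZK e => ?_⟩
  · have := ((Complex.continuous_conj.tendsto _).comp (hlim x hx))
    simpa [hF, Function.comp_def] using this
  · rw [Metric.tendstoUniformlyOn_iff]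
    intro ε hε
    have he : (0 : ℝ) < ε / (‖e‖ + 1) := by positivity
    obtain ⟨R, hR⟩ := hZ.isBounded.subset_ball (0 : ℂ)
    obtain ⟨j, hj⟩ := exists_rad_ge R
    filter_upwards [Metric.tendstoUniformlyOn_iff.1 (hGd.2 Z hZ hZK) _ he,
      eventually_ge_atTop j] with k hk hkj x hx
    have ho : IsOpen (ball (0 : ℂ) (2 * rad k) \ K') := isOpen_ball.sdiff hK'
    have hxk : x ∈ ball (0 : ℂ) (2 * rad k) \ K' :=
      ⟨ball_subset_ball (by linarith [rad_mono hkj, rad_pos k]) (hR hx), hZK hx⟩
    have eQ : Q k = fun y => conj (F k y) := by funext y; simp [hF]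
    rw [eQ, fderiv_conj_apply ((hFd k).differentiableAt (ho.mem_nhds hxk)),
      fderiv_conj_apply (hGd.1.differentiableAt (hopen.mem_nhds (hZK hx))), dist_eq_norm,
      ← map_sub, Complex.norm_conj, ← sub_mul, norm_mul]
    have h1 := hk x hx
    rw [dist_eq_norm] at h1
    calc ‖deriv G x - deriv (F k) x‖ * ‖e‖
        ≤ ε / (‖e‖ + 1) * ‖e‖ := mul_le_mul_of_nonneg_right h1.le (norm_nonneg _)
      _ < ε / (‖e‖ + 1) * (‖e‖ + 1) := by gcongr; linarith
      _ = ε := div_mul_cancel₀ _ (by positivity)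

lemma disjoint_of_split {u : ℂ → ℝ} {K K₁ K₂ : Set ℂ} {χ : ℂ → ℝ}
    (h : Split u K K₁ K₂ χ) : Disjoint K₁ K₂ :=
  disjoint_left.2 fun x h1 h2 => one_ne_zero
    ((h.one.self_of_nhdsSet x h1).symm.trans (h.zero.self_of_nhdsSet x h2))

/-- Layers converge. -/
theorem limitGoal : LimitGoal := by
  intro u K K₁ K₂ χ C S P hS hL
  obtain ⟨B, hB0, hB⟩ := exists_sup_bound
  have hdis := disjoint_of_split hS
  have hKc : ∀ x ∉ K, x ∉ K₁ ∧ x ∉ K₂ := fun x hx =>
    ⟨fun h => hx (hS.union ▸ Or.inl h), fun h => hx (hS.union ▸ Or.inr h)⟩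
  have hK : ∀ x, x ∉ K₁ → x ∉ K₂ → x ∉ K := fun x h1 h2 h => by
    rw [← hS.union] at h; exact h.elim h1 h2
  classical
  set H : ℕ → ℂ → ℂ := fun k x =>
    if x ∈ K₁ then P k x - P (k + 1) x else S (k + 1) x - S k x with hH
  have hsubball : ∀ k, ball (0 : ℂ) (2 * rad k) ⊆ ball 0 (2 * rad (k + 1)) := fun k =>
    ball_subset_ball (by linarith [rad_mono k.le_succ])
  have hHS : ∀ k, ∀ x ∈ ball (0 : ℂ) (2 * rad k) \ K₁, H k x = S (k + 1) x - S k x :=
    fun k x hx => if_neg hx.2
  have hHP : ∀ k, ∀ x ∈ ball (0 : ℂ) (2 * rad k) \ K₂, H k x = P k x - P (k + 1) x := by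
    intro k x hx
    by_cases h : x ∈ K₁
    · exact if_pos h
    · rw [hH]; simp only [h, if_false]
      have hx' := hK x h hx.2
      have a := hL.sum k x ⟨hx.1, hx'⟩
      have b := hL.sum (k + 1) x ⟨hsubball k hx.1, hx'⟩
      linear_combination b - a
  have hHd : ∀ k, DifferentiableOn ℂ (fun x => conj (H k x)) (ball 0 (2 * rad k)) := by
    intro k x hx
    by_cases h : x ∈ K₁
    · have ho : IsOpen (ball (0 : ℂ) (2 * rad k) \ K₂) := isOpen_ball.sdiff hS.closed₂
      have h2 : x ∈ ball (0 : ℂ) (2 * rad k) \ K₂ := ⟨hx, disjoint_left.1 hdis h⟩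
      have hd : DifferentiableOn ℂ (fun y => conj (P k y) - conj (P (k + 1) y))
          (ball (0 : ℂ) (2 * rad k) \ K₂) :=
        (differentiableOn_conj_field ho (hL.potP k)).sub
          ((differentiableOn_conj_field (isOpen_ball.sdiff hS.closed₂) (hL.potP (k + 1))).mono
            fun z hz => ⟨hsubball k hz.1, hz.2⟩)
      exact ((hd.congr fun y hy => by rw [hHP k y hy, map_sub]).differentiableAt
        (ho.mem_nhds h2)).differentiableWithinAt
    · have ho : IsOpen (ball (0 : ℂ) (2 * rad k) \ K₁) := isOpen_ball.sdiff hS.closed₁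
      have hd : DifferentiableOn ℂ (fun y => conj (S (k + 1) y) - conj (S k y))
          (ball (0 : ℂ) (2 * rad k) \ K₁) :=
        ((differentiableOn_conj_field (isOpen_ball.sdiff hS.closed₁) (hL.potS (k + 1))).mono
            fun z hz => ⟨hsubball k hz.1, hz.2⟩).sub
          (differentiableOn_conj_field ho (hL.potS k))
      exact ((hd.congr fun y hy => by rw [hHS k y hy, map_sub]).differentiableAt
        (ho.mem_nhds ⟨hx, h⟩)).differentiableWithinAt
  -- the increments are Lipschitz on the inner disk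
  obtain ⟨D, hD⟩ : ∃ D, ∀ k, ∀ x ∈ ball (0 : ℂ) (rad k), ‖H k x - H k 0‖ ≤ D * ‖x‖ / rad k := by
    refine ⟨4 * (2 * B * (34 * |C| * 16 + 1)), fun k x hx => ?_⟩
    set M := 2 * B * (34 * |C| * 16 + 1) with hM
    have hr := rad_pos k
    have hpot := isPotentialField_of_differentiableOn isOpen_ball (hHd k)
    simp only [Complex.conj_conj] at hpot
    have hHball : ∫ y in ball (0 : ℂ) (2 * rad k), ‖H k y‖ ^ 2 ≤ 34 * |C| * rad k ^ 2 := by
      have e : ∀ᵐ y : ℂ, y ∈ ball (0 : ℂ) (2 * rad k) →
          ‖H k y‖ ^ 2 ≤ 2 * ‖S (k + 1) y‖ ^ 2 + 2 * ‖S k y‖ ^ 2 := by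
        filter_upwards [measure_eq_zero_iff_ae_notMem.1 hS.reg.null] with y hy hyb
        rw [hHS k y ⟨hyb, (hKc y hy).1⟩]
        nlinarith [norm_sub_le (S (k + 1) y) (S k y), norm_nonneg (S (k + 1) y - S k y),
          sq_nonneg (‖S (k + 1) y‖ - ‖S k y‖)]
      have m1 := ((hL.memLp (k + 1)).norm.integrable_sq).const_mul 2
      have i1 : IntegrableOn (fun y => 2 * ‖S (k + 1) y‖ ^ 2) (ball (0 : ℂ) (2 * rad k)) :=
        IntegrableOn.mono_set m1 (hsubball k)
      have i2 : IntegrableOn (fun y => 2 * ‖S k y‖ ^ 2) (ball (0 : ℂ) (2 * rad k)) :=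
        ((hL.memLp k).norm.integrable_sq).const_mul 2
      refine (integral_mono_of_nonneg (Eventually.of_forall fun y => sq_nonneg _) (i1.add i2)
        ((ae_restrict_iff' measurableSet_ball).2 e)).trans ?_
      simp only [Pi.add_apply]
      rw [integral_add i1 i2, integral_const_mul, integral_const_mul]
      have hmono : ∫ y in ball (0 : ℂ) (2 * rad k), ‖S (k + 1) y‖ ^ 2 ≤
          C * rad (k + 1) ^ 2 :=
        (setIntegral_mono_set ((hL.memLp (k + 1)).norm.integrable_sq)
          (Eventually.of_forall fun y => sq_nonneg _) (hsubball k).eventuallyLE).trans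
          (hL.bound (k + 1))
      have hk := hL.bound k
      rw [rad_succ] at hmono
      nlinarith [le_abs_self C, sq_nonneg (rad k)]
    have hsup : ∀ z ∈ ball (0 : ℂ) (3 / 2 * rad k), ‖H k z‖ ≤ M := by
      intro z hz
      rw [mem_ball_zero_iff] at hz
      have hcb : closedBall z (rad k / 4) ⊆ ball (0 : ℂ) (2 * rad k) := by
        intro y hy
        rw [mem_closedBall, dist_eq_norm] at hy
        rw [mem_ball_zero_iff]
        have := norm_le_insert' y z
        linarith
      have hint : IntegrableOn (fun y => ‖H k y‖ ^ 2) (closedBall z (rad k / 4)) :=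
        (((hpot.2.2.1.continuousOn.mono hcb).norm).pow 2).integrableOn_compact
          (isCompact_closedBall _ _)
      have hI : ∫ y in closedBall z (rad k / 4), ‖H k y‖ ^ 2 ≤ 34 * |C| * rad k ^ 2 := by
        have hbigint : IntegrableOn (fun y => ‖H k y‖ ^ 2) (ball (0 : ℂ) (2 * rad k)) := by
          have hm : MemLp (fun y => S (k + 1) y - S k y) 2
              (volume.restrict (ball (0 : ℂ) (2 * rad k))) :=
            ((hL.memLp (k + 1)).mono_measure (Measure.restrict_mono_set _ (hsubball k))).sub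
              (hL.memLp k)
          refine hm.norm.integrable_sq.congr ?_
          filter_upwards [ae_restrict_of_ae (measure_eq_zero_iff_ae_notMem.1 hS.reg.null),
            ae_restrict_mem measurableSet_ball] with y hy hyb
          rw [hHS k y ⟨hyb, (hKc y hy).1⟩]
        exact (setIntegral_mono_set hbigint (Eventually.of_forall fun y => sq_nonneg _)
          hcb.eventuallyLE).trans hHball
      have key : ∀ f : ℂ → ℝ, ContDiffOn ℝ ∞ f (ball (0 : ℂ) (2 * rad k)) →
          HarmonicOnNhd f (ball (0 : ℂ) (2 * rad k)) → (∀ y, |f y| ≤ ‖H k y‖) →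
          |f z| ≤ B * (34 * |C| * 16 + 1) := by
        intro f hf hh hle
        refine (hB _ f z (rad k / 4) isOpen_ball hf hh (by positivity) hcb).trans ?_
        refine mul_le_mul_of_nonneg_left (add_le_add ?_ le_rfl) hB0
        rw [div_le_iff₀ (by positivity)]
        have hle2 : ∫ y in closedBall z (rad k / 4), f y ^ 2 ≤
            ∫ y in closedBall z (rad k / 4), ‖H k y‖ ^ 2 :=
          integral_mono_of_nonneg (Eventually.of_forall fun y => sq_nonneg _) hint
            (Eventually.of_forall fun y => by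
              have := pow_le_pow_left₀ (abs_nonneg _) (hle y) 2
              rwa [sq_abs] at this)
        linarith
      have hre := key _ (Complex.reCLM.contDiff.comp_contDiffOn hpot.2.2.1) hpot.1
        fun y => Complex.abs_re_le_norm _
      have him := key _ (Complex.imCLM.contDiff.comp_contDiffOn hpot.2.2.1) hpot.2.1
        fun y => Complex.abs_im_le_norm _
      have := Complex.norm_le_abs_re_add_abs_im (H k z)
      simp only [Complex.reCLM_apply, Complex.imCLM_apply, Function.comp_apply] at hre him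
      rw [hM]; linarith
    have hderiv : ∀ w ∈ ball (0 : ℂ) (rad k),
        ‖deriv (fun y => conj (H k y)) w‖ ≤ 4 * M / rad k := by
      intro w hw
      rw [mem_ball_zero_iff] at hw
      have hsub : closedBall w (rad k / 4) ⊆ ball (0 : ℂ) (3 / 2 * rad k) := by
        intro y hy
        rw [mem_closedBall, dist_eq_norm] at hy
        rw [mem_ball_zero_iff]
        have := norm_le_insert' y w
        linarith
      have hdd : DiffContOnCl ℂ (fun y => conj (H k y)) (ball w (rad k / 4)) :=
        ((hHd k).mono ((closure_ball_subset_closedBall).trans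
          (hsub.trans (ball_subset_ball (by linarith))))).diffContOnCl
      refine (Complex.norm_deriv_le_of_forall_mem_sphere_norm_le (C := M) (by positivity) hdd
        fun y hy => ?_).trans (le_of_eq (by field_simp))
      rw [Complex.norm_conj]
      exact hsup y (hsub (sphere_subset_closedBall hy))
    have hmv := (convex_ball (0 : ℂ) (rad k)).norm_image_sub_le_of_norm_deriv_le
      (fun w hw => (hHd k).differentiableAt
        (isOpen_ball.mem_nhds (ball_subset_ball (by linarith) hw)))
      hderiv (mem_ball_self hr) hx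
    rw [← map_sub, Complex.norm_conj, sub_zero] at hmv
    exact hmv.trans (le_of_eq (by ring))
  -- normalisation at the origin
  set c : ℕ → ℂ := fun k => -∑ j ∈ Finset.range k, H j 0 with hc
  have hc1 : ∀ k, c (k + 1) = c k - H k 0 := fun k => by
    simp only [hc, Finset.sum_range_succ]; ring
  have hsub : ∀ k, ball (0 : ℂ) (rad k) ⊆ ball 0 (2 * rad k) := fun k =>
    ball_subset_ball (by linarith [rad_pos k])
  have hpotP : ∀ k, IsPotentialField (ball 0 (2 * rad k) \ K₂) (fun x => P k x - c k) := by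
    intro k
    have h := isPotentialField_of_differentiableOn (isOpen_ball.sdiff hS.closed₂)
      ((differentiableOn_conj_field (isOpen_ball.sdiff hS.closed₂) (hL.potP k)).sub_const
        (conj (c k)))
    simpa using h
  have hpotS : ∀ k, IsPotentialField (ball 0 (2 * rad k) \ K₁) (fun x => S k x + c k) := by
    intro k
    have h := isPotentialField_of_differentiableOn (isOpen_ball.sdiff hS.closed₁)
      ((differentiableOn_conj_field (isOpen_ball.sdiff hS.closed₁) (hL.potS k)).add_const
        (conj (c k)))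
    simpa using h
  obtain ⟨g, hg, hgl, hgd⟩ := limit_field hS.closed₂ hpotP (C := D) fun k x hx => by
    have e : (P (k + 1) x - c (k + 1)) - (P k x - c k) = -(H k x - H k 0) := by
      rw [hc1, hHP k x ⟨hsub k hx.1, hx.2⟩]; ring
    rw [e, norm_neg]; exact hD k x hx.1
  obtain ⟨s, hs, hsl, -⟩ := limit_field hS.closed₁ hpotS (C := D) fun k x hx => by
    have e : (S (k + 1) x + c (k + 1)) - (S k x + c k) = H k x - H k 0 := by
      rw [hc1, hHS k x ⟨hsub k hx.1, hx.2⟩]; ring
    rw [e]; exact hD k x hx.1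
  refine ⟨g, s, hg, hs, fun x hx => ?_, fun Z hZ hZK e => ?_⟩
  · obtain ⟨h1, h2⟩ := hKc x hx
    refine tendsto_nhds_unique ((hsl x h1).add (hgl x h2)) (tendsto_const_nhds.congr' ?_)
    obtain ⟨j, hj⟩ := exists_rad_ge (‖x‖ + 1)
    filter_upwards [eventually_ge_atTop j] with k hk
    rw [← hL.sum k x ⟨mem_ball_zero_iff.2 (by linarith [rad_mono hk, rad_pos k]), hx⟩]
    ring
  · refine (hgd Z hZ hZK e).congr (Eventually.of_forall fun k x _ => ?_)
    change fderiv ℝ (fun y => P k y - c k) x e = fderiv ℝ (P k) x e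
    rw [fderiv_sub_const]

end Vale.Agent.P128.Connected
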