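import Vale.Agent.P128.Connected.Interface
import Vale.Agent.P128.Islands.Core

/-!
# No curl away from the critical points of the field
-/

namespace Vale.Agent.P128.Connected

open MeasureTheory Filter Metric Set Islands InnerProductSpace
open scoped Topology ENNReal ContDiff Laplacian

lemma dot_comm (v w : ℂ) : dot v w = dot w v := by simp only [dot]; ring

/-- Truncations times cutoffs are variations near `K₁`. -/
lemma isNearVariation_trunc {u : ℂ → ℝ} {K : Set ℂ} {χ : ℂ → ℝ} (h : Reg u K) {U : Set ℂ}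
    {c : ℂ → ℝ} (hc : IsTest U c) (hcs : tsupport c ⊆ interior {x | χ x = 1}) (M : ℕ) :
    IsNearVariation K χ (fun x => c x * trunc M (u x)) ∧
      ∀ᵐ x : ℂ, grad (fun y => c y * trunc M (u y)) x =
        (c x * deriv (trunc M) (u x)) • grad u x + trunc M (u x) • grad c x := by
  have hd : ∀ᵐ x : ℂ, grad (fun y => c y * trunc M (u y)) x =
      (c x * deriv (trunc M) (u x)) • grad u x + trunc M (u x) • grad c x := by
    filter_upwards [measure_eq_zero_iff_ae_notMem.1 h.null] with x hx
    have d1 := (h.smooth.differentiableOn (by simp) x hx).differentiableAt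
      (h.isClosed.isOpen_compl.mem_nhds hx)
    have d2 := (contDiff_trunc M).differentiable (by simp) (u x)
    rw [grad_mul (f := c) (g := fun y => trunc M (u y)) (hc.1.differentiable (by simp) x)
      (d2.comp x d1), grad_comp_real d2 d1, smul_smul]
  have hsm : ContDiffOn ℝ ∞ (fun x => c x * trunc M (u x)) Kᶜ :=
    hc.1.contDiffOn.mul ((contDiff_trunc M).comp_contDiffOn h.smooth)
  refine ⟨⟨hsm, hc.2.1.mul_right, (tsupport_mul_subset_left).trans hcs, ?_⟩, hd⟩
  obtain ⟨R, hR⟩ := hc.2.1.isCompact.isBounded.subset_ball (0 : ℂ)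
  obtain ⟨B, hB⟩ := hc.2.1.exists_bound_of_continuous hc.1.continuous
  have hB0 : 0 ≤ B := (norm_nonneg _).trans (hB 0)
  set J : ℂ → ℝ := fun x => B * ((ball (0 : ℂ) R).indicator (fun y => ‖grad u y‖) x) +
    ((M : ℝ) + 1) * (Real.pi / 2) * ‖grad c x‖
  have hind : MemLp ((ball (0 : ℂ) R).indicator fun y => ‖grad u y‖) 2 :=
    (memLp_indicator_iff_restrict measurableSet_ball).2 (h.memLp R).norm
  have hJ : MemLp J 2 :=
    (hind.const_mul B).add ((memLp_grad_test (hc.mono (subset_univ _))).norm.const_mul _)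
  have hmeas : AEStronglyMeasurable (grad fun y => c y * trunc M (u y)) volume := by
    have h1 : AEStronglyMeasurable (grad fun y => c y * trunc M (u y))
        (volume.restrict Kᶜ) :=
      (contDiffOn_grad h.isClosed.isOpen_compl hsm).continuousOn.aestronglyMeasurable
        h.isClosed.isOpen_compl.measurableSet
    have e : (volume : Measure ℂ).restrict Kᶜ = volume :=
      Measure.restrict_eq_self_of_ae_mem (measure_eq_zero_iff_ae_notMem.1 h.null)
    rwa [e] at h1
  refine hJ.of_le_mul (c := 1) hmeas ?_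
  filter_upwards [hd] with x hx
  have hJ0 : 0 ≤ J x := add_nonneg (mul_nonneg hB0 (indicator_nonneg (fun _ _ => norm_nonneg _) _))
    (mul_nonneg (by positivity) (norm_nonneg _))
  rw [hx, one_mul, Real.norm_eq_abs, abs_of_nonneg hJ0]
  refine (norm_add_le _ _).trans (add_le_add ?_ ?_)
  · rw [norm_smul, Real.norm_eq_abs, abs_mul]
    by_cases hxR : x ∈ ball (0 : ℂ) R
    · rw [indicator_of_mem hxR]
      have := mul_le_mul (hB x) (abs_deriv_trunc_le M (u x)) (abs_nonneg _) hB0
      rw [mul_one, Real.norm_eq_abs] at this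
      exact mul_le_mul_of_nonneg_right this (norm_nonneg _)
    · simp [image_eq_zero_of_notMem_tsupport fun h => hxR (hR h), indicator_of_notMem hxR]
  · rw [norm_smul, Real.norm_eq_abs]
    exact mul_le_mul_of_nonneg_right (abs_trunc_le M (u x)) (norm_nonneg _)

/-- The curl free property for tests supported where `χ = 1`. -/
lemma curl_near {u : ℂ → ℝ} {K O : Set ℂ} {χ : ℂ → ℝ} {g : ℂ → ℂ} (hu : Reg u K) (hO : IsOpen O)
    (hOS : O ⊆ interior {x | χ x = 1}) (hg : IsPotentialField O g)
    (horth : ∀ φ, IsNearVariation K χ φ → ∀ e : ℂ, ∫ x, dot (grad φ x) (fderiv ℝ g x e) = 0)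
    {θ : ℂ → ℝ} (hθ : IsTest O θ) (hne : ∀ x ∈ tsupport θ, fderiv ℝ g x 1 ≠ 0) :
    ∫ x, dot (grad u x) (rgrad θ x) = 0 := by
  have hgc : ContinuousOn (fun x => fderiv ℝ g x 1) O :=
    ((hg.2.2.1.fderiv_of_isOpen hO (m := ∞) le_rfl).clm_apply
      contDiffOn_const).continuousOn
  set U := O ∩ (fun x => fderiv ℝ g x 1) ⁻¹' {0}ᶜ with hUdef
  have hU : IsOpen U := hgc.isOpen_inter_preimage hO isOpen_compl_singleton
  have hθU : IsTest U θ := ⟨hθ.1, hθ.2.1, fun x hx => ⟨hθ.2.2 hx, hne x hx⟩⟩
  set D₁ := fun x => fderiv ℝ g x 1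
  set D₂ := fun x => fderiv ℝ g x Complex.I
  have hgU := hg.2.2.1.mono (inter_subset_left : U ⊆ O)
  have hD₁ : ContDiffOn ℝ ∞ D₁ U :=
    (hgU.fderiv_of_isOpen hU (m := ∞) le_rfl).clm_apply contDiffOn_const
  have hD₂ : ContDiffOn ℝ ∞ D₂ U :=
    (hgU.fderiv_of_isOpen hU (m := ∞) le_rfl).clm_apply contDiffOn_const
  have hnorm : ∀ x ∈ O, ‖D₂ x‖ ^ 2 = ‖D₁ x‖ ^ 2 := fun x hx => by
    simp only [norm_sq_eq_dot, dot, D₁, D₂, (hg.2.2.2 x hx).1, (hg.2.2.2 x hx).2]
    ring
  have h2ne : ∀ x ∈ U, D₂ x ≠ 0 := fun x hx h => hx.2 (by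
    have := hnorm x hx.1
    rw [h] at this
    simpa [D₁] using this.symm)
  set a := fun x => dot (rgrad θ x) (D₁ x) / ‖D₁ x‖ ^ 2 with ha'
  set b := fun x => dot (rgrad θ x) (D₂ x) / ‖D₂ x‖ ^ 2 with hb'
  have ha : IsTest U a := contDiff_smul_test hU hθU hD₁ (fun x hx => hx.2) ha'
  have hb : IsTest U b := contDiff_smul_test hU hθU hD₂ h2ne hb'
  have hdec : ∀ x ∈ U, rgrad θ x = a x • D₁ x + b x • D₂ x := by
    intro x hx
    have hn : ‖D₁ x‖ ^ 2 ≠ 0 := pow_ne_zero _ (norm_ne_zero_iff.2 hx.2)
    simp only [ha', hb', hnorm x hx.1]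
    rw [Complex.ext_iff]
    simp only [D₁, D₂, dot, Complex.add_re, Complex.add_im, Complex.smul_re, Complex.smul_im,
      (hg.2.2.2 x hx.1).1, (hg.2.2.2 x hx.1).2, smul_eq_mul]
    rw [norm_sq_eq_dot] at hn ⊢
    simp only [D₁, dot, (hg.2.2.2 x hx.1).1] at hn ⊢
    generalize (fderiv ℝ g x 1).re = p at hn ⊢
    generalize (fderiv ℝ g x Complex.I).re = q at hn ⊢
    have h1 : p ^ 2 + q ^ 2 ≠ 0 := fun h => hn (by linear_combination h)
    constructor <;> rw [show p * p + q * q = p ^ 2 + q ^ 2 by ring] <;> field_simp <;> ring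
  have hzero : ∀ x, dot (D₁ x) (grad a x) + dot (D₂ x) (grad b x) = 0 := by
    intro x
    by_cases hx : x ∈ U
    · exact sum_dot_grad_eq_zero hU hgU (fun y hy => hg.1 y hy.1)
        (fun y hy => hg.2.2.2 y hy.1) hθU ha hb hdec hx
    · simp [grad_eq_zero_of_notMem_tsupport fun h => hx (ha.2.2 h),
        grad_eq_zero_of_notMem_tsupport fun h => hx (hb.2.2 h), dot]
  have hmemS : ∀ {c : ℂ → ℝ}, IsTest U c → ∀ (v : ℂ) (f : ℂ → ℂ), MemLp f 2 →
      (∀ x, x ∉ tsupport c → f x = 0) → Integrable fun x => dot (fderiv ℝ g x v) (f x) := by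
    intro c hc v f hf hf0
    have hcont : ContinuousOn (fun x => fderiv ℝ g x v) U :=
      ((hgU.fderiv_of_isOpen hU (m := ∞) le_rfl).clm_apply contDiffOn_const).continuousOn
    have : IsFiniteMeasure ((volume : Measure ℂ).restrict (tsupport c)) :=
      isFiniteMeasure_restrict.2 hc.2.1.isCompact.measure_ne_top
    obtain ⟨B, hB⟩ := hc.2.1.isCompact.exists_bound_of_continuousOn (hcont.mono hc.2.2)
    have hm := MemLp.of_bound (p := 2) (μ := (volume : Measure ℂ).restrict (tsupport c)) ((hcont.mono hc.2.2).aestronglyMeasurable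
      (isClosed_tsupport c).measurableSet) B
      (ae_restrict_of_forall_mem (isClosed_tsupport c).measurableSet hB)
    refine (integrableOn_iff_integrable_of_support_subset ?_).1
      (integrable_dot hm (hf.restrict _))
    intro x hx
    by_contra hn
    exact hx (by simp [dot, hf0 x hn])
  have hM : ∀ M : ℕ, ∫ x, deriv (trunc M) (u x) * dot (grad u x) (rgrad θ x) = 0 := by
    intro M
    obtain ⟨va, hga⟩ := isNearVariation_trunc hu ha (ha.2.2.trans (inter_subset_left.trans hOS)) M
    obtain ⟨vb, hgb⟩ := isNearVariation_trunc hu hb (hb.2.2.trans (inter_subset_left.trans hOS)) M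
    have za := horth _ va 1
    have zb := horth _ vb Complex.I
    simp only [dot_comm (grad _ _)] at za zb
    have ia := hmemS ha 1 _ va.memLp fun x hx =>
      grad_eq_zero_of_notMem_tsupport fun h => hx (tsupport_mul_subset_left h)
    have ib := hmemS hb Complex.I _ vb.memLp fun x hx =>
      grad_eq_zero_of_notMem_tsupport fun h => hx (tsupport_mul_subset_left h)
    have h0 := integral_add ia ib
    rw [za, zb, add_zero] at h0
    rw [← h0]
    refine integral_congr_ae ?_
    filter_upwards [hga, hgb] with x h1 h2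
    rw [h1, h2]
    have hr : dot (grad u x) (rgrad θ x) =
        a x * dot (D₁ x) (grad u x) + b x * dot (D₂ x) (grad u x) := by
      by_cases hx : x ∈ U
      · rw [hdec x hx]
        simp [dot]
        ring
      · have h3 : rgrad θ x = 0 := by
          simp [rgrad, grad_eq_zero_of_notMem_tsupport fun h => hx (hθU.2.2 h)]
        rw [h3, image_eq_zero_of_notMem_tsupport fun h => hx (ha.2.2 h),
          image_eq_zero_of_notMem_tsupport fun h => hx (hb.2.2 h)]
        simp [dot]
    have hz := hzero x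
    simp only [D₁, D₂] at hr hz
    simp only [dot, Complex.add_re, Complex.add_im, Complex.smul_re, Complex.smul_im,
      smul_eq_mul] at hr hz ⊢
    linear_combination deriv (trunc M) (u x) * hr - trunc M (u x) * hz
  have hint : Integrable fun x => dot (grad u x) (rgrad θ x) := by
    have hrm : MemLp (rgrad θ) 2 := by
      have h := memLp_grad_test (hθ.mono (subset_univ _))
      exact h.of_le_mul (c := 1) (h.1.const_mul Complex.I)
        (Eventually.of_forall fun x => by simp [rgrad])
    obtain ⟨R, hR⟩ := hθ.2.1.isCompact.isBounded.subset_ball (0 : ℂ)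
    exact hu.integrable_dot hrm (r := R) fun x hx => by
      simp [rgrad, grad_eq_zero_of_notMem_tsupport fun h => hx (hR h)]
  have hmeas : ∀ M, AEStronglyMeasurable (fun x => deriv (trunc M) (u x)) volume := fun M => by
    have h1 : AEStronglyMeasurable (fun x => deriv (trunc M) (u x)) (volume.restrict Kᶜ) :=
      (((contDiff_trunc M).continuous_deriv (by simp)).comp_continuousOn
        hu.smooth.continuousOn).aestronglyMeasurable
          hu.isClosed.isOpen_compl.measurableSet
    have e : (volume : Measure ℂ).restrict Kᶜ = volume :=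
      Measure.restrict_eq_self_of_ae_mem (measure_eq_zero_iff_ae_notMem.1 hu.null)
    rwa [e] at h1
  have hlim := tendsto_integral_of_dominated_convergence
    (F := fun M x => deriv (trunc M) (u x) * dot (grad u x) (rgrad θ x))
    (f := fun x => dot (grad u x) (rgrad θ x)) (fun x => ‖dot (grad u x) (rgrad θ x)‖)
    (fun M => (hmeas M).mul hint.1) hint.norm
    (fun M => Eventually.of_forall fun x => by
      rw [norm_mul, Real.norm_eq_abs]
      exact mul_le_of_le_one_left (norm_nonneg _) (abs_deriv_trunc_le M (u x)))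
    (Eventually.of_forall fun x => by
      simpa using (tendsto_deriv_trunc (u x)).mul_const (dot (grad u x) (rgrad θ x)))
  simp only [hM] at hlim
  exact tendsto_nhds_unique hlim tendsto_const_nhds


/-- `grad u` is curl free away from the critical points. -/
theorem offCriticalGoal : OffCriticalGoal := by
  intro u K K₁ K₂ χ g h hg horth θ hθ hne
  set S := interior {x | χ x = 1} with hS
  have hK₁S : K₁ ⊆ S := subset_interior_iff_mem_nhdsSet.2 h.one
  obtain ⟨ρ, hρ, hρ1⟩ := exists_cutoff (hθ.2.1.isCompact.inter_left h.closed₁)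
    (isOpen_interior) (inter_subset_left.trans hK₁S)
  have d1 : IsTest (S ∩ K₂ᶜ) (fun x => ρ x * θ x) :=
    ⟨hρ.1.mul hθ.1, hθ.2.1.mul_left, subset_inter ((tsupport_mul_subset_left).trans hρ.2.2)
      ((tsupport_mul_subset_right).trans hθ.2.2)⟩
  have d2 : IsTest Kᶜ (fun x => (1 - ρ x) * θ x) := by
    refine ⟨(contDiff_const.sub hρ.1).mul hθ.1, hθ.2.1.mul_left, fun x hx hxK => ?_⟩
    have hxθ : x ∈ tsupport θ := tsupport_mul_subset_right hx
    rw [← h.union] at hxK
    rcases hxK with hx1 | hx2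
    · refine notMem_tsupport_iff_eventuallyEq.2 ?_ hx
      filter_upwards [eventually_nhdsSet_iff_forall.1 hρ1 x ⟨hx1, hxθ⟩] with y hy
      simp [hy]
    · exact hθ.2.2 hxθ hx2
  have z1 := curl_near h.reg (isOpen_interior.inter h.closed₂.isOpen_compl) inter_subset_left
    ⟨fun x hx => hg.1 x hx.2, fun x hx => hg.2.1 x hx.2, hg.2.2.1.mono inter_subset_right,
      fun x hx => hg.2.2.2 x hx.2⟩ horth d1
    (fun x hx => hne x (tsupport_mul_subset_right hx))
  have z2 := integral_grad_rgrad h.reg.isClosed.isOpen_compl h.reg.smooth d2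
  have hint : ∀ {U : Set ℂ} {f : ℂ → ℝ}, IsTest U f →
      Integrable fun x => dot (grad u x) (rgrad f x) := by
    intro U f hf
    have hgm := memLp_grad_test (hf.mono (subset_univ _))
    have hrm : MemLp (rgrad f) 2 :=
      hgm.of_le_mul (c := 1) (hgm.1.const_mul Complex.I)
        (Eventually.of_forall fun x => by simp [rgrad])
    obtain ⟨R, hR⟩ := hf.2.1.isCompact.isBounded.subset_ball (0 : ℂ)
    exact h.reg.integrable_dot hrm (r := R) fun x hx => by
      simp [rgrad, grad_eq_zero_of_notMem_tsupport fun h' => hx (hR h')]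
  have hsum := integral_add (hint d1) (hint d2)
  rw [z1, z2, add_zero] at hsum
  rw [← hsum]
  refine integral_congr_ae (Eventually.of_forall fun x => ?_)
  have e : grad θ x = grad (fun y => ρ y * θ y) x + grad (fun y => (1 - ρ y) * θ y) x := by
    rw [← grad_add (d1.1.differentiable (by simp) x) (d2.1.differentiable (by simp) x)]
    congr 1; funext y; ring
  simp [rgrad, e, dot]
  ring

end Vale.Agent.P128.Connected
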