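import Vale.Agent.P128.Connected.Interface
import Vale.Agent.P128.Islands.Field
import Vale.Agent.P128.Islands.Core
import Vale.Agent.P128.Islands.Weak

/-!
# A part of the singular set without curl can be removed
-/

namespace Vale.Agent.P128.Connected

open MeasureTheory Filter Metric Set Islands
open scoped Topology ENNReal ContDiff

lemma dir_decomp (L : ℂ →L[ℝ] ℂ) (v : ℂ) : L v = v.re • L 1 + v.im • L Complex.I := by
  rw [← map_smul, ← map_smul, ← map_add]
  congr 1
  simp

lemma fderiv_eq_zero_of_grad {f : ℂ → ℝ} {z : ℂ} (h : grad f z = 0) : fderiv ℝ f z = 0 := by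
  refine ContinuousLinearMap.ext fun v => ?_
  have hv : v = v.re • (1 : ℂ) + v.im • Complex.I := by simp
  rw [hv, map_add, map_smul, map_smul]
  simp [← grad_re, ← grad_im, h]

/-- Pairing as a linear map. -/
noncomputable def dotL : ℂ →L[ℝ] (ℂ →L[ℝ] ℝ) :=
  Complex.reCLM.smulRight Complex.reCLM + Complex.imCLM.smulRight Complex.imCLM

lemma dotL_apply (v w : ℂ) : dotL v w = dot v w := by simp [dotL, dot]

/-- A smooth field with symmetric derivative on a dense set is a gradient. -/
lemma exists_primitive {a : ℂ → ℂ} (ha : ContDiff ℝ ∞ a) {U : Set ℂ} (hU : Dense U)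
    (hsym : ∀ z ∈ U, (fderiv ℝ a z Complex.I).re = (fderiv ℝ a z 1).im) :
    ∃ W : ℂ → ℝ, ContDiff ℝ ∞ W ∧ ∀ z, grad W z = a z := by
  have hc : ∀ v : ℂ, Continuous fun z => fderiv ℝ a z v := fun v =>
    ((ha.fderiv_right (m := ∞) le_rfl).continuous).clm_apply continuous_const
  have hall := Continuous.ext_on hU (Complex.continuous_re.comp (hc Complex.I))
    (Complex.continuous_im.comp (hc 1)) hsym
  set wf : ℂ → ℂ →L[ℝ] ℝ := fun z => dotL (a z) with hwf
  have hwfs : ContDiff ℝ ∞ wf := dotL.contDiff.comp ha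
  obtain ⟨W, hW⟩ := convex_univ.exists_forall_hasFDerivAt_of_fderiv_symmetric isOpen_univ
    (hwfs.differentiable (by simp)).differentiableOn fun z _ x y => by
      have hd : fderiv ℝ wf z = dotL.comp (fderiv ℝ a z) :=
        (dotL.hasFDerivAt.comp z (ha.differentiable (by simp) z).hasFDerivAt).fderiv
      have h : (fderiv ℝ a z Complex.I).re = (fderiv ℝ a z 1).im := congrFun hall z
      simp only [hd, ContinuousLinearMap.comp_apply, dotL_apply, dir_decomp (fderiv ℝ a z) x,
        dir_decomp (fderiv ℝ a z) y]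
      simp only [dot, Complex.add_re, Complex.add_im, Complex.smul_re, Complex.smul_im, smul_eq_mul]
      linear_combination (x.im * y.re - y.im * x.re) * h
  refine ⟨W, ?_, fun z => ?_⟩
  · refine contDiff_infty_iff_fderiv.2 ⟨fun z => (hW z (mem_univ _)).differentiableAt, ?_⟩
    rwa [show fderiv ℝ W = wf from funext fun z => (hW z (mem_univ _)).fderiv]
  · simp [grad, (hW z (mem_univ _)).fderiv, hwf, dotL_apply, dot]

/-- A part without curl is absent. -/
theorem removalGoal : RemovalGoal := by
  intro u K K₁ K₂ χ h hred hKc hcurl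
  classical
  have hKo : IsOpen Kᶜ := h.reg.isClosed.isOpen_compl
  have hnull := h.reg.null
  have hχd := h.smooth.differentiable (by simp)
  set O := interior {z | χ z = 1} with hOdef
  have hK₁O : K₁ ⊆ O := subset_interior_iff_mem_nhdsSet.2 h.one
  have hχ2 : ∀ z ∈ K₂, ∀ᶠ y in 𝓝 z, χ y = 0 := eventually_nhdsSet_iff_forall.1 h.zero
  have hOK₂ : O ⊆ K₂ᶜ := fun z hz hz2 => by
    have h1 : χ z = 1 := (interior_subset hz : z ∈ {z | χ z = 1})
    exact one_ne_zero (h1.symm.trans (hχ2 z hz2).self_of_nhds)
  -- the field near the part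
  obtain ⟨g, hg, hgu⟩ := fieldGoal weylGoal O isOpen_interior (grad u)
    (locallyIntegrableOn_of_ball isOpen_interior h.reg.memLp)
    fun θ hθ => ⟨h.reg.euler hθ.1.contDiffOn hθ.2.1 (memLp_grad_test (hθ.mono (subset_univ _))),
      hcurl θ (hθ.mono hOK₂)⟩
  have hgu' : EqOn (grad u) g (O ∩ Kᶜ) :=
    Measure.eqOn_open_of_ae_eq (ae_restrict_of_ae_restrict_of_subset inter_subset_left hgu)
      (isOpen_interior.inter hKo) ((contDiffOn_grad hKo h.reg.smooth).continuousOn.mono
        inter_subset_right) (hg.2.2.1.continuousOn.mono inter_subset_left)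
  set f : ℂ → ℝ := fun z => χ z * u z with hf
  have hfs : ContDiffOn ℝ ∞ f Kᶜ := h.smooth.contDiffOn.mul h.reg.smooth
  set a : ℂ → ℂ := fun z => if z ∈ O then g z else grad f z with ha'
  have haK : ∀ z ∉ K, a z = grad f z := by
    intro z hz
    by_cases hO : z ∈ O
    · rw [show a z = g z from if_pos hO, ← hgu' ⟨hO, hz⟩]
      refine grad_congr ?_
      filter_upwards [isOpen_interior.mem_nhds hO] with y hy
      simp [hf, show χ y = 1 from (interior_subset hy : y ∈ {z | χ z = 1})]
    · exact if_neg hO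
  have haO : ∀ z ∈ O, a z = g z := fun z hz => if_pos hz
  have ha : ContDiff ℝ ∞ a := by
    refine contDiff_iff_contDiffAt.2 fun z => ?_
    by_cases hO : z ∈ O
    · refine ((hg.2.2.1 z hO).contDiffAt (isOpen_interior.mem_nhds hO)).congr_of_eventuallyEq ?_
      filter_upwards [isOpen_interior.mem_nhds hO] with y hy using haO y hy
    by_cases hzK : z ∈ K
    · rw [← h.union] at hzK
      have hz2 : z ∈ K₂ := hzK.resolve_left fun h1 => hO (hK₁O h1)
      refine (contDiffAt_const (c := (0 : ℂ))).congr_of_eventuallyEq ?_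
      filter_upwards [(hχ2 z hz2).eventually_nhds] with y hy
      have hyO : y ∉ O := fun hyO => by
        have h1 : χ y = 1 := (interior_subset hyO : y ∈ {z | χ z = 1})
        exact one_ne_zero (h1.symm.trans hy.self_of_nhds)
      rw [show a y = grad f y from if_neg hyO, grad_congr (g := fun _ => (0 : ℝ))]
      · simp [grad, Complex.ext_iff]
      · filter_upwards [hy] with w hw
        simp [hf, hw]
    · refine ((contDiffOn_grad hKo hfs z hzK).contDiffAt (hKo.mem_nhds hzK)).congr_of_eventuallyEq ?_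
      filter_upwards [hKo.mem_nhds hzK] with y hy using haK y hy
  have hdense : Dense Kᶜ := by
    rw [dense_iff_closure_eq, closure_compl, compl_univ_iff]
    exact Measure.interior_eq_empty_of_null hnull
  obtain ⟨W, hWs, hW⟩ := exists_primitive ha hdense fun z hz => by
    have hev : a =ᶠ[𝓝 z] grad f := by
      filter_upwards [hKo.mem_nhds hz] with y hy using haK y hy
    rw [hev.fderiv_eq]
    have hd := ((contDiffOn_grad hKo hfs z hz).contDiffAt (hKo.mem_nhds hz)).differentiableAt
      (by simp)
    have hre := (Complex.reCLM.hasFDerivAt.comp z hd.hasFDerivAt).fderiv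
    have him := (Complex.imCLM.hasFDerivAt.comp z hd.hasFDerivAt).fderiv
    have e1 := congrArg (fun L : ℂ →L[ℝ] ℝ => L Complex.I) hre
    have e2 := congrArg (fun L : ℂ →L[ℝ] ℝ => L 1) him
    simp only [ContinuousLinearMap.comp_apply, Complex.reCLM_apply, Complex.imCLM_apply] at e1 e2
    rw [← e1, ← e2]
    exact fderiv_comm_apply (((hfs z hz).contDiffAt (hKo.mem_nhds hz)).of_le
      (WithTop.coe_le_coe.2 le_top)) 1 Complex.I
  -- on the connected complement the cut off function is the primitive
  have hfd : ∀ z ∉ K, DifferentiableAt ℝ f z := fun z hz =>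
    ((hfs z hz).contDiffAt (hKo.mem_nhds hz)).differentiableAt (by simp)
  have hWd := hWs.differentiable (by simp)
  obtain ⟨k, hk⟩ := hKo.exists_is_const_of_fderiv_eq_zero hKc (f := fun z => f z - W z)
    (fun z hz => ((hfd z hz).sub (hWd z)).differentiableWithinAt) fun z hz => by
      refine fderiv_eq_zero_of_grad ?_
      rw [grad_sub (hfd z hz) (hWd z), hW z, haK z hz, sub_self]
  set v : ℂ → ℝ := fun z => (1 - χ z) * u z + (W z + k) with hv
  have hvu : ∀ z ∉ K, v z = u z := fun z hz => by
    have := hk z hz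
    simp only [hv, hf] at this ⊢
    linarith
  have hvs : ContDiffOn ℝ ∞ v K₂ᶜ := by
    refine ContDiffOn.add (fun z hz => ContDiffAt.contDiffWithinAt ?_)
      (hWs.add contDiff_const).contDiffOn
    by_cases hzK : z ∈ K
    · rw [← h.union] at hzK
      have hz1 : z ∈ K₁ := hzK.resolve_right hz
      refine (contDiffAt_const (c := (0 : ℝ))).congr_of_eventuallyEq ?_
      filter_upwards [eventually_nhdsSet_iff_forall.1 h.one z hz1] with y hy
      simp [hy]
    · exact (contDiff_const.sub h.smooth).contDiffAt.mul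
        ((h.reg.smooth z hzK).contDiffAt (hKo.mem_nhds hzK))
  refine eq_empty_iff_forall_notMem.2 fun x hx => ?_
  have hxK : x ∈ K := h.union ▸ Or.inl hx
  obtain ⟨r, hr, hsub⟩ := Metric.isOpen_iff.1 h.closed₂.isOpen_compl x (hOK₂ (hK₁O hx))
  set L := K \ ball x r with hL
  set δ : ℂ → ℝ := fun z => if z ∈ ball x r then v z - u z else 0 with hδ
  have hδK : ∀ z ∉ K, δ z = 0 := fun z hz => by
    simp only [hδ]
    split
    · rw [hvu z hz, sub_self]
    · rfl
  have hgδ : ∀ᵐ z : ℂ, grad δ z = 0 := by
    filter_upwards [measure_eq_zero_iff_ae_notMem.1 hnull] with z hz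
    exact grad_eq_zero_outside h.reg.isClosed hδK hz
  set ρ := ‖x‖ + r with hρ
  have hball : ball x r ⊆ closedBall (0 : ℂ) ρ := fun z hz => by
    rw [mem_closedBall_zero_iff]
    rw [mem_ball, dist_eq_norm] at hz
    linarith [norm_le_insert' z x]
  set m := Measure.hausdorffMeasure (X := ℂ) 1
  set B := ball (0 : ℂ) (ρ + 1)
  have hB : ball x r ⊆ B := hball.trans (closedBall_subset_ball (by linarith))
  have hKfin : m (K ∩ B) ≠ ⊤ := h.reg.length_ne_top _
  have key := h.reg.vary L δ ρ (h.reg.isClosed.sdiff isOpen_ball)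
    (measure_mono_null sdiff_subset hnull) (fun z hz => ?_)
    (fun z hz => if_neg fun hb => hz (hball hb))
    (by
      ext z
      exact ⟨fun hz => ⟨hz.1.1, hz.2⟩, fun hz => ⟨⟨hz.1, fun hb => hz.2 (hball hb)⟩, hz.2⟩⟩)
    (fun p q hp hq hn => absurd ((hKc.connectedComponentIn (fun hh => hp (Or.inr hh))).symm ▸
      (fun hh => hq (Or.inr hh))) hn)
    (ne_top_of_le_ne_top hKfin (measure_mono (inter_subset_inter_left _ sdiff_subset)))
    ((memLp_congr_ae hgδ).2 MemLp.zero')
  · have z1 : ∫ z, ‖grad δ z‖ ^ 2 = 0 :=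
      integral_eq_zero_of_ae (hgδ.mono fun z hz => by simp [hz])
    have z2 : ∫ z, dot (grad u z) (grad δ z) = 0 :=
      integral_eq_zero_of_ae (hgδ.mono fun z hz => by simp [hz, dot])
    rw [z1, z2] at key
    have hsplit : m (L ∩ B) + m (K ∩ ball x r) ≤ m (K ∩ B) := by
      rw [← measure_union ?_ (h.reg.isClosed.measurableSet.inter measurableSet_ball)]
      · exact measure_mono (union_subset (inter_subset_inter_left _ sdiff_subset)
          (inter_subset_inter_right _ hB))
      · exact disjoint_left.2 fun z hz hz' => hz.1.2 hz'.2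
    have hpos := hred x hxK r hr
    have f1 : m (L ∩ B) ≠ ⊤ := ne_top_of_le_ne_top hKfin (le_self_add.trans hsplit)
    have f2 : m (K ∩ ball x r) ≠ ⊤ := ne_top_of_le_ne_top hKfin (le_add_self.trans hsplit)
    have := ENNReal.toReal_mono hKfin hsplit
    rw [ENNReal.toReal_add f1 f2] at this
    linarith [ENNReal.toReal_pos hpos.ne' f2]
  · by_cases hb : z ∈ ball x r
    · refine ((hvs z (hsub hb)).contDiffAt
        (h.closed₂.isOpen_compl.mem_nhds (hsub hb))).congr_of_eventuallyEq ?_ |>.contDiffWithinAt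
      filter_upwards [isOpen_ball.mem_nhds hb] with y hy
      simp only [hδ, if_pos hy, add_sub_cancel]
    · have hzK : z ∉ K := fun hk' => hz ⟨hk', hb⟩
      refine ((h.reg.smooth z hzK).contDiffAt (hKo.mem_nhds hzK)).congr_of_eventuallyEq ?_
        |>.contDiffWithinAt
      filter_upwards [hKo.mem_nhds hzK] with y hy
      simp [hδK y hy]

end Vale.Agent.P128.Connected
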