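import Vale.Agent.P128.Connected.Interface
import Vale.Agent.P128.Islands.Field
import Vale.Agent.P128.Islands.Core

/-!
# The averaged layers: the gain module
-/

noncomputable section

namespace Vale.Agent.P128.Connected

open MeasureTheory Filter Metric Set Islands InnerProductSpace
open scoped Topology ENNReal NNReal ContDiff

variable {u : ℂ → ℝ} {K K₁ K₂ : Set ℂ} {χ : ℂ → ℝ} {C : ℝ} {S P : ℕ → ℂ → ℂ}

/-! ### The quadratic form -/

lemma crossRe_add (G b b' X X' : ℂ) :
    crossRe G (b + b') (X + X') = crossRe G b X + crossRe G b' X' := by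
  apply Complex.ext <;> simp [crossRe, dot] <;> ring

lemma crossIm_add (G b b' X X' : ℂ) :
    crossIm G (b + b') (X + X') = crossIm G b X + crossIm G b' X' := by
  apply Complex.ext <;> simp [crossIm, dot] <;> ring

lemma dot_add_left (v w z : ℂ) : dot (v + w) z = dot v z + dot w z := by
  simp [dot]
  ring

lemma crossRe_smul (G b X : ℂ) (c : ℝ) : crossRe G (c • b) (c • X) = c • crossRe G b X := by
  apply Complex.ext <;> simp [crossRe, dot] <;> ring

lemma crossIm_smul (G b X : ℂ) (c : ℝ) : crossIm G (c • b) (c • X) = c • crossIm G b X := by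
  apply Complex.ext <;> simp [crossIm, dot] <;> ring

lemma secVal_smul (G b X Y : ℂ) (c : ℝ) :
    secVal G (c • b) (c • X) (c • Y) = c ^ 2 * secVal G b X Y := by
  simp [secVal, dot]
  ring

lemma secVal_expand (G b X Y : ℂ) : secVal G b X Y = dot b b * dot G G +
    2 * (dot (crossRe G b 0) X + dot (crossIm G b 0) Y) + (dot X X + dot Y Y) := by
  simp [secVal, crossRe, crossIm, dot]
  ring

lemma aestronglyMeasurable_grad (f : ℂ → ℝ) : AEStronglyMeasurable (grad f) volume := by
  have e : grad f = fun x => Complex.equivRealProdCLM.symm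
      (fderiv ℝ f x 1, fderiv ℝ f x Complex.I) := by
    funext x
    simp [grad, Complex.ext_iff]
  rw [e]
  exact (Complex.equivRealProdCLM.symm.continuous.measurable.comp
    ((measurable_fderiv_apply_const ℝ f 1).prodMk
      (measurable_fderiv_apply_const ℝ f Complex.I))).aestronglyMeasurable

lemma continuous_grad {f : ℂ → ℝ} (hf : ContDiff ℝ ∞ f) : Continuous (grad f) :=
  continuousOn_univ.1 (contDiffOn_grad isOpen_univ hf.contDiffOn).continuousOn

/-- A bounded weight of compact support times the gradient is square integrable. -/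
lemma memLp_weight (hR : Reg u K) {ζ : ℂ → ℝ} (hζ : IsTest univ ζ) :
    MemLp (fun x => ‖grad ζ x‖ * ‖grad u x‖) 2 := by
  obtain ⟨r, hr⟩ := hζ.2.1.isCompact.isBounded.subset_ball (0 : ℂ)
  have hc := continuous_grad hζ.1
  obtain ⟨B, hB⟩ := hc.bounded_above_of_compact_support (HasCompactSupport.intro hζ.2.1.isCompact
    fun x hx => grad_eq_zero_of_notMem_tsupport hx)
  have h : MemLp (fun x => ‖grad ζ x‖ * ‖grad u x‖) 2 (volume.restrict (ball 0 r)) :=
    (hR.memLp r).of_le_mul (c := B)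
      (hc.norm.aestronglyMeasurable.mul (hR.memLp r).1.norm)
      (Eventually.of_forall fun x => by
        rw [Real.norm_eq_abs, abs_of_nonneg (by positivity)]
        exact mul_le_mul_of_nonneg_right (hB x) (norm_nonneg _))
  have := (memLp_indicator_iff_restrict measurableSet_ball).2 h
  convert this using 1
  funext x
  by_cases hx : x ∈ ball (0 : ℂ) r
  · simp [hx]
  · simp [hx, grad_eq_zero_of_notMem_tsupport fun h => hx (hr h)]

lemma norm_crossRe_le (G b : ℂ) : ‖crossRe G b 0‖ ≤ 2 * (‖b‖ * ‖G‖) := by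
  refine (Complex.norm_le_abs_re_add_abs_im _).trans ?_
  have h1 := abs_dot_le b G
  have e1 : (crossRe G b 0).re = -dot b G := by simp [crossRe]; ring
  have e2 : (crossRe G b 0).im = dot b (-Complex.I * G) := by
    simp [crossRe, dot]; ring
  have h2 := abs_dot_le b (-Complex.I * G)
  rw [norm_mul, norm_neg, Complex.norm_I, one_mul] at h2
  rw [e1, e2, abs_neg]
  linarith

lemma norm_crossIm_le (G b : ℂ) : ‖crossIm G b 0‖ ≤ 2 * (‖b‖ * ‖G‖) := by
  refine (Complex.norm_le_abs_re_add_abs_im _).trans ?_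
  have h1 := abs_dot_le b G
  have e1 : (crossIm G b 0).im = -dot b G := by simp [crossIm]; ring
  have e2 : (crossIm G b 0).re = dot b (Complex.I * G) := by
    simp [crossIm, dot]; ring
  have h2 := abs_dot_le b (Complex.I * G)
  rw [norm_mul, Complex.norm_I, one_mul] at h2
  rw [e1, e2, abs_neg]
  linarith

lemma continuous_crossRe : Continuous fun q : ℂ × ℂ × ℂ => crossRe q.1 q.2.1 q.2.2 := by
  unfold crossRe dot
  fun_prop

lemma continuous_crossIm : Continuous fun q : ℂ × ℂ × ℂ => crossIm q.1 q.2.1 q.2.2 := by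
  unfold crossIm dot
  fun_prop

lemma aestronglyMeasurable_triple (f g h : ℂ → ℝ) :
    AEStronglyMeasurable (fun x => (grad f x, grad g x, grad h x)) volume :=
  (aestronglyMeasurable_grad f).prodMk
    ((aestronglyMeasurable_grad g).prodMk (aestronglyMeasurable_grad h))

lemma memLp_crossRe (hR : Reg u K) {ζ U : ℂ → ℝ} (hζ : IsTest univ ζ) (hU : MemLp (grad U) 2) :
    MemLp (fun x => crossRe (grad u x) (grad ζ x) (grad U x)) 2 := by
  have hm : AEStronglyMeasurable (fun x => crossRe (grad u x) (grad ζ x) (grad U x)) volume :=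
    continuous_crossRe.comp_aestronglyMeasurable (aestronglyMeasurable_triple u ζ U)
  have h := ((memLp_weight hR hζ).const_mul (2 : ℝ)).add hU.norm
  refine h.mono' hm (Eventually.of_forall fun x => ?_)
  have e : crossRe (grad u x) (grad ζ x) (grad U x) =
      crossRe (grad u x) (grad ζ x) 0 + grad U x := by
    simp [crossRe]; ring
  rw [e, Pi.add_apply]
  exact (norm_add_le _ _).trans (add_le_add_left (norm_crossRe_le _ _) _)

lemma memLp_crossIm (hR : Reg u K) {ζ U : ℂ → ℝ} (hζ : IsTest univ ζ) (hU : MemLp (grad U) 2) :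
    MemLp (fun x => crossIm (grad u x) (grad ζ x) (grad U x)) 2 := by
  have hm : AEStronglyMeasurable (fun x => crossIm (grad u x) (grad ζ x) (grad U x)) volume :=
    continuous_crossIm.comp_aestronglyMeasurable (aestronglyMeasurable_triple u ζ U)
  have h := ((memLp_weight hR hζ).const_mul (2 : ℝ)).add hU.norm
  refine h.mono' hm (Eventually.of_forall fun x => ?_)
  have e : crossIm (grad u x) (grad ζ x) (grad U x) =
      crossIm (grad u x) (grad ζ x) 0 + grad U x := by
    simp [crossIm]; ring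
  rw [e, Pi.add_apply]
  exact (norm_add_le _ _).trans (add_le_add_left (norm_crossIm_le _ _) _)

/-- The increment of the form when a layer is added. -/
lemma secVal_step (G ba bt Xa Xt Y Xa' Xt' Y' : ℂ) :
    secVal G (ba + bt) (Xa + Y + Xt) (Xa' + Y' + Xt') = secVal G ba (Xa + Y) (Xa' + Y') +
      ((secVal G (ba + bt) (Xa + Xt) (Xa' + Xt') - secVal G ba Xa Xa') +
        2 * (dot (crossRe G bt Xt) Y + dot (crossIm G bt Xt') Y')) := by
  simp [secVal, crossRe, crossIm, dot]
  ring

lemma memLp_grad_zero : MemLp (grad fun _ : ℂ => (0 : ℝ)) 2 := by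
  have : grad (fun _ : ℂ => (0 : ℝ)) = fun _ => 0 := by
    funext x
    simp [grad, Complex.ext_iff]
  rw [this]
  exact MemLp.zero'

lemma grad_zero_fun (x : ℂ) : grad (fun _ : ℂ => (0 : ℝ)) x = 0 := by
  simp [grad, Complex.ext_iff]

lemma integrable_secVal (hR : Reg u K) {ζ U₁ U₂ : ℂ → ℝ} (hζ : IsTest univ ζ)
    (h₁ : MemLp (grad U₁) 2) (h₂ : MemLp (grad U₂) 2) :
    Integrable fun x => secVal (grad u x) (grad ζ x) (grad U₁ x) (grad U₂ x) := by
  have a := (memLp_weight hR hζ).integrable_sq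
  have b := integrable_dot (memLp_crossRe hR hζ memLp_grad_zero) h₁
  have c := integrable_dot (memLp_crossIm hR hζ memLp_grad_zero) h₂
  have d := (integrable_dot h₁ h₁).fun_add (integrable_dot h₂ h₂)
  refine ((a.fun_add ((b.fun_add c).const_mul 2)).fun_add d).congr
    (Eventually.of_forall fun x => ?_)
  simp only [secVal_expand (grad u x), grad_zero_fun, mul_pow, norm_sq_eq_dot]

/-! ### Cut-offs of the layers -/

lemma layer_rad_pos (k : ℕ) : 0 < rad k := by
  unfold rad
  positivity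

lemma one_le_rad (k : ℕ) : 1 ≤ rad k := one_le_pow₀ (by norm_num : (1 : ℝ) ≤ 4)

lemma layer_rad_mono {j k : ℕ} (h : j ≤ k) : rad j ≤ rad k :=
  pow_le_pow_right₀ (by norm_num : (1 : ℝ) ≤ 4) h

lemma four_rad_le {j k : ℕ} (h : j < k) : 4 * rad j ≤ rad k := by
  have := layer_rad_mono (Nat.succ_le_of_lt h)
  simpa [rad, pow_succ, mul_comm] using this

/-- The weight of the layer `k`. -/
def layerCut (k : ℕ) : ℂ → ℝ := cut 0 (3 / 4 * rad k)

lemma layerCut_supp (k : ℕ) : tsupport (layerCut k) ⊆ closedBall 0 (3 / 2 * rad k) := by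
  refine closure_minimal (fun x hx => ?_) isClosed_closedBall
  by_contra hn
  rw [mem_closedBall_zero_iff, not_le] at hn
  exact hx (cut_eq_zero (by linarith [layer_rad_pos k]) (by rw [sub_zero]; linarith))

lemma isTest_layerCut (k : ℕ) : IsTest (ball 0 (2 * rad k)) (layerCut k) :=
  ⟨contDiff_cut 0 _, (isCompact_closedBall 0 _).of_isClosed_subset (isClosed_tsupport _)
    (layerCut_supp k),
    (layerCut_supp k).trans (closedBall_subset_ball (by linarith [layer_rad_pos k]))⟩

lemma layerCut_eq_one {k : ℕ} {x : ℂ} (hx : ‖x‖ ≤ 3 / 4 * rad k) : layerCut k x = 1 := by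
  have hs : 0 < 3 / 4 * rad k := by linarith [layer_rad_pos k]
  refine cutBump.one_of_mem_closedBall ?_
  rw [mem_closedBall_zero_iff, sub_zero, norm_smul, norm_inv, Real.norm_eq_abs, abs_of_pos hs]
  show _ ≤ (1 : ℝ)
  rw [inv_mul_le_iff₀ hs, mul_one]
  exact hx

lemma ball_subset_interior_one (k : ℕ) :
    ball 0 (3 / 4 * rad k) ⊆ interior {x | layerCut k x = 1} :=
  interior_maximal (fun _ hx => layerCut_eq_one (mem_ball_zero_iff.1 hx).le) isOpen_ball

lemma tsupport_layerCut_subset_one {j k : ℕ} (h : j < k) :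
    tsupport (layerCut j) ⊆ interior {x | layerCut k x = 1} :=
  (layerCut_supp j).trans ((closedBall_subset_ball
    (by linarith [four_rad_le h, layer_rad_pos k])).trans (ball_subset_interior_one k))

lemma exists_layerCut_bound : ∃ D, 0 ≤ D ∧ ∀ k x, ‖grad (layerCut k) x‖ ≤ D / rad k := by
  obtain ⟨D, hD0, hD⟩ := exists_cut_bound
  refine ⟨4 / 3 * D, by positivity, fun k x => ?_⟩
  have hs : 0 < 3 / 4 * rad k := by linarith [layer_rad_pos k]
  have h := hD 0 (3 / 4 * rad k) x hs
  rw [rgrad, norm_mul, Complex.norm_I, one_mul] at h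
  refine h.trans_eq ?_
  have := (layer_rad_pos k).ne'
  field_simp

/-- The weight of `m` layers, starting at `n`. -/
def psum (n m : ℕ) (x : ℂ) : ℝ := ∑ j ∈ Finset.range m, layerCut (n + j) x

lemma psum_succ (n m : ℕ) : psum n (m + 1) = fun x => psum n m x + layerCut (n + m) x := by
  funext x
  exact Finset.sum_range_succ _ m

lemma isTest_add_fun {U : Set ℂ} {f g : ℂ → ℝ} (hf : IsTest U f) (hg : IsTest U g) :
    IsTest U fun x => f x + g x := by
  refine ⟨hf.1.add hg.1, hf.2.1.add hg.2.1, (closure_minimal (fun x hx => ?_)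
    ((isClosed_tsupport f).union (isClosed_tsupport g))).trans (union_subset hf.2.2 hg.2.2)⟩
  by_contra hn
  rw [mem_union, not_or] at hn
  exact hx (by simp [image_eq_zero_of_notMem_tsupport hn.1, image_eq_zero_of_notMem_tsupport hn.2])

lemma isTest_sum {U : Set ℂ} {m : ℕ} {f : ℕ → ℂ → ℝ} (h : ∀ j < m, IsTest U (f j)) :
    IsTest U fun x => ∑ j ∈ Finset.range m, f j x := by
  induction m with
  | zero => exact ⟨contDiff_const, HasCompactSupport.intro isCompact_empty fun _ _ => rfl,
      (closure_minimal (fun x hx => absurd rfl hx) isClosed_empty).trans (empty_subset _)⟩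
  | succ m ih =>
    simp only [Finset.sum_range_succ]
    exact isTest_add_fun (ih fun j hj => h j (by omega)) (h m (by omega))

lemma isTest_psum_one (n m : ℕ) :
    IsTest (interior {x | layerCut (n + m) x = 1}) (psum n m) :=
  isTest_sum fun j hj => ⟨(isTest_layerCut (n + j)).1, (isTest_layerCut (n + j)).2.1,
    tsupport_layerCut_subset_one (by omega)⟩

lemma isTest_psum {n m k : ℕ} (h : n + m ≤ k + 1) : IsTest (ball 0 (2 * rad k)) (psum n m) :=
  isTest_sum fun j hj => (isTest_layerCut (n + j)).mono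
    (ball_subset_ball (by linarith [layer_rad_mono (show n + j ≤ k by omega)]))

lemma norm_sq_grad_psum (n m : ℕ) (x : ℂ) :
    ‖grad (psum n m) x‖ ^ 2 = ∑ j ∈ Finset.range m, ‖grad (layerCut (n + j)) x‖ ^ 2 := by
  induction m with
  | zero =>
    have : psum n 0 = fun _ => 0 := by funext y; simp [psum]
    simp [this, grad_zero_fun]
  | succ m ih =>
    rw [Finset.sum_range_succ, ← ih, psum_succ,
      grad_add ((isTest_psum_one n m).1.differentiable (by simp) x)
        ((isTest_layerCut (n + m)).1.differentiable (by simp) x)]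
    by_cases hx : x ∈ tsupport (psum n m)
    · have h1 : layerCut (n + m) =ᶠ[𝓝 x] fun _ => (1 : ℝ) := by
        filter_upwards [isOpen_interior.mem_nhds ((isTest_psum_one n m).2.2 hx)] with y hy
        exact interior_subset (s := {x | layerCut (n + m) x = 1}) hy
      have h2 : grad (layerCut (n + m)) x = 0 := by
        rw [grad_congr h1]
        simp [grad, Complex.ext_iff]
      simp [h2]
    · simp [grad_eq_zero_of_notMem_tsupport hx]

/-! ### Trial corrections -/

/-- The trial correction for a component `p`. -/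
def ptrial (p : ℂ →L[ℝ] ℝ) (u χ ψ : ℂ → ℝ) (S : ℂ → ℂ) (x : ℂ) : ℝ :=
  ψ x * (χ x * p (grad u x) - p (S x))

/-- The sum of the trial corrections of `m` layers, starting at `n`. -/
def zsum (p : ℂ →L[ℝ] ℝ) (u χ : ℂ → ℝ) (S : ℕ → ℂ → ℂ) (n m : ℕ) (x : ℂ) : ℝ :=
  ∑ j ∈ Finset.range m, ptrial p u χ (layerCut (n + j)) (S (n + j)) x

lemma trialRe_eq (u χ ψ : ℂ → ℝ) (S : ℂ → ℂ) :
    trialRe u χ ψ S = ptrial Complex.reCLM u χ ψ S := rfl

lemma trialIm_eq (u χ ψ : ℂ → ℝ) (S : ℂ → ℂ) :
    trialIm u χ ψ S = ptrial Complex.imCLM u χ ψ S := rfl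

lemma zsum_succ (p : ℂ →L[ℝ] ℝ) (n m : ℕ) : zsum p u χ S n (m + 1) =
    fun x => zsum p u χ S n m x + ptrial p u χ (layerCut (n + m)) (S (n + m)) x := by
  funext x
  exact Finset.sum_range_succ _ m

open Classical in
/-- The difference of two layers, continued through `K₁`. -/
def jump (K₁ : Set ℂ) (S P : ℕ → ℂ → ℂ) (j k : ℕ) (x : ℂ) : ℂ :=
  if x ∈ K₁ then P j x - P k x else S k x - S j x

lemma Split.notMem_two (hs : Split u K K₁ K₂ χ) {x : ℂ} (hx : x ∈ K₁) : x ∉ K₂ := fun h2 => by
  have a : χ x = 1 := hs.one.self_of_nhdsSet x hx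
  have b : χ x = 0 := hs.zero.self_of_nhdsSet x h2
  rw [a] at b
  exact one_ne_zero b

lemma Split.notMem_of (hs : Split u K K₁ K₂ χ) {x : ℂ} (h1 : x ∉ K₁) (h2 : x ∉ K₂) : x ∉ K := by
  rw [← hs.union]
  exact fun h => h.elim h1 h2

lemma Split.subset_one (hs : Split u K K₁ K₂ χ) {x : ℂ} (hx : x ∉ K) : x ∉ K₁ := fun h =>
  hx (hs.union ▸ Or.inl h)

lemma contDiffOn_jump (hs : Split u K K₁ K₂ χ) (hl : Layers u K K₁ K₂ C S P) {j k : ℕ}
    (hjk : j ≤ k) : ContDiffOn ℝ ∞ (jump K₁ S P j k) (ball 0 (2 * rad j)) := by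
  intro x hx
  have hsub : ball (0 : ℂ) (2 * rad j) ⊆ ball 0 (2 * rad k) :=
    ball_subset_ball (by linarith [layer_rad_mono hjk])
  by_cases h1 : x ∈ K₁
  · have ho : IsOpen (ball (0 : ℂ) (2 * rad j) \ K₂) := isOpen_ball.sdiff hs.closed₂
    have hxo : x ∈ ball (0 : ℂ) (2 * rad j) \ K₂ := ⟨hx, hs.notMem_two h1⟩
    have heq : jump K₁ S P j k =ᶠ[𝓝 x] fun y => P j y - P k y := by
      filter_upwards [ho.mem_nhds hxo] with y hy
      by_cases hy1 : y ∈ K₁
      · simp [jump, hy1]
      · have a := hl.sum j y ⟨hy.1, hs.notMem_of hy1 hy.2⟩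
        have b := hl.sum k y ⟨hsub hy.1, hs.notMem_of hy1 hy.2⟩
        simp only [jump, hy1, if_false]
        rw [eq_sub_of_add_eq a, eq_sub_of_add_eq b]
        abel
    refine ((((hl.potP j).2.2.1 x hxo).contDiffAt (ho.mem_nhds hxo)).sub
      (((hl.potP k).2.2.1 x ⟨hsub hx, hxo.2⟩).contDiffAt ?_)).congr_of_eventuallyEq heq
      |>.contDiffWithinAt
    exact (isOpen_ball.sdiff hs.closed₂).mem_nhds ⟨hsub hx, hxo.2⟩
  · have ho : IsOpen (ball (0 : ℂ) (2 * rad j) \ K₁) := isOpen_ball.sdiff hs.closed₁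
    have heq : jump K₁ S P j k =ᶠ[𝓝 x] fun y => S k y - S j y := by
      filter_upwards [ho.mem_nhds ⟨hx, h1⟩] with y hy
      simp [jump, hy.2]
    refine ((((hl.potS k).2.2.1 x ⟨hsub hx, h1⟩).contDiffAt
      ((isOpen_ball.sdiff hs.closed₁).mem_nhds ⟨hsub hx, h1⟩)).sub
      (((hl.potS j).2.2.1 x ⟨hx, h1⟩).contDiffAt (ho.mem_nhds ⟨hx, h1⟩))).congr_of_eventuallyEq
      heq |>.contDiffWithinAt

/-- The smooth difference between the layers below `n + m` and the layer `n + m`. -/
def corr (p : ℂ →L[ℝ] ℝ) (K₁ : Set ℂ) (S P : ℕ → ℂ → ℂ) (n m : ℕ) (x : ℂ) : ℝ :=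
  ∑ j ∈ Finset.range m, p (jump K₁ S P (n + j) (n + m) x) * layerCut (n + j) x

lemma isTest_corr (hs : Split u K K₁ K₂ χ) (hl : Layers u K K₁ K₂ C S P) (p : ℂ →L[ℝ] ℝ)
    (n m : ℕ) : IsTest (interior {x | layerCut (n + m) x = 1}) (corr p K₁ S P n m) := by
  refine isTest_sum fun j hj => ?_
  have hjm : n + j < n + m := by omega
  exact ⟨contDiff_mul_test isOpen_ball (p.contDiff.comp_contDiffOn (contDiffOn_jump hs hl hjm.le))
    (isTest_layerCut _), (isTest_layerCut _).2.1.mul_left,
    tsupport_mul_subset_right.trans (tsupport_layerCut_subset_one hjm)⟩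

lemma zsum_eq (hs : Split u K K₁ K₂ χ) (p : ℂ →L[ℝ] ℝ) (n m : ℕ) {x : ℂ} (hx : x ∉ K) :
    zsum p u χ S n m x =
      ptrial p u χ (psum n m) (S (n + m)) x + corr p K₁ S P n m x := by
  simp only [zsum, ptrial, psum, corr, Finset.sum_mul, ← Finset.sum_add_distrib, jump,
    hs.subset_one hx, if_false, map_sub]
  exact Finset.sum_congr rfl fun j _ => by ring

lemma IdentityGoal.trial (hI : IdentityGoal) (hs : Split u K K₁ K₂ χ)
    (hl : Layers u K K₁ K₂ C S P) {k : ℕ} {ψ : ℂ → ℝ} (hψ : IsTest (ball 0 (2 * rad k)) ψ) :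
    (∀ p, p = Complex.reCLM ∨ p = Complex.imCLM →
      ContDiffOn ℝ ∞ (ptrial p u χ ψ (S k)) Kᶜ ∧ MemLp (grad (ptrial p u χ ψ (S k))) 2) ∧
    secondVar u (fun x => ψ x * χ x) (ptrial Complex.reCLM u χ ψ (S k))
      (ptrial Complex.imCLM u χ ψ (S k)) = ∫ x, ‖grad ψ x‖ ^ 2 * ‖S k x‖ ^ 2 := by
  obtain ⟨a, b, c, d, e⟩ := hI u K K₁ K₂ χ (2 * rad k) (S k) (P k) ψ hs (hl.potS k) (hl.potP k)
    (hl.sum k) (hl.memLp k) hψ
  refine ⟨?_, e⟩
  rintro p (rfl | rfl)
  · exact ⟨a, c⟩
  · exact ⟨b, d⟩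

lemma differentiableAt_off (hR : Reg u K) {f : ℂ → ℝ} (hf : ContDiffOn ℝ ∞ f Kᶜ) {x : ℂ}
    (hx : x ∉ K) : DifferentiableAt ℝ f x :=
  ((hf x hx).contDiffAt (hR.isClosed.isOpen_compl.mem_nhds hx)).differentiableAt (by simp)

lemma zsum_good (hI : IdentityGoal) (hs : Split u K K₁ K₂ χ) (hl : Layers u K K₁ K₂ C S P)
    (p : ℂ →L[ℝ] ℝ) (hp : p = Complex.reCLM ∨ p = Complex.imCLM) (n m : ℕ) :
    ContDiffOn ℝ ∞ (zsum p u χ S n m) Kᶜ ∧ MemLp (grad (zsum p u χ S n m)) 2 ∧
      HasCompactSupport (zsum p u χ S n m) := by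
  induction m with
  | zero =>
    have e : zsum p u χ S n 0 = fun _ => 0 := by funext y; simp [zsum]
    rw [e]
    exact ⟨contDiffOn_const, memLp_grad_zero, HasCompactSupport.intro isCompact_empty
      fun _ _ => rfl⟩
  | succ m ih =>
    obtain ⟨a, b⟩ := (hI.trial hs hl (isTest_layerCut (n + m))).1 p hp
    rw [zsum_succ]
    refine ⟨ih.1.add a, (ih.2.1.add b).ae_eq ?_, ih.2.2.add ?_⟩
    · filter_upwards [measure_eq_zero_iff_ae_notMem.1 hs.reg.null] with x hx
      exact (grad_add (differentiableAt_off hs.reg ih.1 hx)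
        (differentiableAt_off hs.reg a hx)).symm
    · exact (isTest_layerCut (n + m)).2.1.mul_right

lemma grad_zsum (hI : IdentityGoal) (hs : Split u K K₁ K₂ χ) (hl : Layers u K K₁ K₂ C S P)
    (p : ℂ →L[ℝ] ℝ) (hp : p = Complex.reCLM ∨ p = Complex.imCLM) (n m : ℕ) {x : ℂ}
    (hx : x ∉ K) :
    grad (zsum p u χ S n m) x =
      grad (ptrial p u χ (psum n m) (S (n + m))) x + grad (corr p K₁ S P n m) x ∧
    grad (zsum p u χ S n (m + 1)) x =
      grad (zsum p u χ S n m) x + grad (ptrial p u χ (layerCut (n + m)) (S (n + m))) x ∧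
    grad (ptrial p u χ (psum n (m + 1)) (S (n + m))) x =
      grad (ptrial p u χ (psum n m) (S (n + m))) x +
        grad (ptrial p u χ (layerCut (n + m)) (S (n + m))) x := by
  have d1 := differentiableAt_off hs.reg
    ((hI.trial hs hl (isTest_psum (n := n) (m := m) (Nat.le_succ _))).1 p hp).1 hx
  have d2 := differentiableAt_off hs.reg
    ((hI.trial hs hl (isTest_layerCut (n + m))).1 p hp).1 hx
  have d3 := (isTest_corr hs hl p n m).1.differentiable (by simp) x
  have d4 := differentiableAt_off hs.reg (zsum_good hI hs hl p hp n m).1 hx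
  refine ⟨?_, ?_, ?_⟩
  · rw [← grad_add d1 d3]
    refine grad_congr ?_
    filter_upwards [hs.reg.isClosed.isOpen_compl.mem_nhds hx] with y hy
    exact zsum_eq hs p n m hy
  · rw [zsum_succ, grad_add d4 d2]
  · rw [← grad_add d1 d2]
    refine grad_congr (Eventually.of_forall fun y => ?_)
    simp only [ptrial, psum_succ]
    ring

lemma integrable_grad_sq_mul {ψ : ℂ → ℝ} {F : ℂ → ℂ} {r : ℝ} (hψ : IsTest (ball 0 r) ψ)
    (hF : MemLp F 2 (volume.restrict (ball 0 r))) :
    Integrable fun x => ‖grad ψ x‖ ^ 2 * ‖F x‖ ^ 2 := by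
  obtain ⟨B, hB⟩ := ((continuous_grad hψ.1).norm.pow 2).bounded_above_of_compact_support
    (HasCompactSupport.intro hψ.2.1.isCompact fun x hx => by
      simp [grad_eq_zero_of_notMem_tsupport hx])
  refine (integrableOn_iff_integrable_of_support_subset ?_).1
    (hF.norm.integrable_sq.bdd_mul (c := B) ((continuous_grad hψ.1).norm.pow 2).aestronglyMeasurable
      (Eventually.of_forall hB))
  intro x hx
  by_contra hn
  exact hx (by simp [grad_eq_zero_of_notMem_tsupport fun h => hn (hψ.2.2 h)])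

lemma isTest_mul_cut {ψ : ℂ → ℝ} {U : Set ℂ} (hψ : IsTest U ψ) (hχ : ContDiff ℝ ∞ χ) :
    IsTest univ fun x => ψ x * χ x :=
  ⟨hψ.1.mul hχ, hψ.2.1.mul_right, subset_univ _⟩

/-- The energy of the sum of the first `m` layers is the sum of their energies. -/
lemma secondVar_zsum (hI : IdentityGoal) (hC : CrossGoal) (hs : Split u K K₁ K₂ χ)
    (hl : Layers u K K₁ K₂ C S P) (n m : ℕ) :
    secondVar u (fun x => psum n m x * χ x) (zsum Complex.reCLM u χ S n m)
      (zsum Complex.imCLM u χ S n m) =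
    ∑ j ∈ Finset.range m, ∫ x, ‖grad (layerCut (n + j)) x‖ ^ 2 * ‖S (n + j) x‖ ^ 2 := by
  induction m with
  | zero =>
    have e : ∀ p : ℂ →L[ℝ] ℝ, zsum p u χ S n 0 = fun _ => 0 := fun p => by
      funext y; simp [zsum]
    simp [secondVar, e, psum, grad_zero_fun, secVal, dot]
  | succ m ih =>
    set G := grad u
    set k := n + m with hk
    have ta := isTest_psum (n := n) (m := m) (k := k) (Nat.le_succ _)
    have tt := isTest_layerCut k
    have tb := isTest_psum (n := n) (m := m + 1) (k := k) le_rfl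
    have Ia := hI.trial hs hl ta
    have It := hI.trial hs hl tt
    have Ib := hI.trial hs hl tb
    have hre : (Complex.reCLM : ℂ →L[ℝ] ℝ) = Complex.reCLM ∨ Complex.reCLM = Complex.imCLM :=
      Or.inl rfl
    have him : (Complex.imCLM : ℂ →L[ℝ] ℝ) = Complex.reCLM ∨ Complex.imCLM = Complex.imCLM :=
      Or.inr rfl
    have c1 := isTest_corr hs hl Complex.reCLM n m
    have c2 := isTest_corr hs hl Complex.imCLM n m
    have hcross := hC u K K₁ K₂ χ (2 * rad k) (S k) (P k) (layerCut k) _ _ hs (hl.potS k)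
      (hl.potP k) (hl.sum k) (hl.memLp k) tt c1 c2
    rw [trialRe_eq, trialIm_eq] at hcross
    set Ba := fun x => psum n m x * χ x with hBa
    set Bt := fun x => layerCut k x * χ x with hBt
    set Bb := fun x => psum n (m + 1) x * χ x with hBb
    set Z1 := zsum Complex.reCLM u χ S n m
    set Z2 := zsum Complex.imCLM u χ S n m
    set f := fun x => secVal (G x) (grad Ba x) (grad Z1 x) (grad Z2 x) with hf
    set sa := fun x => secVal (G x) (grad Ba x) (grad (ptrial Complex.reCLM u χ (psum n m) (S k)) x)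
      (grad (ptrial Complex.imCLM u χ (psum n m) (S k)) x) with hsa
    set sb := fun x => secVal (G x) (grad Bb x)
      (grad (ptrial Complex.reCLM u χ (psum n (m + 1)) (S k)) x)
      (grad (ptrial Complex.imCLM u χ (psum n (m + 1)) (S k)) x) with hsb
    set ct := fun x => dot (crossRe (G x) (grad Bt x)
        (grad (ptrial Complex.reCLM u χ (layerCut k) (S k)) x))
        (grad (corr Complex.reCLM K₁ S P n m) x) +
      dot (crossIm (G x) (grad Bt x) (grad (ptrial Complex.imCLM u χ (layerCut k) (S k)) x))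
        (grad (corr Complex.imCLM K₁ S P n m) x) with hct
    have ina : Integrable f := integrable_secVal hs.reg (isTest_mul_cut ta hs.smooth)
      (zsum_good hI hs hl _ hre n m).2.1 (zsum_good hI hs hl _ him n m).2.1
    have isa : Integrable sa := integrable_secVal hs.reg (isTest_mul_cut ta hs.smooth)
      (Ia.1 _ hre).2 (Ia.1 _ him).2
    have isb : Integrable sb := integrable_secVal hs.reg (isTest_mul_cut tb hs.smooth)
      (Ib.1 _ hre).2 (Ib.1 _ him).2
    have ict : Integrable ct :=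
      (integrable_dot (memLp_crossRe hs.reg (isTest_mul_cut tt hs.smooth) (It.1 _ hre).2)
        (memLp_grad_test (c1.mono (subset_univ _)))).fun_add
      (integrable_dot (memLp_crossIm hs.reg (isTest_mul_cut tt hs.smooth) (It.1 _ him).2)
        (memLp_grad_test (c2.mono (subset_univ _))))
    have key : (fun x => secVal (G x) (grad Bb x) (grad (zsum Complex.reCLM u χ S n (m + 1)) x)
        (grad (zsum Complex.imCLM u χ S n (m + 1)) x)) =ᵐ[volume]
        fun x => f x + ((sb x - sa x) + 2 * ct x) := by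
      filter_upwards [measure_eq_zero_iff_ae_notMem.1 hs.reg.null] with x hx
      obtain ⟨a1, a2, a3⟩ := grad_zsum hI hs hl Complex.reCLM hre n m hx
      obtain ⟨b1, b2, b3⟩ := grad_zsum hI hs hl Complex.imCLM him n m hx
      have hB : grad Bb x = grad Ba x + grad Bt x := by
        rw [← grad_add ((isTest_mul_cut ta hs.smooth).1.differentiable (by simp) x)
          ((isTest_mul_cut tt hs.smooth).1.differentiable (by simp) x)]
        refine grad_congr (Eventually.of_forall fun y => ?_)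
        simp only [hBb, psum_succ, ← hk]
        ring
      simp only [hf, hsa, hsb, hct]
      rw [a2, b2, a3, b3, a1, b1, hB, ← hk]
      exact secVal_step ..
    rw [Finset.sum_range_succ, ← ih]
    have eb : ∫ x, sb x = ∫ x, ‖grad (psum n (m + 1)) x‖ ^ 2 * ‖S k x‖ ^ 2 := Ib.2
    have ea : ∫ x, sa x = ∫ x, ‖grad (psum n m) x‖ ^ 2 * ‖S k x‖ ^ 2 := Ia.2
    have esplit : ∫ x, ‖grad (psum n (m + 1)) x‖ ^ 2 * ‖S k x‖ ^ 2 =
        (∫ x, ‖grad (psum n m) x‖ ^ 2 * ‖S k x‖ ^ 2) +
          ∫ x, ‖grad (layerCut k) x‖ ^ 2 * ‖S k x‖ ^ 2 := by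
      rw [← integral_add (integrable_grad_sq_mul ta (hl.memLp k))
        (integrable_grad_sq_mul tt (hl.memLp k))]
      refine integral_congr_ae (Eventually.of_forall fun x => ?_)
      simp only [norm_sq_grad_psum, Finset.sum_range_succ, ← hk, add_mul]
    unfold secondVar
    have isab : Integrable fun x => sb x - sa x := isb.sub isa
    rw [integral_congr_ae key, integral_add ina (isab.fun_add (ict.const_mul 2)),
      integral_add isab (ict.const_mul 2), integral_sub isb isa, integral_const_mul,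
      hcross, eb, ea, esplit]
    ring

/-! ### Estimates of the averaged layers -/

lemma secondVar_zsum_le (hI : IdentityGoal) (hC : CrossGoal) (hs : Split u K K₁ K₂ χ)
    (hl : Layers u K K₁ K₂ C S P) {D : ℝ}
    (hD : ∀ k x, ‖grad (layerCut k) x‖ ≤ D / rad k) (n m : ℕ) :
    secondVar u (fun x => psum n m x * χ x) (zsum Complex.reCLM u χ S n m)
      (zsum Complex.imCLM u χ S n m) ≤ m * (D ^ 2 * C) := by
  rw [secondVar_zsum hI hC hs hl]
  refine (Finset.sum_le_sum (g := fun _ => D ^ 2 * C) fun j _ => ?_).trans_eq (by simp)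
  set k := n + j
  have hr := layer_rad_pos k
  calc ∫ x, ‖grad (layerCut k) x‖ ^ 2 * ‖S k x‖ ^ 2
      = ∫ x in ball (0 : ℂ) (2 * rad k), ‖grad (layerCut k) x‖ ^ 2 * ‖S k x‖ ^ 2 :=
        (setIntegral_eq_integral_of_forall_compl_eq_zero fun x hx => by
          simp [grad_eq_zero_of_notMem_tsupport fun h => hx ((isTest_layerCut k).2.2 h)]).symm
    _ ≤ ∫ x in ball (0 : ℂ) (2 * rad k), (D / rad k) ^ 2 * ‖S k x‖ ^ 2 :=
        setIntegral_mono (integrable_grad_sq_mul (isTest_layerCut k) (hl.memLp k)).integrableOn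
          ((hl.memLp k).norm.integrable_sq.const_mul _) fun x =>
            mul_le_mul_of_nonneg_right (pow_le_pow_left₀ (norm_nonneg _) (hD k x) 2) (sq_nonneg _)
    _ = (D / rad k) ^ 2 * ∫ x in ball (0 : ℂ) (2 * rad k), ‖S k x‖ ^ 2 := integral_const_mul _ _
    _ ≤ (D / rad k) ^ 2 * (C * rad k ^ 2) := mul_le_mul_of_nonneg_left (hl.bound k) (sq_nonneg _)
    _ = D ^ 2 * C := by field_simp

lemma length_psum_le (hs : Split u K K₁ K₂ χ) {D : ℝ}
    (hD : ∀ k x, ‖grad (layerCut k) x‖ ≤ D / rad k) (c : ℝ) (n m : ℕ) :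
    ∫ x in K, ‖grad (fun y => c * (psum n m y * χ y)) x‖ ^ 2 ∂Measure.hausdorffMeasure 1 ≤
      c ^ 2 * (m * (4 * Real.pi * D ^ 2)) := by
  set μ := (Measure.hausdorffMeasure (X := ℂ) 1).restrict K with hμ
  have hfin : ∀ j, μ (ball (0 : ℂ) (2 * rad j)) ≤ ENNReal.ofReal (2 * Real.pi * (2 * rad j)) :=
    fun j => by
      rw [hμ, Measure.restrict_apply measurableSet_ball, inter_comm]
      exact (hs.density 0 (2 * rad j) (by linarith [layer_rad_pos j])).1
  have hI : ∀ j, Integrable
      ((ball (0 : ℂ) (2 * rad (n + j))).indicator fun _ => c ^ 2 * (D / rad (n + j)) ^ 2) μ :=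
    fun j => by
      have hon : IntegrableOn (fun _ : ℂ => c ^ 2 * (D / rad (n + j)) ^ 2)
          (ball (0 : ℂ) (2 * rad (n + j))) μ :=
        integrableOn_const (ne_top_of_le_ne_top ENNReal.ofReal_ne_top (hfin (n + j)))
      exact hon.integrable_indicator measurableSet_ball
  have hbd : ∀ x ∈ K, ‖grad (fun y => c * (psum n m y * χ y)) x‖ ^ 2 ≤
      ∑ j ∈ Finset.range m,
        (ball (0 : ℂ) (2 * rad (n + j))).indicator (fun _ => c ^ 2 * (D / rad (n + j)) ^ 2) x := by
    intro x hx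
    have hχ : grad χ x = 0 := by
      rcases (show x ∈ K₁ ∪ K₂ by rwa [hs.union]) with h | h
      · rw [grad_congr (g := fun _ => (1 : ℝ)) (nhds_le_nhdsSet h hs.one)]
        simp [grad, Complex.ext_iff]
      · rw [grad_congr (g := fun _ => (0 : ℝ)) (nhds_le_nhdsSet h hs.zero)]
        exact grad_zero_fun x
    have hd1 := (isTest_psum_one n m).1.differentiable (by simp) x
    have hd2 := hs.smooth.differentiable (by simp) x
    rw [grad_const_mul (f := fun y => psum n m y * χ y) c (hd1.mul hd2), grad_mul hd1 hd2, hχ,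
      smul_zero, zero_add, norm_smul,
      norm_smul, mul_pow, mul_pow, Real.norm_eq_abs, Real.norm_eq_abs, sq_abs, sq_abs,
      norm_sq_grad_psum]
    have hχ1 : χ x ^ 2 ≤ 1 := by nlinarith [(hs.range x).1, (hs.range x).2]
    refine (mul_le_mul_of_nonneg_left (mul_le_of_le_one_left
      (Finset.sum_nonneg fun j _ => sq_nonneg _) hχ1) (sq_nonneg c)).trans ?_
    rw [Finset.mul_sum]
    refine Finset.sum_le_sum fun j _ => ?_
    by_cases hxb : x ∈ ball (0 : ℂ) (2 * rad (n + j))
    · rw [indicator_of_mem hxb]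
      exact mul_le_mul_of_nonneg_left (pow_le_pow_left₀ (norm_nonneg _) (hD _ x) 2) (sq_nonneg c)
    · rw [indicator_of_notMem hxb,
        grad_eq_zero_of_notMem_tsupport fun h => hxb ((isTest_layerCut _).2.2 h)]
      simp
  calc ∫ x, ‖grad (fun y => c * (psum n m y * χ y)) x‖ ^ 2 ∂μ
      ≤ ∫ x, ∑ j ∈ Finset.range m, (ball (0 : ℂ) (2 * rad (n + j))).indicator
          (fun _ => c ^ 2 * (D / rad (n + j)) ^ 2) x ∂μ :=
        integral_mono_of_nonneg (Eventually.of_forall fun x => sq_nonneg _)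
          (integrable_finsetSum _ fun j _ => hI j)
          (ae_restrict_of_forall_mem hs.reg.isClosed.measurableSet hbd)
    _ = ∑ j ∈ Finset.range m, μ.real (ball (0 : ℂ) (2 * rad (n + j))) *
          (c ^ 2 * (D / rad (n + j)) ^ 2) := by
        rw [integral_finsetSum _ fun j _ => hI j]
        simp [integral_indicator measurableSet_ball]
    _ ≤ ∑ _j ∈ Finset.range m, c ^ 2 * (4 * Real.pi * D ^ 2) := by
        refine Finset.sum_le_sum fun j _ => ?_
        have hr := layer_rad_pos (n + j)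
        have h1 : μ.real (ball (0 : ℂ) (2 * rad (n + j))) ≤ 4 * Real.pi * rad (n + j) := by
          refine (ENNReal.toReal_le_of_le_ofReal (by positivity) ((hfin (n + j)).trans_eq ?_))
          ring_nf
        refine (mul_le_mul_of_nonneg_right h1 (by positivity)).trans ?_
        have h2 : 4 * Real.pi * rad (n + j) * (c ^ 2 * (D / rad (n + j)) ^ 2) =
            c ^ 2 * (4 * Real.pi * D ^ 2) / rad (n + j) := by
          field_simp
        rw [h2]
        exact div_le_self (by positivity) (one_le_rad _)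
    _ = c ^ 2 * (m * (4 * Real.pi * D ^ 2)) := by simp; ring

/-- Where the weights are one the cross fields are derivatives of the fields `P`. -/
lemma cross_zsum (hs : Split u K K₁ K₂ χ) (hl : Layers u K K₁ K₂ C S P) {n : ℕ} (m : ℕ) {x : ℂ}
    (hxK : x ∉ K) (hx : x ∈ interior {y | χ y = 1}) (hxn : ‖x‖ < 3 / 4 * rad n) :
    crossRe (grad u x) (grad (fun y => psum n m y * χ y) x) (grad (zsum Complex.reCLM u χ S n m) x)
        = ∑ j ∈ Finset.range m, fderiv ℝ (P (n + j)) x 1 ∧
      crossIm (grad u x) (grad (fun y => psum n m y * χ y) x)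
          (grad (zsum Complex.imCLM u χ S n m) x)
        = ∑ j ∈ Finset.range m, fderiv ℝ (P (n + j)) x Complex.I := by
  set F := fun y => ∑ j ∈ Finset.range m, P (n + j) y with hF
  have hnear : ∀ᶠ y in 𝓝 x, y ∉ K ∧ χ y = 1 ∧ ‖y‖ < 3 / 4 * rad n := by
    filter_upwards [hs.reg.isClosed.isOpen_compl.mem_nhds hxK, isOpen_interior.mem_nhds hx,
      isOpen_ball.mem_nhds (mem_ball_zero_iff.2 hxn)] with y a b c
    exact ⟨a, interior_subset (s := {y | χ y = 1}) b, mem_ball_zero_iff.1 c⟩
  have hone : ∀ y, ‖y‖ < 3 / 4 * rad n → ∀ j, layerCut (n + j) y = 1 := fun y hy j =>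
    layerCut_eq_one (hy.le.trans (by linarith [layer_rad_mono (Nat.le_add_right n j)]))
  have hb : grad (fun y => psum n m y * χ y) x = 0 := by
    rw [grad_congr (g := fun _ => (m : ℝ)) (hnear.mono fun y hy => by
      simp [psum, hone y hy.2.2, hy.2.1])]
    simp [grad, Complex.ext_iff]
  have hz : ∀ p : ℂ →L[ℝ] ℝ, zsum p u χ S n m =ᶠ[𝓝 x] fun y => p (F y) := fun p =>
    hnear.mono fun y hy => by
      simp only [zsum, ptrial, hF, map_sum]
      refine Finset.sum_congr rfl fun j _ => ?_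
      rw [hone y hy.2.2 j, hy.2.1, one_mul, one_mul, ← map_sub]
      congr 1
      have hsum := hl.sum (n + j) y ⟨mem_ball_zero_iff.2
        (by linarith [hy.2.2, layer_rad_pos n, layer_rad_mono (Nat.le_add_right n j)]), hy.1⟩
      rw [← hsum, add_sub_cancel_left]
  have hmem : ∀ j, x ∈ ball (0 : ℂ) (2 * rad (n + j)) \ K₂ := fun j =>
    ⟨mem_ball_zero_iff.2 (by linarith [layer_rad_pos n, layer_rad_mono (Nat.le_add_right n j)]),
      fun h => hxK (hs.union ▸ Or.inr h)⟩
  have hd : ∀ j, DifferentiableAt ℝ (P (n + j)) x := fun j =>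
    (hl.potP (n + j)).differentiableAt (isOpen_ball.sdiff hs.closed₂) (hmem j)
  have hFd : DifferentiableAt ℝ F x := DifferentiableAt.fun_sum fun j _ => hd j
  have hFf : fderiv ℝ F x = ∑ j ∈ Finset.range m, fderiv ℝ (P (n + j)) x :=
    fderiv_fun_sum fun j _ => hd j
  have hsym : (fderiv ℝ F x 1).im = (fderiv ℝ F x Complex.I).re := by
    simp only [hFf, sum_apply, Complex.im_sum, Complex.re_sum]
    exact Finset.sum_congr rfl fun j _ => ((hl.potP (n + j)).2.2.2 x (hmem j)).1
  have e1 : grad (fun y => Complex.reCLM (F y)) x = fderiv ℝ F x 1 := by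
    apply Complex.ext
    · rw [grad_re]; exact fderiv_re_apply hFd 1
    · rw [grad_im, hsym]; exact fderiv_re_apply hFd Complex.I
  have e2 : grad (fun y => Complex.imCLM (F y)) x = fderiv ℝ F x Complex.I := by
    apply Complex.ext
    · rw [grad_re, ← hsym]; exact fderiv_im_apply hFd 1
    · rw [grad_im]; exact fderiv_im_apply hFd Complex.I
  rw [hb, grad_congr (hz Complex.reCLM), grad_congr (hz Complex.imCLM), e1, e2]
  simp [crossRe, crossIm, dot, hFf]

/-- The cross term of the averaged layers is close to the pairing with the limit field. -/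
lemma cross_average (hs : Split u K K₁ K₂ χ) (hl : Layers u K K₁ K₂ C S P)
    {g : ℂ → ℂ} (hg : IsPotentialField K₂ᶜ g) {φ : ℂ → ℝ} (hφ : IsNearVariation K χ φ) (e : ℂ)
    {n m : ℕ} (hn : ∀ x ∈ tsupport φ, ‖x‖ < 3 / 4 * rad n) {η : ℝ}
    (hclose : ∀ k ≥ n, ∀ x ∈ tsupport φ, ‖fderiv ℝ (P k) x e - fderiv ℝ g x e‖ ≤ η) :
    |(∫ x, (dot (crossRe (grad u x) (grad (fun y => psum n m y * χ y) x)
            (grad (zsum Complex.reCLM u χ S n m) x)) (e.re • grad φ x) +
          dot (crossIm (grad u x) (grad (fun y => psum n m y * χ y) x)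
            (grad (zsum Complex.imCLM u χ S n m) x)) (e.im • grad φ x))) -
        m * ∫ x, dot (grad φ x) (fderiv ℝ g x e)| ≤ m * η * ∫ x, ‖grad φ x‖ := by
  have hc := hφ.compact.isCompact
  have hsub : tsupport φ ⊆ K₂ᶜ := fun x hx h => by
    have a : χ x = 1 := interior_subset (s := {y | χ y = 1}) (hφ.near hx)
    rw [hs.zero.self_of_nhdsSet x h] at a
    exact zero_ne_one a
  have hgn : Integrable fun x => ‖grad φ x‖ :=
    (integrable_of_memLp_two hc hφ.memLp fun y hy => grad_eq_zero_of_notMem_tsupport hy).norm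
  set pl := fun x => dot (grad φ x) (fderiv ℝ g x e) with hpl
  have hlim : Integrable pl := by
    have hcont : ContinuousOn (fun x => fderiv ℝ g x e) (tsupport φ) :=
      (((hg.2.2.1.fderiv_of_isOpen hs.closed₂.isOpen_compl (m := ∞) le_rfl).clm_apply
        contDiffOn_const).continuousOn).mono hsub
    obtain ⟨M, hM⟩ := hc.exists_bound_of_continuousOn hcont
    refine (hgn.const_mul M).mono'
      (measurable_dot (aestronglyMeasurable_grad φ)
        (measurable_fderiv_apply_const ℝ g e).aestronglyMeasurable)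
      (Eventually.of_forall fun x => ?_)
    rw [Real.norm_eq_abs]
    refine (abs_dot_le _ _).trans ?_
    by_cases hx : x ∈ tsupport φ
    · rw [mul_comm]
      exact mul_le_mul_of_nonneg_right (hM x hx) (norm_nonneg _)
    · simp [grad_eq_zero_of_notMem_tsupport hx]
  set cr := fun x => dot (crossRe (grad u x) (grad (fun y => psum n m y * χ y) x)
      (grad (zsum Complex.reCLM u χ S n m) x)) (e.re • grad φ x) +
    dot (crossIm (grad u x) (grad (fun y => psum n m y * χ y) x)
      (grad (zsum Complex.imCLM u χ S n m) x)) (e.im • grad φ x) with hcr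
  have hpt : ∀ᵐ x : ℂ, |cr x - m * pl x| ≤ m * η * ‖grad φ x‖ := by
    filter_upwards [measure_eq_zero_iff_ae_notMem.1 hs.reg.null] with x hx
    by_cases hxs : x ∈ tsupport φ
    · obtain ⟨c1, c2⟩ := cross_zsum hs hl m hx (hφ.near hxs) (hn x hxs)
      simp only [hcr, hpl, c1, c2]
      set Dp := ∑ j ∈ Finset.range m, fderiv ℝ (P (n + j)) x e with hDp
      have hcr' : dot (∑ j ∈ Finset.range m, fderiv ℝ (P (n + j)) x 1) (e.re • grad φ x) +
          dot (∑ j ∈ Finset.range m, fderiv ℝ (P (n + j)) x Complex.I) (e.im • grad φ x) =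
          dot (grad φ x) Dp := by
        have he : ∀ j, fderiv ℝ (P (n + j)) x e = e.re • fderiv ℝ (P (n + j)) x 1 +
            e.im • fderiv ℝ (P (n + j)) x Complex.I := fun j => by
          rw [← map_smul, ← map_smul, ← map_add]
          congr 1
          apply Complex.ext <;> simp
        simp only [hDp, he, Finset.sum_add_distrib, ← Finset.smul_sum, dot, Complex.add_re,
          Complex.add_im, Complex.smul_re, Complex.smul_im, smul_eq_mul]
        ring
      rw [hcr']
      have hd : dot (grad φ x) Dp - m * dot (grad φ x) (fderiv ℝ g x e) =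
          dot (grad φ x) (∑ j ∈ Finset.range m, (fderiv ℝ (P (n + j)) x e - fderiv ℝ g x e)) := by
        simp only [hDp, Finset.sum_sub_distrib, Finset.sum_const, Finset.card_range, dot,
          Complex.sub_re, Complex.sub_im, nsmul_eq_mul, Complex.mul_re, Complex.mul_im,
          Complex.natCast_re, Complex.natCast_im]
        ring
      rw [hd]
      refine (abs_dot_le _ _).trans ?_
      rw [mul_comm]
      refine mul_le_mul_of_nonneg_right ((norm_sum_le _ _).trans ?_) (norm_nonneg _)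
      refine (Finset.sum_le_sum fun j _ => hclose (n + j) (Nat.le_add_right n j) x hxs).trans ?_
      simp
    · simp [hcr, hpl, grad_eq_zero_of_notMem_tsupport hxs, dot]
  have hicr : Integrable cr := by
    refine ((hgn.const_mul (m * η)).fun_add ((hlim.const_mul (m : ℝ)).norm)).mono' ?_ ?_
    · have m1 : AEStronglyMeasurable (fun x => grad φ x) volume := aestronglyMeasurable_grad φ
      exact (measurable_dot (continuous_crossRe.comp_aestronglyMeasurable
          (aestronglyMeasurable_triple u _ _)) (m1.const_smul e.re)).add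
        (measurable_dot (continuous_crossIm.comp_aestronglyMeasurable
          (aestronglyMeasurable_triple u _ _)) (m1.const_smul e.im))
    · filter_upwards [hpt] with x hx
      rw [Real.norm_eq_abs, Real.norm_eq_abs]
      linarith [abs_sub_abs_le_abs_sub (cr x) (m * pl x)]
  calc |(∫ x, cr x) - m * ∫ x, pl x| = |∫ x, (cr x - m * pl x)| := by
        rw [integral_sub hicr (hlim.const_mul _), integral_const_mul]
    _ ≤ ∫ x, |cr x - m * pl x| := abs_integral_le_integral_abs
    _ ≤ ∫ x, m * η * ‖grad φ x‖ :=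
        integral_mono_ae (hicr.sub (hlim.const_mul _)).abs (hgn.const_mul _) hpt
    _ = m * η * ∫ x, ‖grad φ x‖ := integral_const_mul _ _

/-- **The gain.** -/
theorem gainGoal (hI : IdentityGoal) (hC : CrossGoal) (hV : SecondVarGoal) : GainGoal := by
  intro u K K₁ K₂ χ C S P g hs hpieces hl hg hconv φ hφ e
  obtain ⟨D, hD0, hD⟩ := exists_layerCut_bound
  obtain ⟨T, hT⟩ := hφ.compact.isCompact.isBounded.subset_closedBall (0 : ℂ)
  set A := (e.re ^ 2 + e.im ^ 2) * ∫ x, ‖grad φ x‖ ^ 2 with hA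
  set B := ∫ x, dot (grad φ x) (fderiv ℝ g x e) with hB
  set N := ∫ x, ‖grad φ x‖ with hN
  set M := D ^ 2 * C + 4 * Real.pi * D ^ 2 with hM
  refine eq_zero_of_quadratic (a := A) fun ε => ?_
  refine le_of_forall_pos_le_add fun δ hδ => ?_
  have hN0 : 0 ≤ N := integral_nonneg fun x => norm_nonneg _
  set η := δ / 2 / (2 * |ε| * N + 1) with hη
  have hη0 : 0 < η := by positivity
  have hsub : tsupport φ ⊆ K₂ᶜ := fun x hx h => by
    have a : χ x = 1 := interior_subset (s := {y | χ y = 1}) (hφ.near hx)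
    rw [hs.zero.self_of_nhdsSet x h] at a
    exact zero_ne_one a
  obtain ⟨n₁, hn₁⟩ := eventually_atTop.1
    (Metric.tendstoUniformlyOn_iff.1 (hconv _ hφ.compact.isCompact hsub e) η hη0)
  obtain ⟨n₂, hn₂⟩ := pow_unbounded_of_one_lt (4 / 3 * T) (by norm_num : (1 : ℝ) < 4)
  set n := max n₁ n₂
  have hn : ∀ x ∈ tsupport φ, ‖x‖ < 3 / 4 * rad n := fun x hx => by
    have h1 := mem_closedBall_zero_iff.1 (hT hx)
    have h2 : (4 : ℝ) ^ n₂ ≤ rad n := layer_rad_mono (le_max_right n₁ n₂)
    linarith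
  obtain ⟨m, hm⟩ := exists_nat_gt (max 1 (2 * |M| / δ))
  have hm0 : 0 < m := by
    have : (1 : ℝ) < m := lt_of_le_of_lt (le_max_left _ _) hm
    exact_mod_cast zero_lt_one.trans this
  have hmR : (0 : ℝ) < m := Nat.cast_pos.2 hm0
  set c := (m : ℝ)⁻¹ with hc
  have hclose : ∀ k ≥ n, ∀ x ∈ tsupport φ, ‖fderiv ℝ (P k) x e - fderiv ℝ g x e‖ ≤ η :=
    fun k hk x hx => by
      have := hn₁ k ((le_max_left n₁ n₂).trans hk) x hx
      rw [dist_eq_norm, norm_sub_rev] at this
      exact this.le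
  have hcross := cross_average (m := m) hs hl hg hφ e hn hclose
  obtain ⟨z1s, z1m, z1c⟩ := zsum_good hI hs hl Complex.reCLM (Or.inl rfl) n m
  obtain ⟨z2s, z2m, z2c⟩ := zsum_good hI hs hl Complex.imCLM (Or.inr rfl) n m
  set Z1 := zsum Complex.reCLM u χ S n m
  set Z2 := zsum Complex.imCLM u χ S n m
  set Bm := fun y => psum n m y * χ y with hBm
  have tB : IsTest univ Bm := isTest_mul_cut (isTest_psum_one n m) hs.smooth
  set ζ := fun y => c * Bm y with hζ
  set V1 := fun y => c * Z1 y + ε * e.re * φ y with hV1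
  set V2 := fun y => c * Z2 y + ε * e.im * φ y with hV2
  have tζ : IsTest univ ζ := ⟨contDiff_const.mul tB.1, tB.2.1.mul_left, subset_univ _⟩
  have gz : ∀ x, grad ζ x = c • grad Bm x := fun x =>
    grad_const_mul c (tB.1.differentiable (by simp) x)
  have gV : ∀ (Z : ℂ → ℝ) (t : ℝ), ContDiffOn ℝ ∞ Z Kᶜ → ∀ x ∉ K,
      grad (fun y => c * Z y + ε * t * φ y) x = c • grad Z x + ε • (t • grad φ x) := by
    intro Z t hZ x hx
    have d1 := differentiableAt_off hs.reg hZ hx
    have d2 := differentiableAt_off hs.reg hφ.smooth hx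
    rw [grad_add (d1.const_mul c) (d2.const_mul (ε * t)), grad_const_mul c d1,
      grad_const_mul (ε * t) d2, smul_smul]
  have hae := measure_eq_zero_iff_ae_notMem.1 hs.reg.null
  have hVm : ∀ (Z : ℂ → ℝ) (t : ℝ), ContDiffOn ℝ ∞ Z Kᶜ → MemLp (grad Z) 2 →
      MemLp (grad fun y => c * Z y + ε * t * φ y) 2 := fun Z t hZ hZm =>
    ((hZm.const_smul c).add ((hφ.memLp.const_smul t).const_smul ε)).ae_eq
      (hae.mono fun x hx => (gV Z t hZ x hx).symm)
  have key := hV u K hs.reg hpieces ζ V1 V2 tζ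
    ((contDiffOn_const.mul z1s).add (contDiffOn_const.mul hφ.smooth))
    ((contDiffOn_const.mul z2s).add (contDiffOn_const.mul hφ.smooth))
    ((z1c.mul_left).add (hφ.compact.mul_left)) ((z2c.mul_left).add (hφ.compact.mul_left))
    (hVm Z1 e.re z1s z1m) (hVm Z2 e.im z2s z2m)
  set cr := fun x => dot (crossRe (grad u x) (grad Bm x) (grad Z1 x)) (e.re • grad φ x) +
    dot (crossIm (grad u x) (grad Bm x) (grad Z2 x)) (e.im • grad φ x) with hcr
  have iS : Integrable fun x => secVal (grad u x) (grad Bm x) (grad Z1 x) (grad Z2 x) :=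
    integrable_secVal hs.reg tB z1m z2m
  have icr : Integrable cr :=
    (integrable_dot (memLp_crossRe hs.reg tB z1m) (hφ.memLp.const_smul e.re)).fun_add
      (integrable_dot (memLp_crossIm hs.reg tB z2m) (hφ.memLp.const_smul e.im))
  have iA : Integrable fun x => (e.re ^ 2 + e.im ^ 2) * ‖grad φ x‖ ^ 2 :=
    hφ.memLp.norm.integrable_sq.const_mul _
  have hval : secondVar u ζ V1 V2 = c ^ 2 * secondVar u Bm Z1 Z2 +
      2 * ε * c * (∫ x, cr x) + ε ^ 2 * A := by
    unfold secondVar
    rw [hA, ← integral_const_mul (e.re ^ 2 + e.im ^ 2), ← integral_const_mul (c ^ 2),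
      ← integral_const_mul (2 * ε * c), ← integral_const_mul (ε ^ 2),
      ← integral_add (iS.const_mul _) (icr.const_mul _),
      ← integral_add ((iS.const_mul _).fun_add (icr.const_mul _)) (iA.const_mul _)]
    refine integral_congr_ae (hae.mono fun x hx => ?_)
    simp only [hV1, hV2, gV Z1 e.re z1s x hx, gV Z2 e.im z2s x hx, gz, secVal_add, secVal_smul,
      crossRe_smul, crossIm_smul, hcr, norm_sq_eq_dot, dot, Complex.smul_re, Complex.smul_im,
      smul_eq_mul]
    ring
  have hlen := length_psum_le hs hD c n m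
  have hsv := secondVar_zsum_le hI hC hs hl hD n m
  rw [hval] at key
  have k1 : c ^ 2 * secondVar u Bm Z1 Z2 ≤ c ^ 2 * (m * (D ^ 2 * C)) :=
    mul_le_mul_of_nonneg_left hsv (sq_nonneg c)
  have k2 : c ^ 2 * (m * (D ^ 2 * C)) + c ^ 2 * (m * (4 * Real.pi * D ^ 2)) = c * M := by
    rw [hM, hc]
    field_simp
  have k3 : c * M ≤ δ / 2 := by
    have h1 : 2 * |M| / δ < m := lt_of_le_of_lt (le_max_right _ _) hm
    rw [div_lt_iff₀ hδ] at h1
    rw [hc, inv_mul_le_iff₀ hmR]
    linarith [le_abs_self M]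
  have k4 : 2 * ε * c * (∫ x, cr x) ≤ 2 * ε * B + δ / 2 := by
    have h1 : |2 * ε * (c * ((∫ x, cr x) - m * B))| ≤ 2 * |ε| * (η * N) := by
      rw [abs_mul, abs_mul, abs_mul, abs_two]
      refine mul_le_mul_of_nonneg_left ?_ (by positivity)
      rw [hc, abs_inv, abs_of_pos hmR, inv_mul_le_iff₀ hmR, ← mul_assoc]
      exact hcross
    have h2 : 2 * |ε| * (η * N) ≤ δ / 2 := by
      have h3 : η * (2 * |ε| * N + 1) = δ / 2 := div_mul_cancel₀ _ (by positivity)
      linarith
    have h4 : c * (m * B) = B := by rw [hc, ← mul_assoc, inv_mul_cancel₀ hmR.ne', one_mul]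
    have h5 := (le_abs_self _).trans (h1.trans h2)
    have h6 : 2 * ε * (c * ((∫ x, cr x) - m * B)) =
        2 * ε * c * (∫ x, cr x) - 2 * ε * (c * (m * B)) := by ring
    rw [h6, h4] at h5
    linarith
  linarith

end Vale.Agent.P128.Connected
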