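import Mathlib

/-!
# Slicing: the number of points on level sets of a Lipschitz function is bounded by length

For a `1`-Lipschitz `f` the upper integral of the number of points of `S` on the level sets of `f`
is at most the one dimensional Hausdorff measure of `S` (no measurability of `S` is needed).
-/

namespace Vale.Agent.P128.Connected

open MeasureTheory Filter Metric Set
open scoped Topology ENNReal NNReal

/-- A countable cover of mesh `δ` with total diameter at most `H¹ S + e`. -/
lemma exists_cover_length {X : Type*} [EMetricSpace X] [MeasurableSpace X] [BorelSpace X]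
    {S : Set X} (hS : Measure.hausdorffMeasure 1 S ≠ ⊤) {δ e : ℝ≥0∞} (hδ : 0 < δ) (he : e ≠ 0) :
    ∃ t : ℕ → Set X, S ⊆ ⋃ i, t i ∧ (∀ i, ediam (t i) ≤ δ) ∧
      ∑' i, ediam (t i) ≤ Measure.hausdorffMeasure 1 S + e := by
  by_contra hcon
  push Not at hcon
  have h : Measure.hausdorffMeasure 1 S + e ≤ Measure.hausdorffMeasure 1 S := by
    conv_rhs => rw [Measure.hausdorffMeasure_apply]
    refine le_iSup₂_of_le δ hδ (le_iInf fun t => le_iInf fun hsub => le_iInf fun ht => ?_)
    refine (hcon t hsub ht).le.trans (ENNReal.tsum_le_tsum fun i => ?_)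
    rcases (t i).eq_empty_or_nonempty with h | h
    · simp [h]
    · simp [h]
  exact absurd h (not_le.2 (ENNReal.lt_add_right hS he))

/-- **Slicing inequality.** -/
theorem lintegral_encard_slice_le {X : Type*} [MetricSpace X] [MeasurableSpace X] [BorelSpace X]
    {f : X → ℝ} (hf : LipschitzWith 1 f) (S : Set X) :
    ∫⁻ r : ℝ, ((S ∩ f ⁻¹' {r}).encard : ℝ≥0∞) ≤ Measure.hausdorffMeasure 1 S := by
  rcases eq_or_ne (Measure.hausdorffMeasure 1 S) ⊤ with hS | hS
  · rw [hS]; exact le_top
  set e : ℕ → ℝ≥0∞ := fun n => ((n : ℝ≥0∞) + 1)⁻¹ with he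
  have he0 : ∀ n, e n ≠ 0 := fun n => by simp [he]
  have het : Tendsto e atTop (𝓝 0) := by
    have h := ENNReal.tendsto_inv_nat_nhds_zero.comp (tendsto_add_atTop_nat 1)
    refine h.congr fun n => ?_
    simp [he]
  choose t ht htd hts using fun n =>
    exists_cover_length hS (δ := e n) (pos_iff_ne_zero.2 (he0 n)) (he0 n)
  set J : ℕ → ℕ → Set ℝ := fun n i => closure (f '' t n i) with hJ
  set F : ℕ → ℝ → ℝ≥0∞ := fun n r => ∑' i, (J n i).indicator 1 r with hF
  have hFm : ∀ n, Measurable (F n) := fun n =>
    Measurable.tsum fun i => measurable_one.indicator isClosed_closure.measurableSet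
  have hFint : ∀ n, ∫⁻ r, F n r ≤ Measure.hausdorffMeasure 1 S + e n := fun n => by
    rw [hF, lintegral_tsum fun i =>
      (measurable_one.indicator isClosed_closure.measurableSet).aemeasurable]
    refine le_trans (ENNReal.tsum_le_tsum fun i => ?_) (hts n)
    rw [lintegral_indicator_one isClosed_closure.measurableSet]
    refine (Real.volume_le_diam _).trans ?_
    rw [Metric.ediam_closure]
    refine (hf.ediam_image_le (t n i)).trans ?_
    simp
  have hpt : ∀ r, ((S ∩ f ⁻¹' {r}).encard : ℝ≥0∞) ≤ liminf (fun n => F n r) atTop := by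
    intro r
    have key : ∀ T : Finset X, ↑T ⊆ S ∩ f ⁻¹' {r} →
        (T.card : ℝ≥0∞) ≤ liminf (fun n => F n r) atTop := by
      intro T hT
      refine le_liminf_of_le (by isBoundedDefault) ?_
      have hsep : ∀ᶠ n in atTop, ∀ x ∈ T, ∀ y ∈ T, x ≠ y → e n < edist x y := by
        refine (eventually_all_finset T).2 fun x _ => (eventually_all_finset T).2 fun y _ => ?_
        by_cases hxy : x = y
        · exact Eventually.of_forall fun n h => absurd hxy h
        · filter_upwards [het.eventually (eventually_lt_nhds (edist_pos.2 hxy))] with n hn _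
          exact hn
      filter_upwards [hsep] with n hn
      have hidx : ∀ x : T, ∃ i, (x : X) ∈ t n i := fun x => mem_iUnion.1 (ht n (hT x.2).1)
      choose idx hi using hidx
      have hinj : Function.Injective idx := by
        intro x y hxy
        by_contra hne
        have h1 := (edist_le_ediam_of_mem (hi x) (hxy ▸ hi y)).trans (htd n (idx x))
        exact absurd h1 (not_le.2 (hn x x.2 y y.2 fun h => hne (Subtype.ext h)))
      calc (T.card : ℝ≥0∞)
          = ∑ x : T, (J n (idx x)).indicator 1 r := by
            rw [Finset.sum_congr rfl fun (x : T) _ => indicator_of_mem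
              (show r ∈ J n (idx x) from subset_closure ⟨x, hi x, (hT x.2).2⟩) 1]
            simp
        _ = ∑ i ∈ Finset.univ.image idx, (J n i).indicator (1 : ℝ → ℝ≥0∞) r :=
            (Finset.sum_image (s := Finset.univ) (g := idx)
              (f := fun i => (J n i).indicator (1 : ℝ → ℝ≥0∞) r) fun a _ b _ h => hinj h).symm
        _ ≤ F n r := ENNReal.sum_le_tsum _
    rcases (S ∩ f ⁻¹' {r}).finite_or_infinite with hfin | hinf
    · have := key hfin.toFinset (by simp)
      rwa [hfin.encard_eq_coe_toFinset_card, ENat.toENNReal_coe]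
    · rw [hinf.encard_eq, ENat.toENNReal_top]
      refine (ENNReal.eq_top_of_forall_nnreal_le fun q => ?_).ge
      obtain ⟨k, hk⟩ := exists_nat_ge q
      obtain ⟨T, hT, hTc⟩ := hinf.exists_subset_card_eq k
      refine le_trans ?_ (key T hT)
      rw [hTc]
      exact_mod_cast hk
  calc ∫⁻ r, ((S ∩ f ⁻¹' {r}).encard : ℝ≥0∞)
      ≤ ∫⁻ r, liminf (fun n => F n r) atTop := lintegral_mono hpt
    _ ≤ liminf (fun n => ∫⁻ r, F n r) atTop := lintegral_liminf_le hFm
    _ ≤ liminf (fun n => Measure.hausdorffMeasure 1 S + e n) atTop :=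
        liminf_le_liminf (Eventually.of_forall hFint)
    _ = Measure.hausdorffMeasure 1 S := by
        have h := (tendsto_const_nhds (x := Measure.hausdorffMeasure 1 S)).add het
        rw [add_zero] at h
        exact h.liminf_eq

/-- The circles centred at `c` meet `S` in at most `H¹ S` points on average. -/
theorem lintegral_encard_sphere_le {X : Type*} [MetricSpace X] [MeasurableSpace X] [BorelSpace X]
    (c : X) (S : Set X) :
    ∫⁻ r : ℝ, ((S ∩ sphere c r).encard : ℝ≥0∞) ≤ Measure.hausdorffMeasure 1 S :=
  lintegral_encard_slice_le (LipschitzWith.dist_left c) S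

end Vale.Agent.P128.Connected
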