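import Vale.Agent.P128.Connected.Identity

/-!
# Where the weight is one, the cross field is divergence free
-/

namespace Vale.Agent.P128.Connected

open MeasureTheory Filter Metric Set Islands
open scoped Topology ENNReal NNReal ContDiff

variable {u χ : ℂ → ℝ} {K K₁ K₂ : Set ℂ} {ρ : ℝ} {S P : ℂ → ℂ}

/-- The two components of a cross field. -/
noncomputable def crossField (χ : ℂ → ℝ) (σ : ℝ) (a b c d g : ℂ → ℝ) (x : ℂ) : ℂ :=
  ⟨χ x * a x - (1 - χ x) * c x + σ * (fderiv ℝ χ x Complex.I * g x),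
    χ x * b x - (1 - χ x) * d x - σ * (fderiv ℝ χ x 1 * g x)⟩

/-- A divergence free cross field which is smooth across `K` is orthogonal to test gradients. -/
lemma crossField_orth (h : Split u K K₁ K₂ χ) {φ : ℂ → ℝ} (hφ : IsTest (ball 0 ρ) φ) (σ : ℝ)
    {a b c d g : ℂ → ℝ}
    (ha : ContDiffOn ℝ ∞ a (ball 0 ρ \ K₂)) (hb : ContDiffOn ℝ ∞ b (ball 0 ρ \ K₂))
    (hc : ContDiffOn ℝ ∞ c (ball 0 ρ \ K₁)) (hd : ContDiffOn ℝ ∞ d (ball 0 ρ \ K₁))
    (hg : ContDiffOn ℝ ∞ g (ball 0 ρ \ K))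
    (hab : ∀ x ∈ ball (0 : ℂ) ρ \ K₂,
      HasDerivAt (fun t : ℝ => b (x + t • Complex.I)) (-fderiv ℝ a x 1) 0)
    (hcd : ∀ x ∈ ball (0 : ℂ) ρ \ K₁,
      HasDerivAt (fun t : ℝ => d (x + t • Complex.I)) (-fderiv ℝ c x 1) 0)
    (hdiv : ∀ x ∈ ball (0 : ℂ) ρ \ K, fderiv ℝ χ x 1 * (a x + c x) +
      fderiv ℝ χ x Complex.I * (b x + d x) + σ * (fderiv ℝ χ x Complex.I * fderiv ℝ g x 1 -
        fderiv ℝ χ x 1 * fderiv ℝ g x Complex.I) = 0) :
    Integrable (fun x => dot (crossField χ σ a b c d g x) (grad φ x)) ∧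
      ∫ x, dot (crossField χ σ a b c d g x) (grad φ x) = 0 := by
  set Φ₁ : ℂ → ℝ := fun x =>
    φ x * (χ x * a x - (1 - χ x) * c x + σ * (fderiv ℝ χ x Complex.I * g x)) with hΦ₁
  set Φ₂ : ℂ → ℝ := fun x =>
    φ x * (χ x * b x - (1 - χ x) * d x - σ * (fderiv ℝ χ x 1 * g x)) with hΦ₂
  have hz : ∀ x, x ∉ tsupport φ → Φ₁ x = 0 ∧ Φ₂ x = 0 := fun x hx => by
    simp [hΦ₁, hΦ₂, image_eq_zero_of_notMem_tsupport hx]
  have hsub₁ := sdiff_subset_sdiff_right (s := ball (0 : ℂ) ρ) h.subset₁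
  have hsub₂ := sdiff_subset_sdiff_right (s := ball (0 : ℂ) ρ) h.subset₂
  have hφo := fun (O : Set ℂ) => hφ.1.contDiffOn (s := O)
  have hχc := h.smooth.contDiffOn (s := ball (0 : ℂ) ρ \ K)
  have hμc := (contDiff_const (c := (1 : ℝ))).sub h.smooth |>.contDiffOn (s := ball (0 : ℂ) ρ \ K)
  have hxc := fun v => (contDiff_fderiv_apply h.smooth v).contDiffOn (s := ball (0 : ℂ) ρ \ K)
  have hσ : ContDiffOn ℝ ∞ (fun _ : ℂ => σ) (ball 0 ρ \ K) := contDiffOn_const
  have s₁ : ContDiff ℝ ∞ Φ₁ :=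
    contDiff_glue h (isClosed_tsupport φ) hφ.2.2 (fun x hx => (hz x hx).1)
      ((hφo _).mul (((hχc.mul (ha.mono hsub₂)).sub (hμc.mul (hc.mono hsub₁))).add
        (hσ.mul ((hxc _).mul hg))))
      (F₁ := fun x => φ x * a x) ((hφo _).mul ha)
      (F₂ := fun x => -(φ x * c x)) ((hφo _).mul hc).neg
      (fun y hy hy' => by simp [hΦ₁, hy, hy']) (fun y hy hy' => by simp [hΦ₁, hy, hy'])
  have s₂ : ContDiff ℝ ∞ Φ₂ :=
    contDiff_glue h (isClosed_tsupport φ) hφ.2.2 (fun x hx => (hz x hx).2)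
      ((hφo _).mul (((hχc.mul (hb.mono hsub₂)).sub (hμc.mul (hd.mono hsub₁))).sub
        (hσ.mul ((hxc _).mul hg))))
      (F₁ := fun x => φ x * b x) ((hφo _).mul hb)
      (F₂ := fun x => -(φ x * d x)) ((hφo _).mul hd).neg
      (fun y hy hy' => by simp [hΦ₂, hy, hy']) (fun y hy hy' => by simp [hΦ₂, hy, hy'])
  obtain ⟨i₁, z₁⟩ := integral_fderiv_eq_zero s₁
    (HasCompactSupport.intro hφ.2.1.isCompact fun x hx => (hz x hx).1) 1
  obtain ⟨i₂, z₂⟩ := integral_fderiv_eq_zero s₂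
    (HasCompactSupport.intro hφ.2.1.isCompact fun x hx => (hz x hx).2) Complex.I
  have hpt : (fun x => dot (crossField χ σ a b c d g x) (grad φ x)) =ᵐ[volume]
      fun x => fderiv ℝ Φ₁ x 1 + fderiv ℝ Φ₂ x Complex.I := by
    filter_upwards [measure_eq_zero_iff_ae_notMem.1 h.reg.null] with x hx
    by_cases hxT : x ∈ tsupport φ
    · have hxB := hφ.2.2 hxT
      have hm : x ∈ ball (0 : ℂ) ρ \ K := ⟨hxB, hx⟩
      have hO := isOpen_ball (x := (0 : ℂ)) (ε := ρ)
      have da : DifferentiableAt ℝ a x := ((ha x (hsub₂ hm)).contDiffAt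
        ((hO.sdiff h.closed₂).mem_nhds (hsub₂ hm))).differentiableAt (by simp)
      have dc : DifferentiableAt ℝ c x := ((hc x (hsub₁ hm)).contDiffAt
        ((hO.sdiff h.closed₁).mem_nhds (hsub₁ hm))).differentiableAt (by simp)
      have dg : DifferentiableAt ℝ g x := ((hg x hm).contDiffAt
        ((hO.sdiff h.reg.isClosed).mem_nhds hm)).differentiableAt (by simp)
      have dφ := hφ.1.differentiable (by simp) x
      have dχ := h.smooth.differentiable (by simp) x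
      have du : HasDerivAt (fun t : ℝ => fderiv ℝ χ (x + t • (1 : ℂ)) Complex.I)
          (fderiv ℝ (fun y => fderiv ℝ χ y Complex.I) x 1) 0 :=
        hasDerivAt_line ((contDiff_fderiv_apply h.smooth _).differentiable (by simp) x) 1
      have dv : HasDerivAt (fun t : ℝ => fderiv ℝ χ (x + t • Complex.I) 1)
          (fderiv ℝ (fun y => fderiv ℝ χ y Complex.I) x 1) 0 := by
        rw [fderiv_comm_apply (φ := χ) (x := x)
          (h.smooth.contDiffAt.of_le (WithTop.coe_le_coe.2 le_top)) Complex.I 1]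
        exact hasDerivAt_line ((contDiff_fderiv_apply h.smooth _).differentiable (by simp) x) _
      have key := cross_identity (φ x) (fderiv ℝ φ x 1) (fderiv ℝ φ x Complex.I) (χ x)
        (fderiv ℝ χ x 1) (fderiv ℝ χ x Complex.I)
        (fderiv ℝ (fun y => fderiv ℝ χ y Complex.I) x 1) (a x) (b x) (fderiv ℝ a x 1) (c x) (d x)
        (fderiv ℝ c x 1) (g x) (fderiv ℝ g x 1) (fderiv ℝ g x Complex.I) σ
        (by simp) (by simp) (hasDerivAt_line dφ 1) (hasDerivAt_line dφ _)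
        (hasDerivAt_line dχ 1) (hasDerivAt_line dχ _) du dv (hasDerivAt_line da 1)
        (hab x (hsub₂ hm)) (hasDerivAt_line dc 1) (hcd x (hsub₁ hm)) (hasDerivAt_line dg 1)
        (hasDerivAt_line dg _) (hasDerivAt_line (s₁.differentiable (by simp) x) 1)
        (hasDerivAt_line (s₂.differentiable (by simp) x) Complex.I) (hdiv x hm)
      rw [key]
      simp [crossField, dot, grad]
      ring
    · have e : ∀ {F : ℂ → ℝ}, (∀ y ∉ tsupport φ, F y = 0) → ∀ v, fderiv ℝ F x v = 0 := by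
        intro F hF v
        rw [Filter.EventuallyEq.fderiv_eq (f := fun _ => (0 : ℝ))]
        · simp
        · filter_upwards [(isClosed_tsupport φ).isOpen_compl.mem_nhds hxT] with y hy using hF y hy
      rw [e (F := Φ₁) fun y hy => (hz y hy).1, e (F := Φ₂) fun y hy => (hz y hy).2,
        grad_eq_zero_of_notMem_tsupport hxT]
      simp [dot]
  refine ⟨(i₁.fun_add i₂).congr hpt.symm, ?_⟩
  rw [integral_congr_ae hpt, integral_add i₁ i₂, z₁, z₂, add_zero]

theorem crossGoal : CrossGoal := by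
  intro u K K₁ K₂ χ ρ S P ψ φ₁ φ₂ h hS hP hsum _ hψ hφ₁ hφ₂
  have hO₁ := isOpen_ball (x := (0 : ℂ)) (ε := ρ).sdiff h.closed₁
  have hO₂ := isOpen_ball (x := (0 : ℂ)) (ε := ρ).sdiff h.closed₂
  have hO := isOpen_ball (x := (0 : ℂ)) (ε := ρ).sdiff h.reg.isClosed
  have hsub₁ := sdiff_subset_sdiff_right (s := ball (0 : ℂ) ρ) h.subset₁
  have hsub₂ := sdiff_subset_sdiff_right (s := ball (0 : ℂ) ρ) h.subset₂
  have hin : interior {x | ψ x = 1} ⊆ ball 0 ρ := fun x hx => hψ.2.2 (subset_tsupport _ (by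
    have h1 : x ∈ {x | ψ x = 1} := interior_subset hx
    simp only [Set.mem_ofPred_eq] at h1
    simp [h1]))
  obtain ⟨cp₁, cp₂, cpa, cpb⟩ := contDiffOn_parts hO₂ hP
  obtain ⟨cs₁, cs₂, csa, csb⟩ := contDiffOn_parts hO₁ hS
  have hneg : ∀ (Q : ℂ → ℂ) (O : Set ℂ), IsOpen O → IsPotentialField O Q → ∀ x ∈ O,
      HasDerivAt (fun t : ℝ => -dA Q (x + t • Complex.I)) (-fderiv ℝ (dB Q) x 1) 0 := by
    intro Q O hQO hQ x hx
    obtain ⟨-, -, -, -, -, j6, j7, -⟩ := jet hQO hQ hx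
    rw [show fderiv ℝ (dB Q) x 1 = fderiv ℝ (dA Q) x Complex.I from
      (hasDerivAt_line ((((contDiffOn_parts hQO hQ).2.2.2 x hx).contDiffAt
        (hQO.mem_nhds hx)).differentiableAt (by simp)) 1).unique j7]
    exact j6.neg
  obtain ⟨i₁, z₁⟩ := crossField_orth h (ρ := ρ) (hφ₁.mono hin) (-1) cpa cpb csa csb
    ((cp₂.mono hsub₂).add (cs₂.mono hsub₁))
    (fun x hx => (jet hO₂ hP hx).2.2.2.2.2.2.2) (fun x hx => (jet hO₁ hS hx).2.2.2.2.2.2.2)
    (fun x hx => by
      obtain ⟨-, -, a3, a4, -⟩ := jet hO₂ hP (hsub₂ hx)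
      obtain ⟨-, -, b3, b4, -⟩ := jet hO₁ hS (hsub₁ hx)
      have dg : DifferentiableAt ℝ (fun y => (P y).im + (S y).im) x :=
        ((((cp₂.mono hsub₂).add (cs₂.mono hsub₁)) x hx).contDiffAt
          (hO.mem_nhds hx)).differentiableAt (by simp)
      rw [(hasDerivAt_line dg 1).unique (a3.fun_add b3),
        (hasDerivAt_line dg Complex.I).unique (a4.fun_add b4)]
      ring)
  obtain ⟨i₂, z₂⟩ := crossField_orth h (ρ := ρ) (hφ₂.mono hin) 1 cpb cpa.neg csb csa.neg
    ((cp₁.mono hsub₂).add (cs₁.mono hsub₁))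
    (hneg P _ hO₂ hP) (hneg S _ hO₁ hS)
    (fun x hx => by
      obtain ⟨a1, a2, -⟩ := jet hO₂ hP (hsub₂ hx)
      obtain ⟨b1, b2, -⟩ := jet hO₁ hS (hsub₁ hx)
      have dg : DifferentiableAt ℝ (fun y => (P y).re + (S y).re) x :=
        ((((cp₁.mono hsub₂).add (cs₁.mono hsub₁)) x hx).contDiffAt
          (hO.mem_nhds hx)).differentiableAt (by simp)
      rw [(hasDerivAt_line dg 1).unique (a1.fun_add b1),
        (hasDerivAt_line dg Complex.I).unique (a2.fun_add b2)]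
      ring)
  have hae := measure_eq_zero_iff_ae_notMem.1 h.reg.null
  have hpt : (fun x => dot (crossRe (grad u x) (grad (fun y => ψ y * χ y) x)
        (grad (trialRe u χ ψ S) x)) (grad φ₁ x) +
      dot (crossIm (grad u x) (grad (fun y => ψ y * χ y) x)
        (grad (trialIm u χ ψ S) x)) (grad φ₂ x)) =ᵐ[volume] fun x =>
      dot (crossField χ (-1) (dA P) (dB P) (dA S) (dB S)
          (fun y => (P y).im + (S y).im) x) (grad φ₁ x) +
        dot (crossField χ 1 (dB P) (fun y => -dA P y) (dB S) (fun y => -dA S y)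
          (fun y => (P y).re + (S y).re) x) (grad φ₂ x) := by
    filter_upwards [hae] with x hx
    by_cases hxi : x ∈ interior {x | ψ x = 1}
    · have hxB := hin hxi
      have hm : x ∈ ball (0 : ℂ) ρ \ K := ⟨hxB, hx⟩
      obtain ⟨a1, a2, a3, a4, -⟩ := jet hO₂ hP (hsub₂ hm)
      obtain ⟨b1, b2, b3, b4, -⟩ := jet hO₁ hS (hsub₁ hm)
      have dψ := hψ.1.differentiable (by simp) x
      have dχ := h.smooth.differentiable (by simp) x
      have hψ1 : ψ =ᶠ[𝓝 x] fun _ => (1 : ℝ) := by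
        filter_upwards [isOpen_interior.mem_nhds hxi] with y hy
        exact interior_subset (s := {x | ψ x = 1}) hy
      have hψd : fderiv ℝ ψ x = 0 := by rw [hψ1.fderiv_eq]; simp
      have hψv : ψ x = 1 := hψ1.self_of_nhds
      have hn := h.reg.isClosed.isOpen_compl.mem_nhds hx
      have e₁ : grad (trialRe u χ ψ S) x =
          grad (trialExt χ ψ (fun y => (P y).re) (fun y => (S y).re)) x :=
        grad_congr (by filter_upwards [hn] with y hy
          using (trial_eq (χ := χ) ψ hψ.2.2 hsum hy).1)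
      have e₂ : grad (trialIm u χ ψ S) x =
          grad (trialExt χ ψ (fun y => (P y).im) (fun y => (S y).im)) x :=
        grad_congr (by filter_upwards [hn] with y hy
          using (trial_eq (χ := χ) ψ hψ.2.2 hsum hy).2)
      rw [e₁, e₂,
        grad_trialExt dψ dχ a1 a2 b1 b2
          ((contDiff_trialExt h hψ cp₁ cs₁).1.differentiable (by simp) x),
        grad_trialExt dψ dχ a3 a4 b3 b4
          ((contDiff_trialExt h hψ cp₂ cs₂).1.differentiable (by simp) x),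
        grad_mul dψ dχ, ← hsum x hm]
      simp [crossRe, crossIm, crossField, dot, grad, hψd, hψv]
      ring
    · have e : ∀ {φ : ℂ → ℝ}, IsTest (interior {x | ψ x = 1}) φ → grad φ x = 0 := fun hφ =>
        grad_eq_zero_of_notMem_tsupport fun hm => hxi (hφ.2.2 hm)
      simp [e hφ₁, e hφ₂, dot]
  rw [integral_congr_ae hpt, integral_add i₁ i₂, z₁, z₂, add_zero]

end Vale.Agent.P128.Connected
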