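import Vale.Agent.P128.Islands.Regular
import Vale.Agent.P128.Islands.FieldInterface

/-!
# Connectedness of the singular set of a global minimiser: definitions
-/

namespace Vale.Agent.P128.Connected

open MeasureTheory Filter Metric Set Islands
open scoped Topology ENNReal NNReal ContDiff

/-- The theorem to prove: a singular set which does not disconnect the plane is connected. -/
def ConnectedGoal : Prop :=
  ∀ (u : ℂ → ℝ) (G : ℂ → ℂ) (K : Set ℂ), IsGlobalMinimizer u G K → IsReduced K →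
    IsPreconnected Kᶜ → IsPreconnected K

/-- Up to a null set, `S` splits into small pieces with all chords in a thin cone. -/
def ConePieces (S : Set ℂ) : Prop :=
  ∀ η > (0 : ℝ), ∀ d > (0 : ℝ), ∃ (E : ℕ → Set ℂ) (τ : ℕ → ℂ),
    (∀ i, MeasurableSet (E i)) ∧ Pairwise (Function.onFun Disjoint E) ∧ (∀ i, ‖τ i‖ = 1) ∧
    (∀ i, E i ⊆ S) ∧
    (∀ i, ∀ x ∈ E i, ∀ y ∈ E i,
      ‖y - x‖ ≤ d ∧ ‖(y - x) - dot (y - x) (τ i) • τ i‖ ≤ η * ‖y - x‖) ∧
    Measure.hausdorffMeasure 1 (S \ ⋃ i, E i) = 0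

/-- Length and energy in a disk are at most the length of its circle. -/
def HasDensityBound (u : ℂ → ℝ) (K : Set ℂ) : Prop :=
  ∀ (c : ℂ) (r : ℝ), 0 ≤ r →
    Measure.hausdorffMeasure 1 (K ∩ ball c r) ≤ ENNReal.ofReal (2 * Real.pi * r) ∧
      ∫ x in ball c r, ‖grad u x‖ ^ 2 ≤ 2 * Real.pi * r

/-- `K` is split into two closed parts by the cutoff `χ`. -/
structure Split (u : ℂ → ℝ) (K K₁ K₂ : Set ℂ) (χ : ℂ → ℝ) : Prop where
  reg : Reg u K
  density : HasDensityBound u K
  union : K₁ ∪ K₂ = K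
  closed₁ : IsClosed K₁
  closed₂ : IsClosed K₂
  smooth : ContDiff ℝ ∞ χ
  range : ∀ x, χ x ∈ Icc (0 : ℝ) 1
  one : ∀ᶠ x in 𝓝ˢ K₁, χ x = 1
  zero : ∀ᶠ x in 𝓝ˢ K₂, χ x = 0

/-- Radii of the layers. -/
noncomputable def rad (k : ℕ) : ℝ := 4 ^ k

/-- On each disk a splitting of `grad u` into a field which is free of `K₂` (`P`) and one which
is free of `K₁` (`S`), the latter of linear size in `L²`. -/
structure Layers (u : ℂ → ℝ) (K K₁ K₂ : Set ℂ) (C : ℝ) (S P : ℕ → ℂ → ℂ) : Prop where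
  potS : ∀ k, IsPotentialField (ball 0 (2 * rad k) \ K₁) (S k)
  potP : ∀ k, IsPotentialField (ball 0 (2 * rad k) \ K₂) (P k)
  sum : ∀ k, ∀ x ∈ ball (0 : ℂ) (2 * rad k) \ K, S k x + P k x = grad u x
  memLp : ∀ k, MemLp (S k) 2 (volume.restrict (ball 0 (2 * rad k)))
  bound : ∀ k, ∫ x in ball (0 : ℂ) (2 * rad k), ‖S k x‖ ^ 2 ≤ C * rad k ^ 2

/-- The second order coefficient of the energy, summed over the two translations `1` and `I`,
for the weighted translation with gradient of weight `b` and corrections with gradients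
`X₁`, `X₂`. -/
noncomputable def secVal (G b X₁ X₂ : ℂ) : ℝ :=
  dot X₁ X₁ + dot X₂ X₂ + 2 * (b.re * dot G X₁ + b.im * dot G X₂) -
    2 * (G.re * dot b X₁ + G.im * dot b X₂) - 2 * dot b G * (X₁.re + X₂.im) +
    dot b b * dot G G

/-- The field paired with a further correction of the first translation. -/
noncomputable def crossRe (G b X₁ : ℂ) : ℂ := X₁ + b.re • G - G.re • b - ((dot b G : ℝ) : ℂ)

/-- The field paired with a further correction of the second translation. -/
noncomputable def crossIm (G b X₂ : ℂ) : ℂ := X₂ + b.im • G - G.im • b - dot b G • Complex.I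

lemma secVal_add (G b X₁ X₂ Y₁ Y₂ : ℂ) :
    secVal G b (X₁ + Y₁) (X₂ + Y₂) = secVal G b X₁ X₂ +
      2 * (dot (crossRe G b X₁) Y₁ + dot (crossIm G b X₂) Y₂) + (dot Y₁ Y₁ + dot Y₂ Y₂) := by
  simp [secVal, crossRe, crossIm, dot]
  ring

/-- The second variation of the energy. -/
noncomputable def secondVar (u ζ U₁ U₂ : ℂ → ℝ) : ℝ :=
  ∫ x, secVal (grad u x) (grad ζ x) (grad U₁ x) (grad U₂ x)

/-- The trial correction of the first translation. -/
noncomputable def trialRe (u χ ψ : ℂ → ℝ) (S : ℂ → ℂ) (x : ℂ) : ℝ :=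
  ψ x * (χ x * (grad u x).re - (S x).re)

/-- The trial correction of the second translation. -/
noncomputable def trialIm (u χ ψ : ℂ → ℝ) (S : ℂ → ℂ) (x : ℂ) : ℝ :=
  ψ x * (χ x * (grad u x).im - (S x).im)

/-- An admissible variation living near the part where `χ = 1`. -/
structure IsNearVariation (K : Set ℂ) (χ φ : ℂ → ℝ) : Prop where
  smooth : ContDiffOn ℝ ∞ φ Kᶜ
  compact : HasCompactSupport φ
  near : tsupport φ ⊆ interior {x | χ x = 1}
  memLp : MemLp (grad φ) 2

end Vale.Agent.P128.Connected
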