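import Vale.Agent.P128.Connected.Limit
import Vale.Agent.P128.Connected.OffCritical
import Vale.Agent.P128.Connected.Removal

/-!
# The closing modules: `limitGoal`, `offCriticalGoal`, `removalGoal`
-/
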