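import Vale.Agent.P128.Connected.Defs

/-!
# The algebra behind the identity for the second variation
-/

namespace Vale.Agent.P128.Connected

open MeasureTheory Filter Metric Set Islands
open scoped Topology ENNReal NNReal ContDiff

/-- First component of the flux. -/
def flux₁ (ψ χ χy p₁ p₂ a b s₁ s₂ c d : ℝ) : ℝ :=
  ψ * ψ * (χ * χ * (p₁ * a + p₂ * b) - χ * (1 - χ) * (a * s₁ + p₁ * c + (b * s₂ + p₂ * d)) +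
    (1 - χ) * (1 - χ) * (s₁ * c + s₂ * d) - (p₁ * s₂ - p₂ * s₁) * χy)

/-- Second component of the flux. -/
def flux₂ (ψ χ χx p₁ p₂ a b s₁ s₂ c d : ℝ) : ℝ :=
  ψ * ψ * (χ * χ * (p₁ * b - p₂ * a) - χ * (1 - χ) * (b * s₁ + p₁ * d - (a * s₂ + p₂ * c)) +
    (1 - χ) * (1 - χ) * (s₁ * d - s₂ * c) + (p₁ * s₂ - p₂ * s₁) * χx)

/-- The divergence of the flux is the excess of the second variation, in terms of jets at a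
point: `ψ' = ψx + i ψy`, the fields are `P = p₁ + i p₂`, `S = s₁ + i s₂`. -/
lemma flux_identity (ψ ψx ψy χ χx χy χxy p₁ p₂ a b ax ay s₁ s₂ c d cx cy : ℝ)
    {f₁ f₂ : ℝ → ℝ} {F₁ F₂ : ℝ}
    {ψ₁ ψ₂ χ₁ χ₂ u₁ v₂ p₁₁ p₁₂ p₂₁ p₂₂ a₁ a₂ b₁ b₂ s₁₁ s₁₂ s₂₁ s₂₂ c₁ c₂ d₁ d₂ : ℝ → ℝ}
    (hf₁ : f₁ = fun t => flux₁ (ψ₁ t) (χ₁ t) (u₁ t) (p₁₁ t) (p₂₁ t) (a₁ t) (b₁ t) (s₁₁ t)
      (s₂₁ t) (c₁ t) (d₁ t))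
    (hf₂ : f₂ = fun t => flux₂ (ψ₂ t) (χ₂ t) (v₂ t) (p₁₂ t) (p₂₂ t) (a₂ t) (b₂ t) (s₁₂ t)
      (s₂₂ t) (c₂ t) (d₂ t))
    (e0 : ψ₁ 0 = ψ ∧ ψ₂ 0 = ψ ∧ χ₁ 0 = χ ∧ χ₂ 0 = χ ∧ u₁ 0 = χy ∧ v₂ 0 = χx)
    (eP : p₁₁ 0 = p₁ ∧ p₁₂ 0 = p₁ ∧ p₂₁ 0 = p₂ ∧ p₂₂ 0 = p₂ ∧ a₁ 0 = a ∧ a₂ 0 = a ∧
      b₁ 0 = b ∧ b₂ 0 = b)
    (eS : s₁₁ 0 = s₁ ∧ s₁₂ 0 = s₁ ∧ s₂₁ 0 = s₂ ∧ s₂₂ 0 = s₂ ∧ c₁ 0 = c ∧ c₂ 0 = c ∧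
      d₁ 0 = d ∧ d₂ 0 = d)
    (hψ₁ : HasDerivAt ψ₁ ψx 0) (hψ₂ : HasDerivAt ψ₂ ψy 0)
    (hχ₁ : HasDerivAt χ₁ χx 0) (hχ₂ : HasDerivAt χ₂ χy 0)
    (hu₁ : HasDerivAt u₁ χxy 0) (hv₂ : HasDerivAt v₂ χxy 0)
    (hp₁₁ : HasDerivAt p₁₁ a 0) (hp₁₂ : HasDerivAt p₁₂ b 0)
    (hp₂₁ : HasDerivAt p₂₁ b 0) (hp₂₂ : HasDerivAt p₂₂ (-a) 0)
    (ha₁ : HasDerivAt a₁ ax 0) (ha₂ : HasDerivAt a₂ ay 0)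
    (hb₁ : HasDerivAt b₁ ay 0) (hb₂ : HasDerivAt b₂ (-ax) 0)
    (hs₁₁ : HasDerivAt s₁₁ c 0) (hs₁₂ : HasDerivAt s₁₂ d 0)
    (hs₂₁ : HasDerivAt s₂₁ d 0) (hs₂₂ : HasDerivAt s₂₂ (-c) 0)
    (hc₁ : HasDerivAt c₁ cx 0) (hc₂ : HasDerivAt c₂ cy 0)
    (hd₁ : HasDerivAt d₁ cy 0) (hd₂ : HasDerivAt d₂ (-cx) 0)
    (hF₁ : HasDerivAt f₁ F₁ 0) (hF₂ : HasDerivAt f₂ F₂ 0) :
    secVal ⟨p₁ + s₁, p₂ + s₂⟩ ⟨ψx * χ + ψ * χx, ψy * χ + ψ * χy⟩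
        ⟨ψx * (χ * p₁ - (1 - χ) * s₁) + ψ * (χx * (p₁ + s₁) + χ * a - (1 - χ) * c),
          ψy * (χ * p₁ - (1 - χ) * s₁) + ψ * (χy * (p₁ + s₁) + χ * b - (1 - χ) * d)⟩
        ⟨ψx * (χ * p₂ - (1 - χ) * s₂) + ψ * (χx * (p₂ + s₂) + χ * b - (1 - χ) * d),
          ψy * (χ * p₂ - (1 - χ) * s₂) + ψ * (χy * (p₂ + s₂) + χ * (-a) - (1 - χ) * (-c))⟩ =
      (ψx ^ 2 + ψy ^ 2) * (s₁ ^ 2 + s₂ ^ 2) + F₁ + F₂ := by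
  obtain ⟨z1, z2, z3, z4, z5, z6⟩ := e0
  obtain ⟨z7, z8, z9, z10, z11, z12, z13, z14⟩ := eP
  obtain ⟨z15, z16, z17, z18, z19, z20, z21, z22⟩ := eS
  have h1 : HasDerivAt f₁ _ 0 := hf₁ ▸
    (hψ₁.fun_mul hψ₁).fun_mul
      ((((hχ₁.fun_mul hχ₁).fun_mul ((hp₁₁.fun_mul ha₁).fun_add (hp₂₁.fun_mul hb₁))).fun_sub
        ((hχ₁.fun_mul (hχ₁.const_sub 1)).fun_mul (((ha₁.fun_mul hs₁₁).fun_add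
          (hp₁₁.fun_mul hc₁)).fun_add ((hb₁.fun_mul hs₂₁).fun_add (hp₂₁.fun_mul hd₁))))).fun_add
        (((hχ₁.const_sub 1).fun_mul (hχ₁.const_sub 1)).fun_mul
          ((hs₁₁.fun_mul hc₁).fun_add (hs₂₁.fun_mul hd₁))) |>.fun_sub
        (((hp₁₁.fun_mul hs₂₁).fun_sub (hp₂₁.fun_mul hs₁₁)).fun_mul hu₁))
  have h2 : HasDerivAt f₂ _ 0 := hf₂ ▸
    (hψ₂.fun_mul hψ₂).fun_mul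
      ((((hχ₂.fun_mul hχ₂).fun_mul ((hp₁₂.fun_mul hb₂).fun_sub (hp₂₂.fun_mul ha₂))).fun_sub
        ((hχ₂.fun_mul (hχ₂.const_sub 1)).fun_mul (((hb₂.fun_mul hs₁₂).fun_add
          (hp₁₂.fun_mul hd₂)).fun_sub ((ha₂.fun_mul hs₂₂).fun_add (hp₂₂.fun_mul hc₂))))).fun_add
        (((hχ₂.const_sub 1).fun_mul (hχ₂.const_sub 1)).fun_mul
          ((hs₁₂.fun_mul hd₂).fun_sub (hs₂₂.fun_mul hc₂))) |>.fun_add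
        (((hp₁₂.fun_mul hs₂₂).fun_sub (hp₂₂.fun_mul hs₁₂)).fun_mul hv₂))
  rw [hF₁.unique h1, hF₂.unique h2]
  simp only [secVal, dot, z1, z2, z3, z4, z5, z6, z7, z8, z9, z10, z11, z12, z13, z14, z15, z16,
    z17, z18, z19, z20, z21, z22]
  ring

/-- The cross field of a translation has vanishing divergence where the weight is one. -/
lemma cross_identity (φ φx φy χ χx χy χxy a b ax c d cx g gx gy : ℝ) (σ : ℝ)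
    {φ₁ φ₂ χ₁ χ₂ u₁ v₂ a₁ b₂ c₁ d₂ g₁ g₂ : ℝ → ℝ} {F₁ F₂ : ℝ}
    (e0 : φ₁ 0 = φ ∧ φ₂ 0 = φ ∧ χ₁ 0 = χ ∧ χ₂ 0 = χ ∧ u₁ 0 = χy ∧ v₂ 0 = χx)
    (e1 : a₁ 0 = a ∧ b₂ 0 = b ∧ c₁ 0 = c ∧ d₂ 0 = d ∧ g₁ 0 = g ∧ g₂ 0 = g)
    (hφ₁ : HasDerivAt φ₁ φx 0) (hφ₂ : HasDerivAt φ₂ φy 0)
    (hχ₁ : HasDerivAt χ₁ χx 0) (hχ₂ : HasDerivAt χ₂ χy 0)
    (hu₁ : HasDerivAt u₁ χxy 0) (hv₂ : HasDerivAt v₂ χxy 0)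
    (ha₁ : HasDerivAt a₁ ax 0) (hb₂ : HasDerivAt b₂ (-ax) 0)
    (hc₁ : HasDerivAt c₁ cx 0) (hd₂ : HasDerivAt d₂ (-cx) 0)
    (hg₁ : HasDerivAt g₁ gx 0) (hg₂ : HasDerivAt g₂ gy 0)
    (hF₁ : HasDerivAt (fun t => φ₁ t * (χ₁ t * a₁ t - (1 - χ₁ t) * c₁ t + σ * (u₁ t * g₁ t))) F₁ 0)
    (hF₂ : HasDerivAt (fun t => φ₂ t * (χ₂ t * b₂ t - (1 - χ₂ t) * d₂ t - σ * (v₂ t * g₂ t))) F₂ 0)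
    (hdiv : χx * (a + c) + χy * (b + d) + σ * (χy * gx - χx * gy) = 0) :
    F₁ + F₂ = φx * (χ * a - (1 - χ) * c + σ * (χy * g)) +
      φy * (χ * b - (1 - χ) * d - σ * (χx * g)) := by
  obtain ⟨z1, z2, z3, z4, z5, z6⟩ := e0
  obtain ⟨z7, z8, z9, z10, z11, z12⟩ := e1
  rw [hF₁.unique (hφ₁.fun_mul (((hχ₁.fun_mul ha₁).fun_sub ((hχ₁.const_sub 1).fun_mul hc₁)).fun_add
      ((hu₁.fun_mul hg₁).const_mul σ))),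
    hF₂.unique (hφ₂.fun_mul (((hχ₂.fun_mul hb₂).fun_sub ((hχ₂.const_sub 1).fun_mul hd₂)).fun_sub
      ((hv₂.fun_mul hg₂).const_mul σ)))]
  simp only [z1, z2, z3, z4, z5, z6, z7, z8, z9, z10, z11, z12]
  linear_combination φ * hdiv

end Vale.Agent.P128.Connected
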