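import Vale.Agent.P128.Connected.Defs

/-!
# Connectedness of the singular set of a global minimiser: module statements
-/

namespace Vale.Agent.P128.Connected

open MeasureTheory Filter Metric Set Islands
open scoped Topology ENNReal NNReal ContDiff

/-- Circle competitor. -/
def DensityGoal : Prop :=
  ∀ (u : ℂ → ℝ) (K : Set ℂ), Reg u K → HasDensityBound u K

/-- A continuum of finite length is the image of a Lipschitz curve. -/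
def ContinuumGoal : Prop :=
  ∀ J : Set ℂ, IsCompact J → IsPreconnected J → J.Nonempty →
    Measure.hausdorffMeasure 1 J ≠ ⊤ →
    ∃ (γ : ℝ → ℂ) (C : ℝ≥0), LipschitzWith C γ ∧ γ '' Icc 0 1 = J

/-- The image of a Lipschitz curve has cone pieces. -/
def CurvePiecesGoal : Prop :=
  ∀ (γ : ℝ → ℂ) (C : ℝ≥0), LipschitzWith C γ → ConePieces (γ '' Icc 0 1)

/-- Cone pieces pass to a measurable part of a finite union. -/
def PiecesUnionGoal : Prop :=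
  ∀ (F : Finset (Set ℂ)) (S : Set ℂ), (∀ J ∈ F, ConePieces J ∧ MeasurableSet J) →
    MeasurableSet S → S ⊆ ⋃ J ∈ F, J → ConePieces S

/-- A closed set with unbounded components and locally finite length is covered, in each disk,
by finitely many continua inside it. -/
def CoverGoal : Prop :=
  ∀ K : Set ℂ, IsClosed K → (∀ x ∈ K, ¬ Bornology.IsBounded (connectedComponentIn K x)) →
    (∀ r, Measure.hausdorffMeasure 1 (K ∩ ball 0 r) ≠ ⊤) →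
    ∀ R > (0 : ℝ), ∃ F : Finset (Set ℂ),
      (∀ J ∈ F, IsCompact J ∧ IsPreconnected J ∧ J.Nonempty ∧ J ⊆ K ∧
        Measure.hausdorffMeasure 1 J ≠ ⊤) ∧
      K ∩ ball 0 R ⊆ ⋃ J ∈ F, J

/-- The conjugate potential: continuous, smooth off `K`, with rotated gradient. -/
def PotentialGoal : Prop :=
  ∀ (u : ℂ → ℝ) (K : Set ℂ), Reg u K → HasDensityBound u K →
    ∃ v : ℂ → ℝ, Continuous v ∧ ContDiffOn ℝ ∞ v Kᶜ ∧ ∀ x ∉ K, grad v x = rgrad u x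

/-- The potential takes the same value at both ends of a Lipschitz curve inside `K`. -/
def CurveConstantGoal : Prop :=
  ∀ (u : ℂ → ℝ) (K : Set ℂ) (v : ℂ → ℝ), Reg u K → HasDensityBound u K → Continuous v →
    ContDiffOn ℝ ∞ v Kᶜ → (∀ x ∉ K, grad v x = rgrad u x) →
    ∀ (γ : ℝ → ℂ) (C : ℝ≥0), LipschitzWith C γ → γ '' Icc 0 1 ⊆ K → v (γ 0) = v (γ 1)

/-- The curl of `grad u` on `K₁` pairs boundedly, linearly in the radius. -/
def TraceGoal : Prop :=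
  ∀ (u : ℂ → ℝ) (K K₁ K₂ : Set ℂ) (χ v : ℂ → ℝ) (c M : ℝ), Split u K K₁ K₂ χ → Continuous v →
    ContDiffOn ℝ ∞ v Kᶜ → (∀ x ∉ K, grad v x = rgrad u x) → 0 < M → (∀ x ∈ K₁, v x = c) →
    (∀ x ∈ K, v x = c ∨ M ≤ |v x - c|) →
    ∃ C : ℝ, ∀ R ≥ (1 : ℝ), ∀ θ, IsTest (ball 0 R) θ →
      |∫ x, dot (grad u x) (rgrad (fun y => χ y * θ y) x)| ≤
        C * R * Real.sqrt (∫ x, ‖grad θ x‖ ^ 2)

/-- Riesz representation of the pairing on each disk. -/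
def LayersGoal : Prop :=
  ∀ (u : ℂ → ℝ) (K K₁ K₂ : Set ℂ) (χ : ℂ → ℝ) (C : ℝ), Split u K K₁ K₂ χ →
    (∀ R ≥ (1 : ℝ), ∀ θ, IsTest (ball 0 R) θ →
      |∫ x, dot (grad u x) (rgrad (fun y => χ y * θ y) x)| ≤
        C * R * Real.sqrt (∫ x, ‖grad θ x‖ ^ 2)) →
    ∃ (C' : ℝ) (S P : ℕ → ℂ → ℂ), Layers u K K₁ K₂ C' S P

/-- The derivatives of the layers converge; the limit is a global splitting. -/
def LimitGoal : Prop :=
  ∀ (u : ℂ → ℝ) (K K₁ K₂ : Set ℂ) (χ : ℂ → ℝ) (C : ℝ) (S P : ℕ → ℂ → ℂ),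
    Split u K K₁ K₂ χ → Layers u K K₁ K₂ C S P →
    ∃ g s : ℂ → ℂ, IsPotentialField K₂ᶜ g ∧ IsPotentialField K₁ᶜ s ∧
      (∀ x ∉ K, s x + g x = grad u x) ∧
      ∀ Z, IsCompact Z → Z ⊆ K₂ᶜ → ∀ e : ℂ, TendstoUniformlyOn
        (fun k x => fderiv ℝ (P k) x e) (fun x => fderiv ℝ g x e) atTop Z

/-- Stability under weighted translations. -/
def SecondVarGoal : Prop :=
  ∀ (u : ℂ → ℝ) (K : Set ℂ), Reg u K → (∀ R, ConePieces (K ∩ ball 0 R)) →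
    ∀ ζ U₁ U₂ : ℂ → ℝ, IsTest univ ζ → ContDiffOn ℝ ∞ U₁ Kᶜ → ContDiffOn ℝ ∞ U₂ Kᶜ →
      HasCompactSupport U₁ → HasCompactSupport U₂ → MemLp (grad U₁) 2 → MemLp (grad U₂) 2 →
      0 ≤ secondVar u ζ U₁ U₂ + ∫ x in K, ‖grad ζ x‖ ^ 2 ∂Measure.hausdorffMeasure 1

/-- The exact value of the second variation on the trial corrections. -/
def IdentityGoal : Prop :=
  ∀ (u : ℂ → ℝ) (K K₁ K₂ : Set ℂ) (χ : ℂ → ℝ) (ρ : ℝ) (S P : ℂ → ℂ) (ψ : ℂ → ℝ),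
    Split u K K₁ K₂ χ → IsPotentialField (ball 0 ρ \ K₁) S →
    IsPotentialField (ball 0 ρ \ K₂) P → (∀ x ∈ ball (0 : ℂ) ρ \ K, S x + P x = grad u x) →
    MemLp S 2 (volume.restrict (ball 0 ρ)) → IsTest (ball 0 ρ) ψ →
    ContDiffOn ℝ ∞ (trialRe u χ ψ S) Kᶜ ∧ ContDiffOn ℝ ∞ (trialIm u χ ψ S) Kᶜ ∧
      MemLp (grad (trialRe u χ ψ S)) 2 ∧ MemLp (grad (trialIm u χ ψ S)) 2 ∧
      secondVar u (fun x => ψ x * χ x) (trialRe u χ ψ S) (trialIm u χ ψ S) =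
        ∫ x, ‖grad ψ x‖ ^ 2 * ‖S x‖ ^ 2

/-- Where the weight is one the trial field is orthogonal to smooth corrections. -/
def CrossGoal : Prop :=
  ∀ (u : ℂ → ℝ) (K K₁ K₂ : Set ℂ) (χ : ℂ → ℝ) (ρ : ℝ) (S P : ℂ → ℂ) (ψ φ₁ φ₂ : ℂ → ℝ),
    Split u K K₁ K₂ χ → IsPotentialField (ball 0 ρ \ K₁) S →
    IsPotentialField (ball 0 ρ \ K₂) P → (∀ x ∈ ball (0 : ℂ) ρ \ K, S x + P x = grad u x) →
    MemLp S 2 (volume.restrict (ball 0 ρ)) → IsTest (ball 0 ρ) ψ →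
    IsTest (interior {x | ψ x = 1}) φ₁ → IsTest (interior {x | ψ x = 1}) φ₂ →
    ∫ x, (dot (crossRe (grad u x) (grad (fun y => ψ y * χ y) x)
            (grad (trialRe u χ ψ S) x)) (grad φ₁ x) +
          dot (crossIm (grad u x) (grad (fun y => ψ y * χ y) x)
            (grad (trialIm u χ ψ S) x)) (grad φ₂ x)) = 0

/-- The averaged layers kill the pairing of variations near `K₁` with derivatives of the field. -/
def GainGoal : Prop :=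
  ∀ (u : ℂ → ℝ) (K K₁ K₂ : Set ℂ) (χ : ℂ → ℝ) (C : ℝ) (S P : ℕ → ℂ → ℂ) (g : ℂ → ℂ),
    Split u K K₁ K₂ χ → (∀ R, ConePieces (K ∩ ball 0 R)) → Layers u K K₁ K₂ C S P →
    IsPotentialField K₂ᶜ g →
    (∀ Z, IsCompact Z → Z ⊆ K₂ᶜ → ∀ e : ℂ, TendstoUniformlyOn
      (fun k x => fderiv ℝ (P k) x e) (fun x => fderiv ℝ g x e) atTop Z) →
    ∀ φ, IsNearVariation K χ φ → ∀ e : ℂ, ∫ x, dot (grad φ x) (fderiv ℝ g x e) = 0

/-- `grad u` is curl free off the critical points of the field. -/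
def OffCriticalGoal : Prop :=
  ∀ (u : ℂ → ℝ) (K K₁ K₂ : Set ℂ) (χ : ℂ → ℝ) (g : ℂ → ℂ),
    Split u K K₁ K₂ χ → IsPotentialField K₂ᶜ g →
    (∀ φ, IsNearVariation K χ φ → ∀ e : ℂ, ∫ x, dot (grad φ x) (fderiv ℝ g x e) = 0) →
    ∀ θ, IsTest K₂ᶜ θ → (∀ x ∈ tsupport θ, fderiv ℝ g x 1 ≠ 0) →
      ∫ x, dot (grad u x) (rgrad θ x) = 0

/-- A part without curl can be removed. -/
def RemovalGoal : Prop :=
  ∀ (u : ℂ → ℝ) (K K₁ K₂ : Set ℂ) (χ : ℂ → ℝ), Split u K K₁ K₂ χ → IsReduced K →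
    IsPreconnected Kᶜ → (∀ θ, IsTest K₂ᶜ θ → ∫ x, dot (grad u x) (rgrad θ x) = 0) → K₁ = ∅

end Vale.Agent.P128.Connected
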