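import Vale.Agent.P128.Connected.Flux
import Vale.Agent.P128.Connected.Interface
import Vale.Agent.P128.Islands.Field

/-!
# The exact second variation on the trial corrections, and the cross field
-/

namespace Vale.Agent.P128.Connected

open MeasureTheory Filter Metric Set Islands InnerProductSpace
open scoped Topology ENNReal NNReal ContDiff Laplacian

variable {u χ : ℂ → ℝ} {K K₁ K₂ : Set ℂ} {ρ : ℝ} {S P : ℂ → ℂ}

lemma hasDerivAt_line {f : ℂ → ℝ} {x : ℂ} (hf : DifferentiableAt ℝ f x) (v : ℂ) :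
    HasDerivAt (fun t : ℝ => f (x + t • v)) (fderiv ℝ f x v) 0 :=
  hf.hasFDerivAt.hasLineDerivAt v

/-- The `x` derivative of the real part of a field. -/
noncomputable def dA (P : ℂ → ℂ) (x : ℂ) : ℝ := (fderiv ℝ P x 1).re

/-- The `y` derivative of the real part of a field. -/
noncomputable def dB (P : ℂ → ℂ) (x : ℂ) : ℝ := (fderiv ℝ P x Complex.I).re

lemma contDiffOn_parts {O : Set ℂ} (hO : IsOpen O) (h : IsPotentialField O P) :
    ContDiffOn ℝ ∞ (fun x => (P x).re) O ∧ ContDiffOn ℝ ∞ (fun x => (P x).im) O ∧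
      ContDiffOn ℝ ∞ (dA P) O ∧ ContDiffOn ℝ ∞ (dB P) O :=
  ⟨Complex.reCLM.contDiff.comp_contDiffOn h.2.2.1,
    Complex.imCLM.contDiff.comp_contDiffOn h.2.2.1,
    Complex.reCLM.contDiff.comp_contDiffOn
      ((h.2.2.1.fderiv_of_isOpen hO (m := ∞) le_rfl).clm_apply contDiffOn_const),
    Complex.reCLM.contDiff.comp_contDiffOn
      ((h.2.2.1.fderiv_of_isOpen hO (m := ∞) le_rfl).clm_apply contDiffOn_const)⟩

/-- First and second order jets of a potential field along the axes. -/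
lemma jet {O : Set ℂ} (hO : IsOpen O) (h : IsPotentialField O P) {x : ℂ} (hx : x ∈ O) :
    HasDerivAt (fun t : ℝ => (P (x + t • 1)).re) (dA P x) 0 ∧
    HasDerivAt (fun t : ℝ => (P (x + t • Complex.I)).re) (dB P x) 0 ∧
    HasDerivAt (fun t : ℝ => (P (x + t • 1)).im) (dB P x) 0 ∧
    HasDerivAt (fun t : ℝ => (P (x + t • Complex.I)).im) (-dA P x) 0 ∧
    HasDerivAt (fun t : ℝ => dA P (x + t • 1)) (fderiv ℝ (dA P) x 1) 0 ∧
    HasDerivAt (fun t : ℝ => dA P (x + t • Complex.I)) (fderiv ℝ (dA P) x Complex.I) 0 ∧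
    HasDerivAt (fun t : ℝ => dB P (x + t • 1)) (fderiv ℝ (dA P) x Complex.I) 0 ∧
    HasDerivAt (fun t : ℝ => dB P (x + t • Complex.I)) (-fderiv ℝ (dA P) x 1) 0 := by
  have hd : ∀ y ∈ O, DifferentiableAt ℝ P y := fun y hy =>
    ((h.2.2.1 y hy).contDiffAt (hO.mem_nhds hy)).differentiableAt (by simp)
  obtain ⟨c1, c2, c3, c4⟩ := contDiffOn_parts hO h
  have hn := hO.mem_nhds hx
  have e : ∀ {f : ℂ → ℝ}, ContDiffOn ℝ ∞ f O → DifferentiableAt ℝ f x := fun hf =>
    ((hf x hx).contDiffAt hn).differentiableAt (by simp)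
  set g₁ := fun y => (P y).re with hg₁
  have ea : dA P =ᶠ[𝓝 x] fun y => fderiv ℝ g₁ y 1 := by
    filter_upwards [hn] with y hy using (fderiv_re_apply (hd y hy) 1).symm
  have eb : dB P =ᶠ[𝓝 x] fun y => fderiv ℝ g₁ y Complex.I := by
    filter_upwards [hn] with y hy using (fderiv_re_apply (hd y hy) Complex.I).symm
  have hg : ContDiffAt ℝ ∞ g₁ x := (c1 x hx).contDiffAt hn
  have hsymm : fderiv ℝ (dB P) x 1 = fderiv ℝ (dA P) x Complex.I := by
    rw [eb.fderiv_eq, ea.fderiv_eq]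
    exact fderiv_comm_apply (hg.of_le (WithTop.coe_le_coe.2 le_top)) _ _
  have hlap : fderiv ℝ (dB P) x Complex.I = -fderiv ℝ (dA P) x 1 := by
    have := (h.1 x hx).2.self_of_nhds
    have hdd : ∀ v : ℂ, fderiv ℝ (fun y => fderiv ℝ g₁ y v) x v =
        fderiv ℝ (fderiv ℝ g₁) x v v := fun v => by
      rw [fderiv_clm_apply ((hg.fderiv_right (m := ∞) le_rfl).differentiableAt (by simp))
        (differentiableAt_const v)]
      simp
    rw [eb.fderiv_eq, ea.fderiv_eq, hdd, hdd]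
    simp [laplacian_eq_iteratedFDeriv_complexPlane, iteratedFDeriv_two_apply] at this
    simp only [hg₁] at this ⊢
    linarith
  have r1 := hasDerivAt_line (e c1) 1
  have r2 := hasDerivAt_line (e c1) Complex.I
  have r3 := hasDerivAt_line (e c2) 1
  have r4 := hasDerivAt_line (e c2) Complex.I
  rw [fderiv_re_apply (hd x hx)] at r1 r2
  rw [fderiv_im_apply (hd x hx)] at r3 r4
  rw [(h.2.2.2 x hx).1] at r3
  rw [(h.2.2.2 x hx).2] at r4
  have r7 := hasDerivAt_line (e c4) 1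
  have r8 := hasDerivAt_line (e c4) Complex.I
  rw [hsymm] at r7
  rw [hlap] at r8
  exact ⟨r1, r2, r3, r4, hasDerivAt_line (e c3) _, hasDerivAt_line (e c3) _, r7, r8⟩

lemma Split.subset₁ (h : Split u K K₁ K₂ χ) : K₁ ⊆ K := h.union ▸ subset_union_left

lemma Split.subset₂ (h : Split u K K₁ K₂ χ) : K₂ ⊆ K := h.union ▸ subset_union_right

lemma Split.near₁ (h : Split u K K₁ K₂ χ) {x : ℂ} (hx : x ∈ K₁) :
    ∀ᶠ y in 𝓝 x, χ y = 1 ∧ fderiv ℝ χ y = 0 := by
  have h1 : ∀ᶠ y in 𝓝 x, χ y = 1 := nhds_le_nhdsSet hx h.one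
  filter_upwards [h1, h1.eventually_nhds] with y hy hy'
  exact ⟨hy, by rw [Filter.EventuallyEq.fderiv_eq (f := fun _ => (1 : ℝ)) hy']; simp⟩

lemma Split.near₂ (h : Split u K K₁ K₂ χ) {x : ℂ} (hx : x ∈ K₂) :
    ∀ᶠ y in 𝓝 x, χ y = 0 ∧ fderiv ℝ χ y = 0 := by
  have h1 : ∀ᶠ y in 𝓝 x, χ y = 0 := nhds_le_nhdsSet hx h.zero
  filter_upwards [h1, h1.eventually_nhds] with y hy hy'
  exact ⟨hy, by rw [Filter.EventuallyEq.fderiv_eq (f := fun _ => (0 : ℝ)) hy']; simp⟩

lemma Split.notMem₂ (h : Split u K K₁ K₂ χ) {x : ℂ} (hx : x ∈ K₁) : x ∉ K₂ := fun hx' => by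
  have := (h.near₁ hx).self_of_nhds.1
  rw [(h.near₂ hx').self_of_nhds.1] at this
  exact zero_ne_one this

/-- A function built from the fields and the cutoff is smooth if near each part of `K` it only
involves the field which is free of that part. -/
lemma contDiff_glue (h : Split u K K₁ K₂ χ) {F F₁ F₂ : ℂ → ℝ} {T : Set ℂ} (hT : IsClosed T)
    (hTB : T ⊆ ball 0 ρ) (h0 : ∀ x ∉ T, F x = 0) (hF : ContDiffOn ℝ ∞ F (ball 0 ρ \ K))
    (hF₁ : ContDiffOn ℝ ∞ F₁ (ball 0 ρ \ K₂)) (hF₂ : ContDiffOn ℝ ∞ F₂ (ball 0 ρ \ K₁))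
    (h₁ : ∀ y, χ y = 1 → fderiv ℝ χ y = 0 → F y = F₁ y)
    (h₂ : ∀ y, χ y = 0 → fderiv ℝ χ y = 0 → F y = F₂ y) :
    ContDiff ℝ ∞ F := by
  refine contDiff_iff_contDiffAt.2 fun x => ?_
  by_cases hxB : x ∈ ball (0 : ℂ) ρ
  · by_cases hx₁ : x ∈ K₁
    · exact ((hF₁ x ⟨hxB, h.notMem₂ hx₁⟩).contDiffAt ((isOpen_ball.sdiff h.closed₂).mem_nhds
        ⟨hxB, h.notMem₂ hx₁⟩)).congr_of_eventuallyEq
          ((h.near₁ hx₁).mono fun y hy => h₁ y hy.1 hy.2)
    by_cases hx₂ : x ∈ K₂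
    · exact ((hF₂ x ⟨hxB, hx₁⟩).contDiffAt ((isOpen_ball.sdiff h.closed₁).mem_nhds
        ⟨hxB, hx₁⟩)).congr_of_eventuallyEq ((h.near₂ hx₂).mono fun y hy => h₂ y hy.1 hy.2)
    have hxK : x ∉ K := by
      rw [← h.union]; exact fun hh => hh.elim hx₁ hx₂
    exact (hF x ⟨hxB, hxK⟩).contDiffAt ((isOpen_ball.sdiff h.reg.isClosed).mem_nhds ⟨hxB, hxK⟩)
  · refine (contDiffAt_const (c := (0 : ℝ))).congr_of_eventuallyEq ?_
    filter_upwards [hT.isOpen_compl.mem_nhds fun hx => hxB (hTB hx)] with y hy using h0 y hy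

lemma contDiff_fderiv_apply {f : ℂ → ℝ} (hf : ContDiff ℝ ∞ f) (v : ℂ) :
    ContDiff ℝ ∞ fun x => fderiv ℝ f x v :=
  (hf.fderiv_right (m := ∞) le_rfl).clm_apply contDiff_const

/-- Derivatives of compactly supported functions integrate to zero. -/
lemma integral_fderiv_eq_zero {F : ℂ → ℝ} (hF : ContDiff ℝ ∞ F) (hc : HasCompactSupport F)
    (v : ℂ) : Integrable (fun x => fderiv ℝ F x v) ∧ ∫ x, fderiv ℝ F x v = 0 := by
  have hi : Integrable fun x => fderiv ℝ F x v :=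
    (contDiff_fderiv_apply hF v).continuous.integrable_of_hasCompactSupport
      (hc.fderiv_apply (𝕜 := ℝ) v)
  refine ⟨hi, ?_⟩
  have := integral_mul_fderiv_eq_neg_fderiv_mul_of_integrable (μ := volume) (v := v)
    (f := fun _ : ℂ => (1 : ℝ)) (g := F) (by simp) (by simpa using hi)
    (by simpa using hF.continuous.integrable_of_hasCompactSupport hc)
    (fun _ _ => differentiableAt_const _) (fun x _ => hF.differentiable (by simp) x)
  simpa using this

/-- The smooth extension of a trial correction. -/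
noncomputable def trialExt (χ ψ p s : ℂ → ℝ) (x : ℂ) : ℝ :=
  ψ x * (χ x * p x - (1 - χ x) * s x)

lemma contDiff_trialExt (h : Split u K K₁ K₂ χ) {ψ : ℂ → ℝ} (hψ : IsTest (ball 0 ρ) ψ)
    {p s : ℂ → ℝ} (hp : ContDiffOn ℝ ∞ p (ball 0 ρ \ K₂))
    (hs : ContDiffOn ℝ ∞ s (ball 0 ρ \ K₁)) :
    ContDiff ℝ ∞ (trialExt χ ψ p s) ∧ HasCompactSupport (trialExt χ ψ p s) := by
  refine ⟨contDiff_glue h (isClosed_tsupport ψ) hψ.2.2
    (fun x hx => by simp [trialExt, image_eq_zero_of_notMem_tsupport hx]) ?_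
    (F₁ := fun x => ψ x * p x) (hψ.1.contDiffOn.mul hp)
    (F₂ := fun x => -(ψ x * s x)) (hψ.1.contDiffOn.mul hs).neg
    (fun y hy _ => by simp [trialExt, hy]) (fun y hy _ => by simp [trialExt, hy]),
    hψ.2.1.mul_right⟩
  exact hψ.1.contDiffOn.mul ((h.smooth.contDiffOn.mul (hp.mono (sdiff_subset_sdiff_right
    h.subset₂))).sub ((contDiff_const.sub h.smooth).contDiffOn.mul
      (hs.mono (sdiff_subset_sdiff_right h.subset₁))))

/-- Off `K` the trial correction is its smooth extension. -/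
lemma trial_eq (ψ : ℂ → ℝ) (hψ : tsupport ψ ⊆ ball 0 ρ)
    (hsum : ∀ x ∈ ball (0 : ℂ) ρ \ K, S x + P x = grad u x) {x : ℂ} (hx : x ∉ K) :
    trialRe u χ ψ S x = trialExt χ ψ (fun y => (P y).re) (fun y => (S y).re) x ∧
      trialIm u χ ψ S x = trialExt χ ψ (fun y => (P y).im) (fun y => (S y).im) x := by
  by_cases hb : x ∈ ball (0 : ℂ) ρ
  · simp only [trialRe, trialIm, trialExt, ← hsum x ⟨hb, hx⟩, Complex.add_re, Complex.add_im]
    constructor <;> ring
  · simp [trialRe, trialIm, trialExt, image_eq_zero_of_notMem_tsupport fun h => hb (hψ h)]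

/-- Gradient of the smooth extension. -/
lemma grad_trialExt {ψ p s : ℂ → ℝ} {x : ℂ} (hψ : DifferentiableAt ℝ ψ x)
    (hχ : DifferentiableAt ℝ χ x) {px py sx sy : ℝ}
    (h₁ : HasDerivAt (fun t : ℝ => p (x + t • 1)) px 0)
    (h₂ : HasDerivAt (fun t : ℝ => p (x + t • Complex.I)) py 0)
    (h₃ : HasDerivAt (fun t : ℝ => s (x + t • 1)) sx 0)
    (h₄ : HasDerivAt (fun t : ℝ => s (x + t • Complex.I)) sy 0)
    (hW : DifferentiableAt ℝ (trialExt χ ψ p s) x) :
    grad (trialExt χ ψ p s) x =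
      ⟨fderiv ℝ ψ x 1 * (χ x * p x - (1 - χ x) * s x) +
          ψ x * (fderiv ℝ χ x 1 * (p x + s x) + χ x * px - (1 - χ x) * sx),
        fderiv ℝ ψ x Complex.I * (χ x * p x - (1 - χ x) * s x) +
          ψ x * (fderiv ℝ χ x Complex.I * (p x + s x) + χ x * py - (1 - χ x) * sy)⟩ := by
  refine Complex.ext ?_ ?_
  · refine (grad_re _ _).trans ((hasDerivAt_line hW 1).unique
      (((hasDerivAt_line hψ 1).fun_mul (((hasDerivAt_line hχ 1).fun_mul h₁).fun_sub
        (((hasDerivAt_line hχ 1).const_sub 1).fun_mul h₃))).congr_deriv ?_))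
    simp only [zero_smul, add_zero]
    ring
  · refine (grad_im _ _).trans ((hasDerivAt_line hW Complex.I).unique
      (((hasDerivAt_line hψ Complex.I).fun_mul (((hasDerivAt_line hχ Complex.I).fun_mul h₂).fun_sub
        (((hasDerivAt_line hχ Complex.I).const_sub 1).fun_mul h₄))).congr_deriv ?_))
    simp only [zero_smul, add_zero]
    ring

lemma integrable_weight_sq {T : Set ℂ} (hS : MemLp S 2 (volume.restrict (ball 0 ρ)))
    {w : ℂ → ℝ} (hw : Continuous w) (hwc : HasCompactSupport w) (hT : ∀ x ∉ T, w x = 0)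
    (hTB : T ⊆ ball 0 ρ) : Integrable fun x => w x * ‖S x‖ ^ 2 := by
  obtain ⟨B, hB⟩ := hwc.exists_bound_of_continuous hw
  refine (integrableOn_iff_integrable_of_support_subset ?_).1
    ((hS.norm.integrable_sq).bdd_mul (c := B) hw.aestronglyMeasurable (Eventually.of_forall hB))
  intro x hx
  by_contra hn
  exact hx (by simp [hT x fun h => hn (hTB h)])

theorem identityGoal : IdentityGoal := by
  intro u K K₁ K₂ χ ρ S P ψ h hS hP hsum hSmem hψ
  have hO₁ := isOpen_ball (x := (0 : ℂ)) (ε := ρ).sdiff h.closed₁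
  have hO₂ := isOpen_ball (x := (0 : ℂ)) (ε := ρ).sdiff h.closed₂
  obtain ⟨cp₁, cp₂, cpa, cpb⟩ := contDiffOn_parts hO₂ hP
  obtain ⟨cs₁, cs₂, csa, csb⟩ := contDiffOn_parts hO₁ hS
  obtain ⟨w₁, k₁⟩ := contDiff_trialExt h hψ cp₁ cs₁
  obtain ⟨w₂, k₂⟩ := contDiff_trialExt h hψ cp₂ cs₂
  set W₁ := trialExt χ ψ (fun y => (P y).re) (fun y => (S y).re) with hW₁
  set W₂ := trialExt χ ψ (fun y => (P y).im) (fun y => (S y).im) with hW₂
  have heq := fun x (hx : x ∉ K) => trial_eq (χ := χ) ψ hψ.2.2 hsum hx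
  have hgrad : ∀ x ∉ K, grad (trialRe u χ ψ S) x = grad W₁ x ∧
      grad (trialIm u χ ψ S) x = grad W₂ x := fun x hx =>
    ⟨grad_congr (by filter_upwards [h.reg.isClosed.isOpen_compl.mem_nhds hx] with y hy
        using (heq y hy).1),
      grad_congr (by filter_upwards [h.reg.isClosed.isOpen_compl.mem_nhds hx] with y hy
        using (heq y hy).2)⟩
  have hae := measure_eq_zero_iff_ae_notMem.1 h.reg.null
  have hmem : ∀ {W : ℂ → ℝ}, ContDiff ℝ ∞ W → HasCompactSupport W → MemLp (grad W) 2 := by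
    intro W hW hc
    have hc' := (contDiffOn_grad isOpen_univ hW.contDiffOn).continuousOn
    rw [continuousOn_univ] at hc'
    exact hc'.memLp_of_hasCompactSupport
      (HasCompactSupport.intro hc.isCompact fun x hx => grad_eq_zero_of_notMem_tsupport hx)
  refine ⟨w₁.contDiffOn.congr fun x hx => (heq x hx).1,
    w₂.contDiffOn.congr fun x hx => (heq x hx).2,
    (memLp_congr_ae (hae.mono fun x hx => (hgrad x hx).1)).2 (hmem w₁ k₁),
    (memLp_congr_ae (hae.mono fun x hx => (hgrad x hx).2)).2 (hmem w₂ k₂), ?_⟩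
  -- the flux
  set Φ₁ : ℂ → ℝ := fun x => flux₁ (ψ x) (χ x) (fderiv ℝ χ x Complex.I) (P x).re (P x).im
    (dA P x) (dB P x) (S x).re (S x).im (dA S x) (dB S x) with hΦ₁
  set Φ₂ : ℂ → ℝ := fun x => flux₂ (ψ x) (χ x) (fderiv ℝ χ x 1) (P x).re (P x).im
    (dA P x) (dB P x) (S x).re (S x).im (dA S x) (dB S x) with hΦ₂
  have hsub₁ := sdiff_subset_sdiff_right (s := ball (0 : ℂ) ρ) h.subset₁
  have hsub₂ := sdiff_subset_sdiff_right (s := ball (0 : ℂ) ρ) h.subset₂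
  have hzero : ∀ x, x ∉ tsupport ψ → Φ₁ x = 0 ∧ Φ₂ x = 0 := fun x hx => by
    simp [hΦ₁, hΦ₂, flux₁, flux₂, image_eq_zero_of_notMem_tsupport hx]
  have hψc := hψ.1.contDiffOn (s := ball (0 : ℂ) ρ \ K)
  have hχc := h.smooth.contDiffOn (s := ball (0 : ℂ) ρ \ K)
  have hμc := (contDiff_const (c := (1 : ℝ))).sub h.smooth |>.contDiffOn (s := ball (0 : ℂ) ρ \ K)
  have hxc := fun v => (contDiff_fderiv_apply h.smooth v).contDiffOn (s := ball (0 : ℂ) ρ \ K)
  have hψ₁ := fun (O : Set ℂ) => hψ.1.contDiffOn (s := O)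
  have s₁ : ContDiff ℝ ∞ Φ₁ := by
    refine contDiff_glue h (isClosed_tsupport ψ) hψ.2.2 (fun x hx => (hzero x hx).1) ?_
      (F₁ := fun x => ψ x * ψ x * ((P x).re * dA P x + (P x).im * dB P x))
      (((hψ₁ _).mul (hψ₁ _)).mul ((cp₁.mul cpa).add (cp₂.mul cpb)))
      (F₂ := fun x => ψ x * ψ x * ((S x).re * dA S x + (S x).im * dB S x))
      (((hψ₁ _).mul (hψ₁ _)).mul ((cs₁.mul csa).add (cs₂.mul csb)))
      (fun y hy hy' => by simp [hΦ₁, flux₁, hy, hy']) (fun y hy hy' => by simp [hΦ₁, flux₁, hy, hy'])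
    exact (hψc.mul hψc).mul (((((hχc.mul hχc).mul (((cp₁.mono hsub₂).mul (cpa.mono hsub₂)).add
      ((cp₂.mono hsub₂).mul (cpb.mono hsub₂)))).sub ((hχc.mul hμc).mul
        ((((cpa.mono hsub₂).mul (cs₁.mono hsub₁)).add ((cp₁.mono hsub₂).mul (csa.mono hsub₁))).add
          (((cpb.mono hsub₂).mul (cs₂.mono hsub₁)).add
            ((cp₂.mono hsub₂).mul (csb.mono hsub₁)))))).add
      ((hμc.mul hμc).mul (((cs₁.mono hsub₁).mul (csa.mono hsub₁)).add
        ((cs₂.mono hsub₁).mul (csb.mono hsub₁))))).sub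
      ((((cp₁.mono hsub₂).mul (cs₂.mono hsub₁)).sub
        ((cp₂.mono hsub₂).mul (cs₁.mono hsub₁))).mul (hxc _)))
  have s₂ : ContDiff ℝ ∞ Φ₂ := by
    refine contDiff_glue h (isClosed_tsupport ψ) hψ.2.2 (fun x hx => (hzero x hx).2) ?_
      (F₁ := fun x => ψ x * ψ x * ((P x).re * dB P x - (P x).im * dA P x))
      (((hψ₁ _).mul (hψ₁ _)).mul ((cp₁.mul cpb).sub (cp₂.mul cpa)))
      (F₂ := fun x => ψ x * ψ x * ((S x).re * dB S x - (S x).im * dA S x))
      (((hψ₁ _).mul (hψ₁ _)).mul ((cs₁.mul csb).sub (cs₂.mul csa)))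
      (fun y hy hy' => by simp [hΦ₂, flux₂, hy, hy']) (fun y hy hy' => by simp [hΦ₂, flux₂, hy, hy'])
    exact (hψc.mul hψc).mul (((((hχc.mul hχc).mul (((cp₁.mono hsub₂).mul (cpb.mono hsub₂)).sub
      ((cp₂.mono hsub₂).mul (cpa.mono hsub₂)))).sub ((hχc.mul hμc).mul
        ((((cpb.mono hsub₂).mul (cs₁.mono hsub₁)).add ((cp₁.mono hsub₂).mul (csb.mono hsub₁))).sub
          (((cpa.mono hsub₂).mul (cs₂.mono hsub₁)).add
            ((cp₂.mono hsub₂).mul (csa.mono hsub₁)))))).add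
      ((hμc.mul hμc).mul (((cs₁.mono hsub₁).mul (csb.mono hsub₁)).sub
        ((cs₂.mono hsub₁).mul (csa.mono hsub₁))))).add
      ((((cp₁.mono hsub₂).mul (cs₂.mono hsub₁)).sub
        ((cp₂.mono hsub₂).mul (cs₁.mono hsub₁))).mul (hxc _)))
  obtain ⟨i₁, z₁⟩ := integral_fderiv_eq_zero s₁
    (HasCompactSupport.intro hψ.2.1.isCompact fun x hx => (hzero x hx).1) 1
  obtain ⟨i₂, z₂⟩ := integral_fderiv_eq_zero s₂
    (HasCompactSupport.intro hψ.2.1.isCompact fun x hx => (hzero x hx).2) Complex.I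
  have hpt : ∀ᵐ x : ℂ, secVal (grad u x) (grad (fun y => ψ y * χ y) x)
      (grad (trialRe u χ ψ S) x) (grad (trialIm u χ ψ S) x) =
      ‖grad ψ x‖ ^ 2 * ‖S x‖ ^ 2 + (fderiv ℝ Φ₁ x 1 + fderiv ℝ Φ₂ x Complex.I) := by
    filter_upwards [hae] with x hx
    rw [(hgrad x hx).1, (hgrad x hx).2]
    by_cases hxT : x ∈ tsupport ψ
    · have hxB := hψ.2.2 hxT
      have hx₁ : x ∈ ball (0 : ℂ) ρ \ K₁ := hsub₁ ⟨hxB, hx⟩
      have hx₂ : x ∈ ball (0 : ℂ) ρ \ K₂ := hsub₂ ⟨hxB, hx⟩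
      obtain ⟨a1, a2, a3, a4, a5, a6, a7, a8⟩ := jet hO₂ hP hx₂
      obtain ⟨b1, b2, b3, b4, b5, b6, b7, b8⟩ := jet hO₁ hS hx₁
      have dψ := hψ.1.differentiable (by simp) x
      have dχ := h.smooth.differentiable (by simp) x
      have dxy := fderiv_comm_apply (φ := χ) (x := x)
        (h.smooth.contDiffAt.of_le (WithTop.coe_le_coe.2 le_top)) Complex.I 1
      have du : HasDerivAt (fun t : ℝ => fderiv ℝ χ (x + t • (1 : ℂ)) Complex.I)
          (fderiv ℝ (fun y => fderiv ℝ χ y Complex.I) x 1) 0 :=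
        hasDerivAt_line ((contDiff_fderiv_apply h.smooth _).differentiable (by simp) x) 1
      have dv : HasDerivAt (fun t : ℝ => fderiv ℝ χ (x + t • Complex.I) 1)
          (fderiv ℝ (fun y => fderiv ℝ χ y Complex.I) x 1) 0 := by
        rw [dxy]
        exact hasDerivAt_line ((contDiff_fderiv_apply h.smooth _).differentiable (by simp) x) _
      have key := flux_identity (ψ x) (fderiv ℝ ψ x 1) (fderiv ℝ ψ x Complex.I) (χ x)
        (fderiv ℝ χ x 1) (fderiv ℝ χ x Complex.I)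
        (fderiv ℝ (fun y => fderiv ℝ χ y Complex.I) x 1)
        (P x).re (P x).im (dA P x) (dB P x) (fderiv ℝ (dA P) x 1) (fderiv ℝ (dA P) x Complex.I)
        (S x).re (S x).im (dA S x) (dB S x) (fderiv ℝ (dA S) x 1) (fderiv ℝ (dA S) x Complex.I)
        rfl rfl (by simp) (by simp) (by simp)
        (hasDerivAt_line dψ 1) (hasDerivAt_line dψ _) (hasDerivAt_line dχ 1)
        (hasDerivAt_line dχ _) du dv a1 a2 a3 a4 a5 a6 a7 a8 b1 b2 b3 b4 b5 b6 b7 b8
        (hasDerivAt_line (s₁.differentiable (by simp) x) 1)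
        (hasDerivAt_line (s₂.differentiable (by simp) x) Complex.I)
      have eG : grad u x = ⟨(P x).re + (S x).re, (P x).im + (S x).im⟩ := by
        rw [← hsum x ⟨hxB, hx⟩]; apply Complex.ext <;> simp [add_comm]
      have eζ : grad (fun y => ψ y * χ y) x =
          ⟨fderiv ℝ ψ x 1 * χ x + ψ x * fderiv ℝ χ x 1,
            fderiv ℝ ψ x Complex.I * χ x + ψ x * fderiv ℝ χ x Complex.I⟩ := by
        rw [grad_mul dψ dχ]; apply Complex.ext <;> simp [grad] <;> ring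
      rw [eG, eζ, grad_trialExt dψ dχ a1 a2 b1 b2 (w₁.differentiable (by simp) x),
        grad_trialExt dψ dχ a3 a4 b3 b4 (w₂.differentiable (by simp) x), key,
        ← Complex.normSq_eq_norm_sq, ← Complex.normSq_eq_norm_sq, Complex.normSq_apply,
        Complex.normSq_apply, grad_re, grad_im]
      ring
    · have e : ∀ {F : ℂ → ℝ}, (∀ y ∉ tsupport ψ, F y = 0) → grad F x = 0 := fun hF =>
        grad_eq_zero_outside (isClosed_tsupport ψ) hF hxT
      have e' : ∀ {F : ℂ → ℝ}, (∀ y ∉ tsupport ψ, F y = 0) → ∀ v, fderiv ℝ F x v = 0 := by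
        intro F hF v
        rw [Filter.EventuallyEq.fderiv_eq (f := fun _ => (0 : ℝ))]
        · simp
        · filter_upwards [(isClosed_tsupport ψ).isOpen_compl.mem_nhds hxT] with y hy using hF y hy
      have z : ∀ y ∉ tsupport ψ, ψ y = 0 := fun y hy => image_eq_zero_of_notMem_tsupport hy
      rw [e (F := fun y => ψ y * χ y) fun y hy => by simp [z y hy],
        e (F := W₁) fun y hy => by simp [hW₁, trialExt, z y hy],
        e (F := W₂) fun y hy => by simp [hW₂, trialExt, z y hy],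
        e (F := ψ) z, e' (F := Φ₁) fun y hy => (hzero y hy).1,
        e' (F := Φ₂) fun y hy => (hzero y hy).2]
      simp [secVal, dot]
  have hgψ : Continuous fun x => ‖grad ψ x‖ ^ 2 := by
    have hc' := (contDiffOn_grad isOpen_univ hψ.1.contDiffOn).continuousOn
    rw [continuousOn_univ] at hc'
    exact hc'.norm.pow 2
  have iS : Integrable fun x => ‖grad ψ x‖ ^ 2 * ‖S x‖ ^ 2 :=
    integrable_weight_sq hSmem hgψ (HasCompactSupport.intro hψ.2.1.isCompact fun x hx => by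
      simp [grad_eq_zero_of_notMem_tsupport hx]) (fun x hx => by
      simp [grad_eq_zero_of_notMem_tsupport hx]) hψ.2.2
  rw [secondVar, integral_congr_ae hpt, integral_add iS (i₁.fun_add i₂), integral_add i₁ i₂, z₁,
    z₂, add_zero, add_zero]

end Vale.Agent.P128.Connected
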