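import Vale.Agent.P128.Connected.Interface
import Vale.Agent.P128.Islands.Field
import Vale.Agent.P128.Islands.Weak

/-!
# Riesz representation of the curl pairing on each disk

The pairing is a bounded functional of the gradients of test functions of the disk; the rotated
Riesz vector is divergence free, has the curl of the gradient on `K₁`, and is small in `L²`.
-/

noncomputable section

namespace Vale.Agent.P128.Connected

namespace Layer

open MeasureTheory Filter Metric Set Islands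
open scoped Topology ENNReal NNReal ContDiff

lemma continuous_grad_of_test {U : Set ℂ} {θ : ℂ → ℝ} (hθ : IsTest U θ) : Continuous (grad θ) :=
  continuousOn_univ.1 (contDiffOn_grad isOpen_univ hθ.1.contDiffOn).continuousOn

lemma memLp_grad_test {U : Set ℂ} {θ : ℂ → ℝ} (hθ : IsTest U θ) : MemLp (grad θ) 2 :=
  (continuous_grad_of_test hθ).memLp_of_hasCompactSupport
    (HasCompactSupport.intro hθ.2.1.isCompact fun _ hx => grad_eq_zero_of_notMem_tsupport hx)

lemma memLp_rgrad_test {U : Set ℂ} {θ : ℂ → ℝ} (hθ : IsTest U θ) : MemLp (rgrad θ) 2 :=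
  (continuous_const.mul (continuous_grad_of_test hθ)).memLp_of_hasCompactSupport
    (HasCompactSupport.intro hθ.2.1.isCompact fun _ hx => by
      simp [grad_eq_zero_of_notMem_tsupport hx])

lemma rgrad_add {f g : ℂ → ℝ} {x : ℂ} (hf : DifferentiableAt ℝ f x)
    (hg : DifferentiableAt ℝ g x) : rgrad (fun y => f y + g y) x = rgrad f x + rgrad g x := by
  rw [rgrad, grad_add hf hg, mul_add]
  rfl

lemma rgrad_const_mul (a : ℝ) {f : ℂ → ℝ} {x : ℂ} (hf : DifferentiableAt ℝ f x) :
    rgrad (fun y => a * f y) x = a • rgrad f x := by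
  rw [rgrad, grad_const_mul a hf, mul_smul_comm]
  rfl

lemma Reg.integrable_pair {u : ℂ → ℝ} {K : Set ℂ} (h : Reg u K) {U : Set ℂ} {θ : ℂ → ℝ}
    (hθ : IsTest U θ) : Integrable (fun x => dot (grad u x) (grad θ x)) ∧
      Integrable fun x => dot (grad u x) (rgrad θ x) := by
  obtain ⟨R, hR⟩ := hθ.2.1.isCompact.isBounded.subset_ball (0 : ℂ)
  exact ⟨h.integrable_dot (memLp_grad_test hθ) (r := R)
      (fun x hx => grad_eq_zero_of_notMem_tsupport fun h' => hx (hR h')),
    h.integrable_dot (memLp_rgrad_test hθ) (r := R)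
      (fun x hx => by simp [rgrad, grad_eq_zero_of_notMem_tsupport fun h' => hx (hR h')])⟩

lemma isTest_add {U : Set ℂ} {a b : ℂ → ℝ} (ha : IsTest U a) (hb : IsTest U b) :
    IsTest U (a + b) :=
  ⟨ha.1.add hb.1, ha.2.1.add hb.2.1,
    (tsupport_add a b).trans (union_subset ha.2.2 hb.2.2)⟩

lemma isTest_zero (U : Set ℂ) : IsTest U (0 : ℂ → ℝ) :=
  ⟨contDiff_const, HasCompactSupport.zero, by simp [tsupport]⟩

lemma isTest_smul {U : Set ℂ} (t : ℝ) {a : ℂ → ℝ} (ha : IsTest U a) : IsTest U (t • a) := by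
  refine ⟨ha.1.const_smul t, ha.2.1.smul_left (f := fun _ : ℂ => t), ?_⟩
  refine (closure_mono fun x hx => ?_).trans ha.2.2
  intro h
  exact hx (by simp [h])

/-- The test functions of an open set as a vector space. -/
def tests (U : Set ℂ) : Submodule ℝ (ℂ → ℝ) where
  carrier := {θ | IsTest U θ}
  add_mem' {_ _} ha hb := isTest_add ha hb
  zero_mem' := isTest_zero U
  smul_mem' t _ ha := isTest_smul t ha

/-- The gradient as a linear map into `L²`. -/
def gradL2 (U : Set ℂ) : tests U →ₗ[ℝ] Lp ℂ 2 (volume : Measure ℂ) where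
  toFun θ := (memLp_grad_test θ.2).toLp _
  map_add' a b := by
    rw [← MemLp.toLp_add]
    exact MemLp.toLp_congr _ _ (Eventually.of_forall fun x =>
      grad_add (a.2.1.differentiable (by simp) x) (b.2.1.differentiable (by simp) x))
  map_smul' t a := by
    rw [RingHom.id_apply, ← MemLp.toLp_const_smul]
    exact MemLp.toLp_congr _ _ (Eventually.of_forall fun x =>
      grad_const_mul t (a.2.1.differentiable (by simp) x))

lemma norm_toLp {f : ℂ → ℂ} (hf : MemLp f 2) :
    ‖hf.toLp f‖ = Real.sqrt (∫ x, ‖f x‖ ^ 2) := by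
  rw [Lp.norm_toLp, eLpNorm_eq_sqrt hf, ENNReal.toReal_ofReal (Real.sqrt_nonneg _)]
where
  eLpNorm_eq_sqrt {f : ℂ → ℂ} (hf : MemLp f 2) :
      eLpNorm f 2 volume = ENNReal.ofReal (Real.sqrt (∫ x, ‖f x‖ ^ 2)) := by
    rw [hf.eLpNorm_eq_integral_rpow_norm two_ne_zero ENNReal.ofNat_ne_top, ENNReal.toReal_ofNat,
      Real.sqrt_eq_rpow, one_div]
    norm_num

lemma inner_toLp (W : Lp ℂ 2 (volume : Measure ℂ)) {f : ℂ → ℂ} (hf : MemLp f 2) :
    inner ℝ W (hf.toLp f) = ∫ x, dot (W x) (f x) := by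
  rw [L2.inner_def]
  refine integral_congr_ae ?_
  filter_upwards [hf.coeFn_toLp] with x h2
  rw [h2, dot_eq_inner]

/-- A bounded pairing with rotated test gradients is given by a small divergence free field. -/
lemma exists_field {U : Set ℂ} (F : ℂ → ℂ) (χ : ℂ → ℝ) (hχ : ContDiff ℝ ∞ χ)
    (hF : ∀ θ, IsTest U θ → Integrable fun x => dot (F x) (rgrad (fun y => χ y * θ y) x))
    {C : ℝ} (hC : 0 ≤ C) (hb : ∀ θ, IsTest U θ →
      |∫ x, dot (F x) (rgrad (fun y => χ y * θ y) x)| ≤ C * Real.sqrt (∫ x, ‖grad θ x‖ ^ 2)) :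
    ∃ S : ℂ → ℂ, MemLp S 2 ∧ ∫ x, ‖S x‖ ^ 2 ≤ C ^ 2 ∧
      ∀ θ, IsTest U θ → ∫ x, dot (S x) (grad θ x) = 0 ∧
        ∫ x, dot (S x) (rgrad θ x) = ∫ x, dot (F x) (rgrad (fun y => χ y * θ y) x) := by
  let T : tests U →ₗ[ℝ] ℝ :=
    { toFun := fun θ => ∫ x, dot (F x) (rgrad (fun y => χ y * θ.1 y) x)
      map_add' := fun a b => by
        rw [← integral_add (hF _ a.2) (hF _ b.2)]
        refine integral_congr_ae (Eventually.of_forall fun x => ?_)
        have hd := hχ.differentiable (by simp) x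
        show dot (F x) (rgrad (fun y => χ y * (a.1 y + b.1 y)) x) = _
        simp only [mul_add]
        rw [rgrad_add (f := fun y => χ y * a.1 y) (g := fun y => χ y * b.1 y)
          (hd.mul (a.2.1.differentiable (by simp) x)) (hd.mul (b.2.1.differentiable (by simp) x))]
        simp [dot]
        ring
      map_smul' := fun t a => by
        rw [RingHom.id_apply, smul_eq_mul, ← integral_const_mul]
        refine integral_congr_ae (Eventually.of_forall fun x => ?_)
        show dot (F x) (rgrad (fun y => χ y * (t * a.1 y)) x) = _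
        simp only [mul_left_comm _ t]
        rw [rgrad_const_mul t (f := fun y => χ y * a.1 y)
          ((hχ.differentiable (by simp) x).mul (a.2.1.differentiable (by simp) x))]
        simp [dot]
        ring }
  have hTb : ∀ θ : tests U, |T θ| ≤ C * ‖gradL2 U θ‖ := fun θ => by
    refine (hb _ θ.2).trans (le_of_eq ?_)
    show _ = C * ‖(memLp_grad_test θ.2).toLp _‖
    rw [norm_toLp]
  set V := LinearMap.range (gradL2 U) with hV
  have hker : LinearMap.ker (gradL2 U) ≤ LinearMap.ker T := fun θ h => by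
    rw [LinearMap.mem_ker] at h ⊢
    have := hTb θ
    rw [h, norm_zero, mul_zero] at this
    exact abs_nonpos_iff.1 this
  let T' : V →ₗ[ℝ] ℝ :=
    ((LinearMap.ker (gradL2 U)).liftQ T hker).comp (gradL2 U).quotKerEquivRange.symm.toLinearMap
  have hT' : ∀ (θ : tests U) (h : gradL2 U θ ∈ V), T' ⟨gradL2 U θ, h⟩ = T θ := fun θ h => by
    show (LinearMap.ker (gradL2 U)).liftQ T hker ((gradL2 U).quotKerEquivRange.symm ⟨_, h⟩) = _
    rw [LinearMap.quotKerEquivRange_symm_apply_image, Submodule.mkQ_apply, Submodule.liftQ_apply]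
  let T'' : StrongDual ℝ V := T'.mkContinuous C fun p => by
    obtain ⟨_, θ, rfl⟩ := p
    refine le_of_eq_of_le ?_ (hTb θ)
    exact congrArg abs (hT' θ (LinearMap.mem_range_self _ θ))
  obtain ⟨g, hg, hgn⟩ := exists_extension_norm_eq (V : Submodule ℝ _) T''
  set W₀ := (InnerProductSpace.toDual ℝ (Lp ℂ 2 (volume : Measure ℂ))).symm g
  have : CompleteSpace V.topologicalClosure :=
    (Submodule.isClosed_topologicalClosure V).completeSpace_coe
  set W := V.topologicalClosure.starProjection W₀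
  have hWin : ∀ θ (hθ : IsTest U θ), inner ℝ W ((memLp_grad_test hθ).toLp _) =
      ∫ x, dot (F x) (rgrad (fun y => χ y * θ y) x) := by
    intro θ hθ
    have hmem : gradL2 U ⟨θ, hθ⟩ ∈ V := LinearMap.mem_range_self _ _
    have h := Submodule.starProjection_inner_eq_zero (K := V.topologicalClosure) W₀ _
      (V.le_topologicalClosure hmem)
    rw [inner_sub_left, sub_eq_zero] at h
    show inner ℝ W (gradL2 U ⟨θ, hθ⟩) = T ⟨θ, hθ⟩
    rw [← h, InnerProductSpace.toDual_symm_apply, hg ⟨_, hmem⟩]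
    exact hT' _ hmem
  have hWn : ‖W‖ ≤ C := by
    refine (Submodule.norm_starProjection_apply_le _ _).trans ?_
    rw [LinearIsometryEquiv.norm_map, hgn]
    exact T'.mkContinuous_norm_le hC _
  have hWr : ∀ θ (hθ : IsTest U θ), inner ℝ W ((memLp_rgrad_test hθ).toLp _) = 0 := by
    intro θ hθ
    refine closure_minimal ?_ (isClosed_eq (continuous_id.inner continuous_const) continuous_const)
      (Submodule.starProjection_apply_mem V.topologicalClosure W₀)
    rintro _ ⟨φ, rfl⟩
    show inner ℝ (gradL2 U φ) _ = 0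
    rw [show gradL2 U φ = (memLp_grad_test φ.2).toLp _ from rfl, inner_toLp,
      ← integral_grad_rgrad isOpen_univ φ.2.1.contDiffOn (hθ.mono (subset_univ _))]
    refine integral_congr_ae ?_
    filter_upwards [(memLp_grad_test φ.2).coeFn_toLp] with x hx
    rw [hx]
  set S : ℂ → ℂ := fun x => Complex.I * W x with hS
  refine ⟨S, (Lp.memLp W).const_mul _, ?_, fun θ hθ => ⟨?_, ?_⟩⟩
  · have e : (fun x => ‖S x‖ ^ 2) = fun x => ‖W x‖ ^ 2 := by
      funext x; simp [hS]
    rw [e]
    have h := norm_toLp (Lp.memLp W)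
    rw [Lp.toLp_coeFn] at h
    rw [← Real.sq_sqrt (integral_nonneg fun x => sq_nonneg ‖W x‖), ← h]
    exact pow_le_pow_left₀ (norm_nonneg _) hWn 2
  · have h := hWr θ hθ
    rw [inner_toLp] at h
    rw [← neg_eq_zero, ← h, ← integral_neg]
    refine integral_congr_ae (Eventually.of_forall fun x => ?_)
    simp [hS, dot, rgrad]
  · rw [← hWin θ hθ, inner_toLp]
    refine integral_congr_ae (Eventually.of_forall fun x => ?_)
    simp [hS, dot, rgrad]
    ring

lemma integrable_pair_local {U : Set ℂ} {P : ℂ → ℂ} (hP : MemLp P 2) {θ : ℂ → ℝ}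
    (hθ : IsTest U θ) : Integrable (fun x => dot (P x) (grad θ x)) ∧
      Integrable fun x => dot (P x) (rgrad θ x) :=
  ⟨Islands.integrable_dot hP (memLp_grad_test hθ), Islands.integrable_dot hP (memLp_rgrad_test hθ)⟩

/-- The splitting on one disk. -/
lemma exists_layer {u : ℂ → ℝ} {K K₁ K₂ : Set ℂ} {χ : ℂ → ℝ} {C : ℝ} (hS : Split u K K₁ K₂ χ)
    (hT : ∀ R ≥ (1 : ℝ), ∀ θ, IsTest (ball 0 R) θ →
      |∫ x, dot (grad u x) (rgrad (fun y => χ y * θ y) x)| ≤
        C * R * Real.sqrt (∫ x, ‖grad θ x‖ ^ 2)) {R : ℝ} (hR : 1 ≤ R) :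
    ∃ S P : ℂ → ℂ, IsPotentialField (ball 0 R \ K₁) S ∧ IsPotentialField (ball 0 R \ K₂) P ∧
      (∀ x ∈ ball (0 : ℂ) R \ K, S x + P x = grad u x) ∧
      MemLp S 2 (volume.restrict (ball 0 R)) ∧
      ∫ x in ball (0 : ℂ) R, ‖S x‖ ^ 2 ≤ (C * R) ^ 2 := by
  have hreg := hS.reg
  have hFld : FieldGoal := fieldGoal weylGoal
  have hprod : ∀ θ, IsTest (ball (0 : ℂ) R) θ → IsTest univ fun y => χ y * θ y :=
    fun θ hθ => ⟨hS.smooth.mul hθ.1, hθ.2.1.mul_left, subset_univ _⟩
  obtain ⟨S, hSm, hSb, hSpair⟩ := exists_field (U := ball 0 R) (grad u) χ hS.smooth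
    (fun θ hθ => (Reg.integrable_pair hreg (hprod θ hθ)).2) (C := |C| * R) (by positivity)
    (fun θ hθ => (hT R hR θ hθ).trans (mul_le_mul_of_nonneg_right
      (mul_le_mul_of_nonneg_right (le_abs_self C) (by positivity)) (Real.sqrt_nonneg _)))
  -- a test function supported off both parts does not see the gradient's curl
  have hoff : ∀ η, IsTest univ η → (∀ x ∈ K, η =ᶠ[𝓝 x] 0) →
      ∫ x, dot (grad u x) (rgrad η x) = 0 := fun η hη hz =>
    integral_grad_rgrad hreg.isClosed.isOpen_compl hreg.smooth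
      ⟨hη.1, hη.2.1, fun x hx hxK => notMem_tsupport_iff_eventuallyEq.2 (hz x hxK) hx⟩
  have hO1 : IsOpen (ball (0 : ℂ) R \ K₁) := isOpen_ball.sdiff hS.closed₁
  have hO2 : IsOpen (ball (0 : ℂ) R \ K₂) := isOpen_ball.sdiff hS.closed₂
  have hgL : LocallyIntegrableOn (grad u) (ball (0 : ℂ) R) := by
    have : IsFiniteMeasure ((volume : Measure ℂ).restrict (ball 0 R)) :=
      isFiniteMeasure_restrict.2 measure_ball_lt_top.ne
    exact IntegrableOn.locallyIntegrableOn ((hreg.memLp R).integrable one_le_two)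
  have hSL : LocallyIntegrableOn S (ball (0 : ℂ) R) :=
    (hSm.locallyIntegrable one_le_two).locallyIntegrableOn _
  obtain ⟨s, hs, hse⟩ := hFld _ hO1 S (hSL.mono_set sdiff_subset) fun θ hθ => by
    have hθb := hθ.mono (sdiff_subset : ball (0 : ℂ) R \ K₁ ⊆ _)
    refine ⟨(hSpair θ hθb).1, ?_⟩
    rw [(hSpair θ hθb).2]
    refine hoff _ (hprod θ hθb) fun x hx => ?_
    rcases (hS.union.symm ▸ hx : x ∈ K₁ ∪ K₂) with h | h
    · filter_upwards [notMem_tsupport_iff_eventuallyEq.1 (fun h' => (hθ.2.2 h').2 h)] with y hy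
      simp [hy]
    · filter_upwards [nhds_le_nhdsSet h hS.zero] with y hy
      simp [hy]
  obtain ⟨p, hp, hpe⟩ := hFld _ hO2 (fun x => grad u x - S x)
    ((hgL.sub hSL).mono_set sdiff_subset) fun θ hθ => by
    have hθb := hθ.mono (sdiff_subset : ball (0 : ℂ) R \ K₂ ⊆ _)
    obtain ⟨i1, i2⟩ := Reg.integrable_pair hreg hθb
    obtain ⟨j1, j2⟩ := integrable_pair_local hSm hθb
    have e : ∀ a b w : ℂ, dot (a - b) w = dot a w - dot b w := fun a b w => by simp [dot]; ring
    simp only [e]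
    rw [integral_sub i1 j1, integral_sub i2 j2, (hSpair θ hθb).1, (hSpair θ hθb).2,
      hreg.euler hθ.1.contDiffOn hθ.2.1 (memLp_grad_test hθb)]
    refine ⟨sub_zero _, ?_⟩
    rw [← integral_sub i2 (Reg.integrable_pair hreg (hprod θ hθb)).2]
    have e2 : ∀ x, dot (grad u x) (rgrad θ x) - dot (grad u x) (rgrad (fun y => χ y * θ y) x) =
        dot (grad u x) (rgrad (fun y => (1 - χ y) * θ y) x) := fun x => by
      have hd := hS.smooth.differentiable (by simp) x
      have hdt := hθ.1.differentiable (by simp) x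
      have h := rgrad_add (f := fun y => (1 - χ y) * θ y) (g := fun y => χ y * θ y) (x := x)
        ((hd.const_sub 1).mul hdt) (hd.mul hdt)
      simp only [← add_mul, sub_add_cancel, one_mul] at h
      rw [show rgrad θ x = _ from h]
      simp [dot]
      ring
    simp only [e2]
    refine hoff _ ⟨(contDiff_const.sub hS.smooth).mul hθ.1, hθ.2.1.mul_left, subset_univ _⟩
      fun x hx => ?_
    rcases (hS.union.symm ▸ hx : x ∈ K₁ ∪ K₂) with h | h
    · filter_upwards [nhds_le_nhdsSet h hS.one] with y hy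
      simp [hy]
    · filter_upwards [notMem_tsupport_iff_eventuallyEq.1 (fun h' => (hθ.2.2 h').2 h)] with y hy
      simp [hy]
  have hse' : s =ᵐ[volume.restrict (ball (0 : ℂ) R)] S := by
    have h1 : (ball (0 : ℂ) R \ K₁ : Set ℂ) =ᵐ[volume] ball (0 : ℂ) R :=
      sdiff_null_ae_eq_self (measure_mono_null (fun x hx => hS.union ▸ Or.inl hx) hreg.null)
    rw [Measure.restrict_congr_set h1] at hse
    exact hse.symm
  refine ⟨s, p, hs, hp, ?_, (memLp_congr_ae hse').2 (hSm.restrict _), ?_⟩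
  · have hsub1 : ball (0 : ℂ) R \ K ⊆ ball (0 : ℂ) R \ K₁ :=
      sdiff_subset_sdiff_right (fun x hx => hS.union ▸ Or.inl hx)
    have hsub2 : ball (0 : ℂ) R \ K ⊆ ball (0 : ℂ) R \ K₂ :=
      sdiff_subset_sdiff_right (fun x hx => hS.union ▸ Or.inr hx)
    refine Measure.eqOn_open_of_ae_eq (μ := (volume : Measure ℂ)) ?_
      (isOpen_ball.sdiff hreg.isClosed) ((hs.2.2.1.continuousOn.mono hsub1).add
        (hp.2.2.1.continuousOn.mono hsub2))
      ((contDiffOn_grad hreg.isClosed.isOpen_compl hreg.smooth).continuousOn.mono fun x hx => hx.2)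
    filter_upwards [ae_restrict_of_ae_restrict_of_subset hsub1 hse,
      ae_restrict_of_ae_restrict_of_subset hsub2 hpe] with x a b
    rw [← a, ← b, add_sub_cancel]
  · rw [integral_congr_ae (hse'.mono fun x hx => by simp only [hx] :
      (fun x => ‖s x‖ ^ 2) =ᵐ[volume.restrict (ball (0 : ℂ) R)] fun x => ‖S x‖ ^ 2)]
    refine (setIntegral_le_integral hSm.norm.integrable_sq
      (Eventually.of_forall fun x => sq_nonneg _)).trans (hSb.trans (le_of_eq ?_))
    rw [mul_pow, mul_pow, sq_abs]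

end Layer

open MeasureTheory Filter Metric Set Islands Layer
open scoped Topology ENNReal NNReal ContDiff

/-- Riesz representation of the pairing on each disk. -/
theorem layersGoal : LayersGoal := by
  intro u K K₁ K₂ χ C hS hT
  have hrad : ∀ k, 1 ≤ 2 * rad k := fun k => by
    have : (1 : ℝ) ≤ rad k := one_le_pow₀ (by norm_num)
    linarith
  choose S P h1 h2 h3 h4 h5 using fun k => exists_layer hS hT (hrad k)
  exact ⟨4 * C ^ 2, S, P, ⟨h1, h2, h3, h4, fun k => (h5 k).trans (le_of_eq (by ring))⟩⟩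

end Vale.Agent.P128.Connected
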