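import Vale.Agent.P128.Connected.TraceBound
import Vale.Agent.P128.Islands.Weak

/-!
# The curl of the gradient on one part of the singular set is linearly bounded in the radius

Test the potential `v` against monotone steps of its value: the steps turn the pairing into an
integral of the energy, which the bound for measures of linear growth controls.
-/

noncomputable section

namespace Vale.Agent.P128.Connected

namespace Trace

open MeasureTheory Filter Metric Set Islands
open scoped Topology ENNReal NNReal ContDiff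
open Islands.Weak (step contDiff_step step_eq_zero step_eq_one deriv_step_eq_zero
  contDiff_deriv_step)

/-- The even step of width `ε`. -/
def even (ε s : ℝ) : ℝ := step (s / ε) + step (-s / ε)

/-- The odd step of width `ε`. -/
def odd (ε s : ℝ) : ℝ := step (s / ε) - step (-s / ε)

/-- The derivative of the odd step. -/
def bumpAt (ε s : ℝ) : ℝ := (deriv step (s / ε) + deriv step (-s / ε)) / ε

/-- A cutoff of the values beyond two thirds of `M`. -/
def valCut (M s : ℝ) : ℝ := 1 - step (s ^ 2 / (2 * M / 3) ^ 2)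

lemma step_nonneg (s : ℝ) : 0 ≤ step s := Real.smoothTransition.nonneg _

lemma step_le_one (s : ℝ) : step s ≤ 1 := Real.smoothTransition.le_one _

lemma deriv_step_nonneg (s : ℝ) : 0 ≤ deriv step s :=
  (Real.smoothTransition.monotone.comp (fun a b h => by linarith :
    Monotone fun s : ℝ => 2 * s - 1)).deriv_nonneg

lemma contDiff_even (ε : ℝ) : ContDiff ℝ ∞ (even ε) :=
  (contDiff_step.comp (contDiff_id.div_const _)).add (contDiff_step.comp (contDiff_id.neg.div_const _))

lemma contDiff_odd (ε : ℝ) : ContDiff ℝ ∞ (odd ε) :=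
  (contDiff_step.comp (contDiff_id.div_const _)).sub (contDiff_step.comp (contDiff_id.neg.div_const _))

lemma contDiff_valCut (M : ℝ) : ContDiff ℝ ∞ (valCut M) :=
  contDiff_const.sub (contDiff_step.comp ((contDiff_id.pow 2).div_const _))

lemma hasDerivAt_step_div (ε s : ℝ) :
    HasDerivAt (fun t => step (t / ε)) (deriv step (s / ε) / ε) s := by
  have h := ((contDiff_step.differentiable (by simp)) (s / ε)).hasDerivAt.comp s
    ((hasDerivAt_id s).div_const ε)
  simpa [div_eq_mul_inv, Function.comp_def] using h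

lemma hasDerivAt_step_neg_div (ε s : ℝ) :
    HasDerivAt (fun t => step (-t / ε)) (-(deriv step (-s / ε) / ε)) s := by
  have h := ((contDiff_step.differentiable (by simp)) (-s / ε)).hasDerivAt.comp s
    ((hasDerivAt_id s).neg.div_const ε)
  simpa [div_eq_mul_inv, Function.comp_def] using h

lemma deriv_odd (ε s : ℝ) : deriv (odd ε) s = bumpAt ε s := by
  have h := (hasDerivAt_step_div ε s).sub (hasDerivAt_step_neg_div ε s)
  rw [show odd ε = (fun t => step (t / ε)) - fun t => step (-t / ε) from rfl, h.deriv, bumpAt]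
  ring

lemma abs_deriv_even_le {ε : ℝ} (hε : 0 < ε) (s : ℝ) : |deriv (even ε) s| ≤ bumpAt ε s := by
  have h := (hasDerivAt_step_div ε s).add (hasDerivAt_step_neg_div ε s)
  rw [show even ε = (fun t => step (t / ε)) + fun t => step (-t / ε) from rfl, h.deriv, bumpAt,
    add_div]
  have h1 := div_nonneg (deriv_step_nonneg (s / ε)) hε.le
  have h2 := div_nonneg (deriv_step_nonneg (-s / ε)) hε.le
  rw [abs_le]
  constructor <;> linarith

lemma bumpAt_nonneg {ε : ℝ} (hε : 0 < ε) (s : ℝ) : 0 ≤ bumpAt ε s :=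
  div_nonneg (add_nonneg (deriv_step_nonneg _) (deriv_step_nonneg _)) hε.le

lemma continuous_bumpAt (ε : ℝ) : Continuous (bumpAt ε) :=
  ((contDiff_deriv_step.continuous.comp (continuous_id.div_const _)).add
    (contDiff_deriv_step.continuous.comp (continuous_id.neg.div_const _))).div_const _

lemma step_eq_zero_of_abs {ε s : ℝ} (hε : 0 < ε) (h : |s| ≤ ε / 2) :
    step (s / ε) = 0 ∧ step (-s / ε) = 0 := by
  have h' := abs_le.1 h
  constructor <;> refine step_eq_zero ((div_le_iff₀ hε).2 ?_) <;> linarith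

lemma even_eq_zero {ε s : ℝ} (hε : 0 < ε) (h : |s| ≤ ε / 2) : even ε s = 0 := by
  simp [even, step_eq_zero_of_abs hε h]

lemma odd_eq_zero {ε s : ℝ} (hε : 0 < ε) (h : |s| ≤ ε / 2) : odd ε s = 0 := by
  simp [odd, step_eq_zero_of_abs hε h]

lemma even_eq_one {ε s : ℝ} (hε : 0 < ε) (h : ε ≤ |s|) : even ε s = 1 := by
  rcases le_abs'.1 h with h' | h'
  · rw [even, step_eq_zero ((div_le_iff₀ hε).2 (by linarith)),
      step_eq_one ((le_div_iff₀ hε).2 (by linarith)), zero_add]
  · rw [even, step_eq_one ((le_div_iff₀ hε).2 (by linarith)),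
      step_eq_zero ((div_le_iff₀ hε).2 (by linarith)), add_zero]

lemma abs_even_le {ε : ℝ} (hε : 0 < ε) (s : ℝ) : |even ε s| ≤ 1 := by
  have h0 : 0 ≤ even ε s := add_nonneg (step_nonneg _) (step_nonneg _)
  rw [abs_of_nonneg h0, even]
  rcases le_total 0 s with h | h
  · rw [step_eq_zero (s := -s / ε) ((div_le_iff₀ hε).2 (by linarith))]
    linarith [step_le_one (s / ε)]
  · rw [step_eq_zero (s := s / ε) ((div_le_iff₀ hε).2 (by linarith))]
    linarith [step_le_one (-s / ε)]

lemma abs_odd_le (ε s : ℝ) : |odd ε s| ≤ 1 := by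
  rw [odd, abs_le]
  constructor <;> linarith [step_nonneg (s / ε), step_nonneg (-s / ε), step_le_one (s / ε),
    step_le_one (-s / ε)]

lemma valCut_eq_zero {M s : ℝ} (hM : 0 < M) (h : 2 * M / 3 ≤ |s|) : valCut M s = 0 := by
  rw [valCut, step_eq_one, sub_self]
  rw [le_div_iff₀ (by positivity), one_mul, ← sq_abs s]
  exact pow_le_pow_left₀ (by positivity) h 2

lemma abs_valCut_le (M s : ℝ) : |valCut M s| ≤ 1 := by
  rw [valCut, abs_le]
  constructor <;> linarith [step_nonneg (s ^ 2 / (2 * M / 3) ^ 2), step_le_one (s ^ 2 / (2 * M / 3) ^ 2)]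

lemma valCut_mul_bumpAt {M ε : ℝ} (hM : 0 < M) (hε : 0 < ε) (hεM : ε ≤ M / 3) (s : ℝ) :
    valCut M s * bumpAt ε s = bumpAt ε s := by
  by_cases h : |s| ≤ ε
  · rw [valCut, step_eq_zero, sub_zero, one_mul]
    rw [div_le_iff₀ (by positivity), ← sq_abs s]
    have := pow_le_pow_left₀ (abs_nonneg s) (h.trans hεM) 2
    nlinarith
  · have h0 : bumpAt ε s = 0 := by
      rw [not_le, lt_abs] at h
      rcases h with h | h
      · rw [bumpAt, deriv_step_eq_zero (Or.inr ((one_lt_div hε).2 h)),
          deriv_step_eq_zero (Or.inl (by rw [div_lt_iff₀ hε]; linarith))]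
        simp
      · rw [bumpAt, deriv_step_eq_zero (Or.inl (by rw [div_lt_iff₀ hε]; linarith)),
          deriv_step_eq_zero (Or.inr ((one_lt_div hε).2 (by linarith)))]
        simp
    simp [h0]

lemma exists_valCut_bound {M : ℝ} (hM : 0 < M) : ∃ B, 0 ≤ B ∧ ∀ s, |deriv (valCut M) s| ≤ B := by
  have hs : HasCompactSupport (deriv (valCut M)) := by
    refine HasCompactSupport.intro (isCompact_Icc (a := -M) (b := M)) fun s hs => ?_
    have h1 : valCut M =ᶠ[𝓝 s] fun _ => 0 := by
      have h2 : 2 * M / 3 < |s| := by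
        rw [mem_Icc, ← abs_le, not_le] at hs
        linarith
      filter_upwards [(continuous_abs.tendsto s).eventually_const_lt h2] with t ht using
        valCut_eq_zero hM ht.le
    rw [h1.deriv_eq, deriv_const]
  obtain ⟨B, hB⟩ := (contDiff_valCut M).continuous_deriv (by simp) |>.bounded_above_of_compact_support hs
  exact ⟨B, (norm_nonneg _).trans (hB 0), hB⟩

variable {u v : ℂ → ℝ} {K : Set ℂ} {c : ℝ}

/-- Pairings with the gradient of a minimiser are integrable. -/
lemma integrable_mul_sq (hreg : Reg u K) {h : ℂ → ℝ} (hh : Continuous h)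
    (hs : HasCompactSupport h) : Integrable fun x => h x * ‖grad u x‖ ^ 2 := by
  obtain ⟨r, hr⟩ := hs.isCompact.isBounded.subset_ball (0 : ℂ)
  obtain ⟨B, hB⟩ := hh.bounded_above_of_compact_support hs
  refine (integrableOn_iff_integrable_of_support_subset ?_).1
    ((hreg.memLp r).norm.integrable_sq.bdd_mul (c := B) hh.aestronglyMeasurable
      (Eventually.of_forall hB))
  intro x hx
  by_contra hn
  exact hx (by simp [image_eq_zero_of_notMem_tsupport fun h' => hn (hr h')])

lemma integrable_mul_pairing (hreg : Reg u K) {h : ℂ → ℝ} (hh : Continuous h) {ξ : ℂ → ℝ}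
    (hξ : ContDiff ℝ ∞ ξ) (hξc : HasCompactSupport ξ) :
    Integrable fun x => h x * dot (grad u x) (rgrad ξ x) := by
  obtain ⟨r, hr⟩ := hξc.isCompact.isBounded.subset_ball (0 : ℂ)
  have hF : Continuous fun x => h x • rgrad ξ x :=
    hh.smul (continuous_const.mul
      (continuousOn_univ.1 (contDiffOn_grad isOpen_univ hξ.contDiffOn).continuousOn))
  have hFs : HasCompactSupport fun x => h x • rgrad ξ x :=
    HasCompactSupport.intro hξc.isCompact fun x hx => by
      simp [rgrad, grad_eq_zero_of_notMem_tsupport hx]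
  refine (hreg.integrable_dot (hF.memLp_of_hasCompactSupport hFs) (r := r) fun x hx => by
    simp [rgrad, grad_eq_zero_of_notMem_tsupport fun h' => hx (hr h')]).congr
      (Eventually.of_forall fun x => ?_)
  simp [dot]
  ring

/-- A function of the potential, cut off, is a test function off `K`; this is the identity it
gives. -/
lemma step_identity (hreg : Reg u K) (hv : Continuous v) (hvs : ContDiffOn ℝ ∞ v Kᶜ)
    (hvg : ∀ x ∉ K, grad v x = rgrad u x) {Φ : ℝ → ℝ} (hΦ : ContDiff ℝ ∞ Φ) {ξ : ℂ → ℝ}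
    (hξ : ContDiff ℝ ∞ ξ) (hξc : HasCompactSupport ξ)
    (hzero : ∀ z ∈ K, (∀ᶠ y in 𝓝 z, Φ (v y - c) = 0) ∨ ∀ᶠ y in 𝓝 z, ξ y = 0) :
    ∫ x, Φ (v x - c) * dot (grad u x) (rgrad ξ x) =
      ∫ x, ξ x * deriv Φ (v x - c) * ‖grad u x‖ ^ 2 := by
  set η : ℂ → ℝ := fun x => Φ (v x - c) * ξ x with hη
  have hU : IsOpen Kᶜ := hreg.isClosed.isOpen_compl
  have hz : ∀ z ∈ K, η =ᶠ[𝓝 z] 0 := by
    intro z hz
    rcases hzero z hz with h | h <;> filter_upwards [h] with y hy <;> simp [hη, hy]
  have hηs : ContDiff ℝ ∞ η := contDiff_iff_contDiffAt.2 fun z => by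
    by_cases hzK : z ∈ K
    · exact contDiffAt_const.congr_of_eventuallyEq (f := fun _ => (0 : ℝ)) (hz z hzK)
    · exact (hΦ.contDiffAt.comp z (((hvs z hzK).contDiffAt (hU.mem_nhds hzK)).sub
        contDiffAt_const)).mul hξ.contDiffAt
  have hηt : IsTest Kᶜ η := ⟨hηs, hξc.mul_left, fun z hzt hzK =>
    notMem_tsupport_iff_eventuallyEq.2 (hz z hzK) hzt⟩
  have h0 := integral_grad_rgrad hU hreg.smooth hηt
  have hΦd : Continuous fun x => deriv Φ (v x - c) :=
    (hΦ.continuous_deriv (by simp)).comp (hv.sub continuous_const)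
  have i1 : Integrable fun x => Φ (v x - c) * dot (grad u x) (rgrad ξ x) :=
    integrable_mul_pairing hreg (hΦ.continuous.comp (hv.sub continuous_const)) hξ hξc
  have i2 : Integrable fun x => ξ x * deriv Φ (v x - c) * ‖grad u x‖ ^ 2 :=
    integrable_mul_sq hreg (hξ.continuous.mul hΦd) hξc.mul_right
  rw [← sub_eq_zero, ← integral_sub i1 i2, ← h0]
  refine integral_congr_ae ?_
  filter_upwards [measure_eq_zero_iff_ae_notMem.1 hreg.null] with x hx
  have hd : DifferentiableAt ℝ v x :=
    ((hvs x hx).contDiffAt (hU.mem_nhds hx)).differentiableAt (by simp)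
  have hd' : DifferentiableAt ℝ (fun y => v y - c) x := hd.sub_const c
  have hgv : grad (fun y => v y - c) x = rgrad u x := by
    rw [← hvg x hx]
    simp [grad, fderiv_sub_const]
  have hg : grad η x = Φ (v x - c) • grad ξ x + ξ x • deriv Φ (v x - c) • rgrad u x := by
    have hd2 : DifferentiableAt ℝ (fun y => Φ (v y - c)) x :=
      (hΦ.differentiable (by simp) _).comp x hd'
    rw [hη, grad_mul hd2 (hξ.differentiable (by simp) x),
      grad_comp_real (τ := Φ) (f := fun y => v y - c) (hΦ.differentiable (by simp) _) hd', hgv]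
  simp only [rgrad, hg, ← Complex.normSq_eq_norm_sq]
  simp [dot, Complex.normSq_apply]
  ring

/-- The gradient vanishes almost everywhere on a level set of the potential. -/
lemma grad_eq_zero_on_level (hreg : Reg u K) (hv : Continuous v) (hvs : ContDiffOn ℝ ∞ v Kᶜ)
    (hvg : ∀ x ∉ K, grad v x = rgrad u x) :
    ∀ᵐ x : ℂ, v x = c → grad u x = 0 := by
  set Z : Set ℂ := {x | v x = c} ∩ Kᶜ with hZ
  have hZm : MeasurableSet Z :=
    (isClosed_eq hv continuous_const).measurableSet.inter hreg.isClosed.measurableSet.compl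
  have hap : ApproximatesLinearOn (fun z => (v z : ℂ)) (0 : ℂ →L[ℝ] ℂ) Z 0 :=
    fun x hx y hy => by
      simp only [show v x = c from hx.1, show v y = c from hy.1, zero_apply, sub_self, norm_zero,
        NNReal.coe_zero, zero_mul, le_refl]
  have hd : ∀ x ∈ Z, HasFDerivWithinAt (fun z => (v z : ℂ))
      (Complex.ofRealCLM.comp (fderiv ℝ v x)) Z x := fun x hx =>
    (Complex.ofRealCLM.hasFDerivAt.comp x
      (((hvs x hx.2).contDiffAt (hreg.isClosed.isOpen_compl.mem_nhds hx.2)).differentiableAt
        (by simp)).hasFDerivAt).hasFDerivWithinAt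
  have h := (ae_restrict_iff' hZm).1
    (hap.norm_fderiv_sub_le (μ := (volume : Measure ℂ)) hZm _ hd)
  filter_upwards [h, measure_eq_zero_iff_ae_notMem.1 hreg.null] with x hx hK hxc
  have h1 := hx ⟨hxc, hK⟩
  rw [sub_zero, nonpos_iff_eq_zero, nnnorm_eq_zero] at h1
  have h2 : ∀ w, fderiv ℝ v x w = 0 := fun w => by
    have := congrArg (fun L : ℂ →L[ℝ] ℂ => L w) h1
    simpa using this
  have h3 : grad v x = 0 := by simp [grad, h2, Complex.ext_iff]
  rw [hvg x hK, rgrad] at h3
  exact (mul_eq_zero.1 h3).resolve_left Complex.I_ne_zero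

/-- A smooth stand in for the absolute value. -/
def softAbs (δ t : ℝ) : ℝ := Real.sqrt (t ^ 2 + δ ^ 2) - δ

lemma softAbs_bounds {δ : ℝ} (hδ : 0 < δ) (t : ℝ) :
    0 ≤ softAbs δ t ∧ softAbs δ t ≤ |t| ∧ |t| ≤ softAbs δ t + δ := by
  have hs : Real.sqrt (t ^ 2 + δ ^ 2) ≤ |t| + δ :=
    (Real.sqrt_le_iff).2 ⟨by positivity, by nlinarith [abs_nonneg t, sq_abs t]⟩
  have h1 : δ ≤ Real.sqrt (t ^ 2 + δ ^ 2) := Real.le_sqrt_of_sq_le (by nlinarith)
  have h2 : |t| ≤ Real.sqrt (t ^ 2 + δ ^ 2) :=
    Real.le_sqrt_of_sq_le (by rw [sq_abs]; nlinarith)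
  exact ⟨by unfold softAbs; linarith, by unfold softAbs; linarith, by unfold softAbs; linarith⟩

lemma softAbs_zero {δ : ℝ} (hδ : 0 ≤ δ) : softAbs δ 0 = 0 := by
  rw [softAbs, zero_pow two_ne_zero, zero_add, Real.sqrt_sq hδ, sub_self]

lemma contDiff_softAbs {δ : ℝ} (hδ : 0 < δ) : ContDiff ℝ ∞ (softAbs δ) :=
  (((contDiff_id.pow 2).add contDiff_const).sqrt fun t => by positivity).sub contDiff_const

lemma abs_deriv_softAbs_le {δ : ℝ} (hδ : 0 < δ) (t : ℝ) : |deriv (softAbs δ) t| ≤ 1 := by
  have hp : t ^ 2 + δ ^ 2 ≠ 0 := by positivity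
  have h := (((hasDerivAt_pow 2 t).add_const (δ ^ 2)).sqrt hp).sub_const δ
  rw [show softAbs δ = fun s => Real.sqrt (s ^ 2 + δ ^ 2) - δ from rfl, h.deriv]
  have hpos : 0 < Real.sqrt (t ^ 2 + δ ^ 2) := Real.sqrt_pos.2 (by positivity)
  rw [abs_div, abs_of_pos (by positivity : (0 : ℝ) < 2 * Real.sqrt (t ^ 2 + δ ^ 2)),
    div_le_one (by positivity)]
  have : |t| ≤ Real.sqrt (t ^ 2 + δ ^ 2) := Real.le_sqrt_of_sq_le (by rw [sq_abs]; nlinarith)
  simpa [abs_mul] using this

/-- The energy seen by the steps. -/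
lemma bump_energy_le (hreg : Reg u K) (hv : Continuous v) (hvs : ContDiffOn ℝ ∞ v Kᶜ)
    (hvg : ∀ x ∉ K, grad v x = rgrad u x) {M : ℝ} (hM : 0 < M)
    (hsep : ∀ x ∈ K, v x = c ∨ M ≤ |v x - c|) {B : ℝ} (hB : ∀ s, |deriv (valCut M) s| ≤ B)
    {ε : ℝ} (hε : 0 < ε) (hεM : ε ≤ M / 3) {θ : ℂ → ℝ} (hθ : IsTest univ θ) :
    ∫ x, |θ x| * bumpAt ε (v x - c) * ‖grad u x‖ ^ 2 ≤
      (∫ x, ‖grad u x‖ * ‖grad θ x‖) + B * ∫ x, |θ x| * ‖grad u x‖ ^ 2 := by
  set Φ : ℝ → ℝ := fun s => valCut M s * odd ε s with hΦdef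
  have hΦ : ContDiff ℝ ∞ Φ := (contDiff_valCut M).mul (contDiff_odd ε)
  have hΦb : ∀ s, |Φ s| ≤ 1 := fun s => by
    rw [hΦdef, abs_mul]; exact mul_le_one₀ (abs_valCut_le M s) (abs_nonneg _) (abs_odd_le ε s)
  have hΦd : ∀ s, deriv Φ s = deriv (valCut M) s * odd ε s + bumpAt ε s := fun s => by
    rw [hΦdef, deriv_fun_mul ((contDiff_valCut M).differentiable (by simp) s)
      ((contDiff_odd ε).differentiable (by simp) s), deriv_odd, valCut_mul_bumpAt hM hε hεM]
  have hzero : ∀ z ∈ K, ∀ᶠ y in 𝓝 z, Φ (v y - c) = 0 := fun z hz => by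
    have ht : Tendsto (fun y => |v y - c|) (𝓝 z) (𝓝 |v z - c|) :=
      (hv.sub continuous_const).abs.tendsto z
    rcases hsep z hz with h | h
    · rw [h, sub_self, abs_zero] at ht
      filter_upwards [ht.eventually_lt_const (show (0 : ℝ) < ε / 2 by linarith)] with y hy
      simp [hΦdef, odd_eq_zero hε hy.le]
    · filter_upwards [ht.eventually_const_lt (show 2 * M / 3 < |v z - c| by linarith)] with y hy
      simp [hΦdef, valCut_eq_zero hM hy.le]
  have hgc : Continuous (grad θ) :=
    continuousOn_univ.1 (contDiffOn_grad isOpen_univ hθ.1.contDiffOn).continuousOn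
  obtain ⟨r, hr⟩ := hθ.2.1.isCompact.isBounded.subset_ball (0 : ℂ)
  have hθa : Continuous fun x => |θ x| := hθ.1.continuous.abs
  have hθas : HasCompactSupport fun x => |θ x| := hθ.2.1.comp_left (g := abs) abs_zero
  have iB := integrable_mul_sq hreg hθa hθas
  have iK := integrable_mul_sq hreg (h := fun x => |θ x| * bumpAt ε (v x - c))
    (hθa.mul ((continuous_bumpAt ε).comp (hv.sub continuous_const))) hθas.mul_right
  have iG : Integrable fun x => ‖grad u x‖ * ‖grad θ x‖ := by
    refine (integrableOn_iff_integrable_of_support_subset ?_).1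
      (MemLp.integrable_mul (p := 2) (q := 2) (hreg.memLp r).norm ((hgc.memLp_of_hasCompactSupport
        (HasCompactSupport.intro hθ.2.1.isCompact fun x hx =>
          grad_eq_zero_of_notMem_tsupport hx)).norm.restrict _))
    intro x hx
    by_contra hn
    exact hx (by simp [grad_eq_zero_of_notMem_tsupport fun h' => hn (hr h')])
  have key : ∀ δ > 0, ∫ x, softAbs δ (θ x) * bumpAt ε (v x - c) * ‖grad u x‖ ^ 2 ≤
      (∫ x, ‖grad u x‖ * ‖grad θ x‖) + B * ∫ x, |θ x| * ‖grad u x‖ ^ 2 := by
    intro δ hδ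
    set ξ : ℂ → ℝ := fun x => softAbs δ (θ x) with hξdef
    have hξ : ContDiff ℝ ∞ ξ := (contDiff_softAbs hδ).comp hθ.1
    have hξc : HasCompactSupport ξ := hθ.2.1.comp_left (g := softAbs δ)
      (softAbs_zero hδ.le)
    have hid := step_identity hreg hv hvs hvg hΦ hξ hξc fun z hz => Or.inl (hzero z hz)
    have i1 := integrable_mul_pairing hreg (h := fun x => Φ (v x - c))
      (hΦ.continuous.comp (hv.sub continuous_const)) hξ hξc
    have i2 := integrable_mul_sq hreg (h := fun x => ξ x * bumpAt ε (v x - c))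
      (hξ.continuous.mul ((continuous_bumpAt ε).comp (hv.sub continuous_const))) hξc.mul_right
    have i3 := integrable_mul_sq hreg (h := fun x => ξ x * deriv Φ (v x - c))
      (hξ.continuous.mul ((hΦ.continuous_deriv (by simp)).comp (hv.sub continuous_const)))
      hξc.mul_right
    have hpt : ∀ x, ξ x * bumpAt ε (v x - c) * ‖grad u x‖ ^ 2 ≤
        ξ x * deriv Φ (v x - c) * ‖grad u x‖ ^ 2 + B * (|θ x| * ‖grad u x‖ ^ 2) := fun x => by
      have hb : |ξ x * (deriv (valCut M) (v x - c) * odd ε (v x - c))| ≤ |θ x| * B := by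
        rw [abs_mul, abs_mul]
        refine mul_le_mul ?_ ?_ (by positivity) (abs_nonneg _)
        · rw [hξdef, abs_of_nonneg (softAbs_bounds hδ _).1]
          exact (softAbs_bounds hδ _).2.1
        · exact (mul_le_of_le_one_right (abs_nonneg _) (abs_odd_le _ _)).trans (hB _)
      have := mul_le_mul_of_nonneg_right (neg_le_of_abs_le hb) (sq_nonneg ‖grad u x‖)
      rw [hΦd]
      nlinarith [this]
    refine (integral_mono i2 (i3.add (iB.const_mul B)) hpt).trans ?_
    simp only [Pi.add_apply]
    rw [integral_add i3 (iB.const_mul B), integral_const_mul, ← hid]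
    refine add_le_add (integral_mono i1 iG fun x => ?_) le_rfl
    refine (le_abs_self _).trans ?_
    rw [abs_mul, dot_eq_inner]
    refine (mul_le_of_le_one_left (abs_nonneg _) (hΦb _)).trans
      ((abs_real_inner_le_norm _ _).trans (mul_le_mul_of_nonneg_left ?_ (norm_nonneg _)))
    rw [rgrad, norm_mul, Complex.norm_I, one_mul, hξdef,
      grad_comp_real ((contDiff_softAbs hδ).differentiable (by simp) _)
        (hθ.1.differentiable (by simp) x), norm_smul, Real.norm_eq_abs]
    exact mul_le_of_le_one_left (norm_nonneg _) (abs_deriv_softAbs_le hδ _)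
  have hlim : Tendsto (fun n : ℕ => ∫ x, softAbs (1 / ((n : ℝ) + 1)) (θ x) * bumpAt ε (v x - c) *
      ‖grad u x‖ ^ 2) atTop (𝓝 (∫ x, |θ x| * bumpAt ε (v x - c) * ‖grad u x‖ ^ 2)) := by
    refine tendsto_integral_of_dominated_convergence
      (fun x => |θ x| * bumpAt ε (v x - c) * ‖grad u x‖ ^ 2) (fun n => ?_) iK (fun n => ?_) ?_
    · exact (integrable_mul_sq hreg (h := fun x =>
        softAbs (1 / ((n : ℝ) + 1)) (θ x) * bumpAt ε (v x - c))
        (((contDiff_softAbs (by positivity)).continuous.comp hθ.1.continuous).mul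
          ((continuous_bumpAt ε).comp (hv.sub continuous_const)))
        ((hθ.2.1.comp_left (g := softAbs (1 / ((n : ℝ) + 1)))
          (softAbs_zero (by positivity))).mul_right)).1
    · refine Eventually.of_forall fun x => ?_
      have hb := softAbs_bounds (δ := 1 / ((n : ℝ) + 1)) (by positivity) (θ x)
      rw [Real.norm_eq_abs, abs_of_nonneg (mul_nonneg (mul_nonneg hb.1 (bumpAt_nonneg hε _))
        (sq_nonneg _))]
      exact mul_le_mul_of_nonneg_right (mul_le_mul_of_nonneg_right hb.2.1 (bumpAt_nonneg hε _))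
        (sq_nonneg _)
    · refine Eventually.of_forall fun x => (Tendsto.mul_const _ (Tendsto.mul_const _ ?_))
      have h0 := tendsto_one_div_add_atTop_nhds_zero_nat (𝕜 := ℝ)
      refine tendsto_of_tendsto_of_tendsto_of_le_of_le (by simpa using h0.const_sub |θ x|)
        tendsto_const_nhds (fun n => ?_) (fun n => (softAbs_bounds (by positivity) _).2.1)
      have := (softAbs_bounds (δ := 1 / ((n : ℝ) + 1)) (by positivity) (θ x)).2.2
      simp only [one_div] at this ⊢
      linarith
  exact le_of_tendsto hlim (Eventually.of_forall fun n => key _ (by positivity))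

end Trace

open MeasureTheory Filter Metric Set Islands Trace
open scoped Topology ENNReal NNReal ContDiff

/-- The curl of the gradient on one part is linearly bounded in the radius. -/
theorem traceGoal : TraceGoal := by
  intro u K K₁ K₂ χ v c M hS hv hvs hvg hM hc hsep
  obtain ⟨B, hB0, hB⟩ := exists_valCut_bound hM
  have hreg := hS.reg
  set Kc := 64 * Real.pi * (1 + B * TraceBound.kappa) with hKc
  have hκ := TraceBound.kappa_nonneg
  have hpi := Real.pi_gt_three
  refine ⟨2 * Kc, fun R hR θ hθ => ?_⟩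
  have hR0 : 0 < R := lt_of_lt_of_le one_pos hR
  have hθu : IsTest univ θ := hθ.mono (subset_univ _)
  set ξ : ℂ → ℝ := fun x => χ x * θ x with hξdef
  have hξ : ContDiff ℝ ∞ ξ := hS.smooth.mul hθ.1
  have hξc : HasCompactSupport ξ := hθ.2.1.mul_left
  have hD : ∫ x, ‖grad θ x‖ ^ 2 = ∫ x, ‖grad θ x‖ ^ 2 := rfl
  set N := ∫ x, ‖grad θ x‖ ^ 2 with hN
  have hN0 : 0 ≤ N := integral_nonneg fun x => sq_nonneg _
  have hgc : Continuous (grad θ) :=
    continuousOn_univ.1 (contDiffOn_grad isOpen_univ hθ.1.contDiffOn).continuousOn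
  have hgs : HasCompactSupport (grad θ) :=
    HasCompactSupport.intro hθ.2.1.isCompact fun x hx => grad_eq_zero_of_notMem_tsupport hx
  have hgi : Integrable fun x => ‖grad θ x‖ ^ 2 :=
    (hgc.memLp_of_hasCompactSupport hgs).norm.integrable_sq
  have hG : ∀ (z : ℂ) (r : ℝ), IntegrableOn (fun x => ‖grad u x‖ ^ 2) (ball z r) := fun z r =>
    IntegrableOn.mono_set (t := ball 0 (dist z 0 + r)) (hreg.memLp (dist z 0 + r)).norm.integrable_sq
      (ball_subset_ball' (by linarith))
  -- the energy as a measure on the disk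
  set dens : ℂ → ℝ≥0∞ := fun x => ENNReal.ofReal (‖grad u x‖ ^ 2) with hdens
  set μ := ((volume : Measure ℂ).restrict (ball 0 R)).withDensity dens with hμ
  have hdm : AEMeasurable dens ((volume : Measure ℂ).restrict (ball 0 R)) :=
    (hG 0 R).1.aemeasurable.ennreal_ofReal
  have hball : ∀ z r, 0 ≤ r → μ (ball z r) ≤ ENNReal.ofReal (2 * Real.pi * r) := by
    intro z r hr
    rw [hμ, withDensity_apply _ measurableSet_ball, Measure.restrict_restrict measurableSet_ball]
    refine (lintegral_mono_set inter_subset_left).trans ?_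
    rw [← ofReal_integral_eq_lintegral_ofReal (hG z r) (Eventually.of_forall fun x => sq_nonneg _)]
    exact ENNReal.ofReal_le_ofReal (hS.density z r hr).2
  have hmass : μ univ ≤ ENNReal.ofReal (2 * Real.pi * R) := by
    rw [hμ, withDensity_apply _ MeasurableSet.univ, Measure.restrict_univ,
      ← ofReal_integral_eq_lintegral_ofReal (hG 0 R) (Eventually.of_forall fun x => sq_nonneg _)]
    exact ENNReal.ofReal_le_ofReal (hS.density 0 R hR0.le).2
  have hfin : IsFiniteMeasure μ := ⟨hmass.trans_lt ENNReal.ofReal_lt_top⟩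
  have hsupp : μ (ball 0 R)ᶜ = 0 := by
    rw [hμ, withDensity_apply _ measurableSet_ball.compl,
      Measure.restrict_restrict measurableSet_ball.compl, compl_inter_self, Measure.restrict_empty,
      lintegral_zero_measure]
  have hθa : Continuous fun x => |θ x| := hθ.1.continuous.abs
  have hθas : HasCompactSupport fun x => |θ x| := hθ.2.1.comp_left (g := abs) abs_zero
  have iB := integrable_mul_sq hreg hθa hθas
  have hlow : ∫⁻ x, ENNReal.ofReal |θ x| ∂μ = ENNReal.ofReal (∫ x, |θ x| * ‖grad u x‖ ^ 2) := by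
    rw [hμ, lintegral_withDensity_eq_lintegral_mul₀ hdm hθa.aemeasurable.ennreal_ofReal,
      ofReal_integral_eq_lintegral_ofReal iB (Eventually.of_forall fun x =>
        mul_nonneg (abs_nonneg _) (sq_nonneg _))]
    refine Eq.trans ?_ (setLIntegral_eq_of_support_subset (s := ball 0 R) ?_)
    · refine lintegral_congr fun x => ?_
      simp only [Pi.mul_apply, hdens]
      rw [mul_comm, ← ENNReal.ofReal_mul (abs_nonneg _)]
    · intro x hx
      by_contra hn
      exact hx (by simp [image_eq_zero_of_notMem_tsupport fun h => hn (hθ.2.2 h)])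
  set X := ∫ x, dot (grad u x) (rgrad ξ x) with hX
  -- bound for each value of the parameter
  have key : ∀ s > 0, |X| ≤ Kc * R * (s * N + 1 / s) := by
    intro s hs
    have hI : ∫ x, |θ x| * ‖grad u x‖ ^ 2 ≤
        TraceBound.kappa * R * (s * N + 16 * (2 * Real.pi) ^ 2 / (Real.pi * s)) := by
      have h := TraceBound.lintegral_test_le (μ := μ) (A := 2 * Real.pi) (by positivity) hR0 hball
        hmass hsupp hθ hs
      rw [hlow] at h
      exact (ENNReal.ofReal_le_ofReal_iff (by positivity)).1 h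
    have hJ : ∫ x, ‖grad u x‖ * ‖grad θ x‖ ≤ R * (s * N + Real.pi / s) := by
      have iu : Integrable ((ball (0 : ℂ) R).indicator fun x => ‖grad u x‖ ^ 2) :=
        (hG 0 R).integrable_indicator measurableSet_ball
      refine (integral_mono_of_nonneg (Eventually.of_forall fun x => by positivity)
        ((hgi.const_mul (s * R / 2)).add (iu.const_mul (1 / (2 * (s * R)))))
        (Eventually.of_forall fun x => ?_)).trans ?_
      · show ‖grad u x‖ * ‖grad θ x‖ ≤ s * R / 2 * ‖grad θ x‖ ^ 2 +
          1 / (2 * (s * R)) * (ball (0 : ℂ) R).indicator (fun x => ‖grad u x‖ ^ 2) x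
        by_cases hx : x ∈ ball (0 : ℂ) R
        · rw [indicator_of_mem hx, mul_comm ‖grad u x‖]
          exact TraceBound.am_gm (by positivity)
        · simp [grad_eq_zero_of_notMem_tsupport fun h => hx (hθ.2.2 h), indicator_of_notMem hx]
      · simp only [Pi.add_apply]
        rw [integral_add (hgi.const_mul _) (iu.const_mul _), integral_const_mul,
          integral_const_mul, integral_indicator measurableSet_ball, ← hN]
        have h2 : 1 / (2 * (s * R)) * ∫ x in ball (0 : ℂ) R, ‖grad u x‖ ^ 2 ≤ Real.pi / s := by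
          refine (mul_le_mul_of_nonneg_left (hS.density 0 R hR0.le).2 (by positivity)).trans
            (le_of_eq ?_)
          field_simp
        have h3 : Real.pi / s ≤ R * (Real.pi / s) := le_mul_of_one_le_left (by positivity) hR
        have h4 : 0 ≤ R * (s * N) := by positivity
        linarith [mul_add R (s * N) (Real.pi / s)]
    have hbound : ∀ ε > 0, ε ≤ M / 3 →
        |∫ x, even ε (v x - c) * dot (grad u x) (rgrad ξ x)| ≤
          (∫ x, ‖grad u x‖ * ‖grad θ x‖) + B * ∫ x, |θ x| * ‖grad u x‖ ^ 2 := by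
      intro ε hε hεM
      have hzero : ∀ z ∈ K, (∀ᶠ y in 𝓝 z, even ε (v y - c) = 0) ∨ ∀ᶠ y in 𝓝 z, ξ y = 0 := by
        intro z hz
        rcases (hS.union.symm ▸ hz : z ∈ K₁ ∪ K₂) with h | h
        · left
          have ht : Tendsto (fun y => |v y - c|) (𝓝 z) (𝓝 |v z - c|) :=
            (hv.sub continuous_const).abs.tendsto z
          rw [hc z h, sub_self, abs_zero] at ht
          filter_upwards [ht.eventually_lt_const (show (0 : ℝ) < ε / 2 by linarith)] with y hy
          exact even_eq_zero hε hy.le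
        · right
          filter_upwards [nhds_le_nhdsSet h hS.zero] with y hy
          simp [hξdef, hy]
      rw [step_identity hreg hv hvs hvg (contDiff_even ε) hξ hξc hzero]
      refine le_trans ?_ (bump_energy_le hreg hv hvs hvg hM hsep hB hε hεM hθu)
      refine (abs_integral_le_integral_abs).trans (integral_mono_of_nonneg
        (Eventually.of_forall fun x => abs_nonneg _) ?_ (Eventually.of_forall fun x => ?_))
      · exact integrable_mul_sq hreg (h := fun x => |θ x| * bumpAt ε (v x - c))
          (hθa.mul ((continuous_bumpAt ε).comp (hv.sub continuous_const))) hθas.mul_right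
      · show |ξ x * deriv (even ε) (v x - c) * ‖grad u x‖ ^ 2| ≤ _
        rw [abs_mul, abs_mul, abs_of_nonneg (sq_nonneg ‖grad u x‖)]
        refine mul_le_mul_of_nonneg_right ?_ (sq_nonneg _)
        refine mul_le_mul ?_ (abs_deriv_even_le hε _) (abs_nonneg _) (abs_nonneg _)
        rw [hξdef, abs_mul, abs_of_nonneg (hS.range x).1]
        exact mul_le_of_le_one_left (abs_nonneg _) (hS.range x).2
    have iX : Integrable fun x => dot (grad u x) (rgrad ξ x) := by
      simpa using integrable_mul_pairing hreg (h := fun _ => (1 : ℝ)) continuous_const hξ hξc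
    have hlim : Tendsto (fun n : ℕ => ∫ x, even (M / 3 / ((n : ℝ) + 1)) (v x - c) *
        dot (grad u x) (rgrad ξ x)) atTop (𝓝 X) := by
      refine tendsto_integral_of_dominated_convergence
        (fun x => ‖dot (grad u x) (rgrad ξ x)‖) (fun n => ?_) iX.norm (fun n => ?_) ?_
      · exact (((contDiff_even _).continuous.comp (hv.sub continuous_const)).aestronglyMeasurable.mul
          iX.1)
      · refine Eventually.of_forall fun x => ?_
        rw [norm_mul]
        exact mul_le_of_le_one_left (norm_nonneg _) (abs_even_le (by positivity) _)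
      · filter_upwards [grad_eq_zero_on_level (c := c) hreg hv hvs hvg] with x hx
        by_cases hxc : v x = c
        · simp [hx hxc, dot]
        · have h0 : Tendsto (fun n : ℕ => M / 3 / ((n : ℝ) + 1)) atTop (𝓝 0) := by
            have := (tendsto_one_div_add_atTop_nhds_zero_nat (𝕜 := ℝ)).const_mul (M / 3)
            simpa [div_eq_mul_inv] using this
          refine tendsto_const_nhds.congr' ?_
          filter_upwards [h0.eventually_le_const (abs_pos.2 (sub_ne_zero.2 hxc))] with n hn
          rw [even_eq_one (by positivity) hn, one_mul]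
    refine (le_of_tendsto hlim.abs (Eventually.of_forall fun n => hbound _ (by positivity) ?_)).trans ?_
    · exact div_le_self (by positivity) (by linarith [(Nat.cast_nonneg n : (0 : ℝ) ≤ n)])
    · refine (add_le_add hJ (mul_le_mul_of_nonneg_left hI hB0)).trans ?_
      have e : 16 * (2 * Real.pi) ^ 2 / (Real.pi * s) = 64 * Real.pi * (1 / s) := by
        field_simp; ring
      rw [e, div_eq_mul_one_div Real.pi s]
      have hsN : 0 ≤ R * (s * N) := by positivity
      have hbk : 0 ≤ B * TraceBound.kappa := by positivity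
      have hs1 : 0 ≤ R * (1 / s) := by positivity
      rw [hKc]
      nlinarith [mul_nonneg hbk hsN, mul_nonneg hbk hs1,
        mul_nonneg (mul_nonneg hbk hsN) Real.pi_nonneg, mul_nonneg hsN Real.pi_nonneg,
        mul_nonneg hs1 Real.pi_nonneg, mul_nonneg (mul_nonneg hbk hs1) Real.pi_nonneg]
  have hK0 : 0 ≤ Kc := by positivity
  rcases hN0.eq_or_lt with h0 | hpos
  · have : |X| ≤ 0 := by
      refine ge_of_tendsto (tendsto_const_nhds.div_atTop tendsto_id :
        Tendsto (fun s : ℝ => Kc * R / s) atTop (𝓝 0)) ?_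
      filter_upwards [eventually_gt_atTop (0 : ℝ)] with s hs
      have h := key s hs
      rw [← h0, mul_zero, zero_add, mul_one_div] at h
      exact h
    exact this.trans (by positivity)
  · have hq : 0 < Real.sqrt N := Real.sqrt_pos.2 hpos
    refine (key (1 / Real.sqrt N) (by positivity)).trans (le_of_eq ?_)
    have e : N = Real.sqrt N * Real.sqrt N := (Real.mul_self_sqrt hN0).symm
    conv_lhs => arg 2; arg 1; arg 2; rw [e]
    field_simp
    ring

end Vale.Agent.P128.Connected
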