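import Vale.Agent.P128.Connected.Assembly
import Vale.Agent.P128.Connected.Continua
import Vale.Agent.P128.Connected.Cover
import Vale.Agent.P128.Connected.Cross
import Vale.Agent.P128.Connected.Gain
import Vale.Agent.P128.Connected.Layers
import Vale.Agent.P128.Connected.Limit
import Vale.Agent.P128.Connected.OffCritical
import Vale.Agent.P128.Connected.Potential
import Vale.Agent.P128.Connected.Removal
import Vale.Agent.P128.Connected.SecondVar
import Vale.Agent.P128.Connected.Trace
import Vale.Agent.P128.Islands.Assembly
import Vale.Agent.P128.Islands.Topology
import Vale.Agent.P128.Islands.Tools

/-!
# Connectedness of the singular set: all modules together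
-/

namespace Vale.Agent.P128.Connected

open Islands

theorem connectedGoal_of (hPot : PotentialGoal) (hCC : CurveConstantGoal) :
    ConnectedGoal :=
  connected_of weylGoal lengthGoal
    (unboundedComponents_of splitGoal (islandGoal_of projectionGoal separationGoal lengthGoal)
      (countGoal lengthGoal))
    criticalGoal (densityGoal lengthGoal) coverGoal continuumGoal curvePiecesGoal piecesUnionGoal
    hPot hCC traceGoal layersGoal limitGoal (gainGoal identityGoal crossGoal secondVarGoal)
    offCriticalGoal removalGoal

/-- A singular set which does not disconnect the plane is connected. -/
theorem connectedGoal : ConnectedGoal :=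
  connectedGoal_of potentialGoal curveConstantGoal

end Vale.Agent.P128.Connected
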