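import Vale.Agent.P128.Connected.Removal

/-!
# The conjugate potential

The rotated gradient is curl free on the plane. The primitives of its mollifications at the
scales `4⁻ⁿ` differ by `O(2⁻ⁿ)`, because the gradient is small in mean on small disks.
-/

noncomputable section

namespace Vale.Agent.P128.Connected

open MeasureTheory Filter Metric Set Islands Islands.Weak
open scoped Topology ENNReal NNReal ContDiff Convolution

variable {u f : ℂ → ℝ} {K : Set ℂ} {B : ℝ}

/-- A bound for all the mollifying kernels. -/
def KerBound (B : ℝ) : Prop := ∀ (t : ℝ) (z : ℂ), |Weak.ker t z| ≤ B / t ^ 2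

lemma locallyIntegrable_rgrad_comp (hR : Reg u K) (p : ℂ →L[ℝ] ℝ) :
    LocallyIntegrable fun x => p (rgrad u x) := by
  refine locallyIntegrable_iff.2 fun k hk => ?_
  obtain ⟨r, hr⟩ := hk.isBounded.subset_ball (0 : ℂ)
  have : IsFiniteMeasure ((volume : Measure ℂ).restrict (ball 0 r)) :=
    isFiniteMeasure_restrict.2 measure_ball_lt_top.ne
  have h : MemLp (fun x => rgrad u x) 2 (volume.restrict (ball 0 r)) :=
    (hR.memLp r).const_mul Complex.I
  have hi : IntegrableOn (fun x => p (rgrad u x)) (ball 0 r) :=
    p.integrable_comp (h.integrable one_le_two)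
  exact hi.mono_set hr

lemma contDiff_moll (hf : LocallyIntegrable f) {a : ℝ} (ha : 0 < a) :
    ContDiff ℝ ∞ (moll a f) := by
  rw [moll_eq_conv]
  exact (hasCompactSupport_ker ha).contDiff_convolution_left _ (contDiff_ker a) hf

lemma isTest_ker_translate {a : ℝ} (ha : 0 < a) (x : ℂ) :
    IsTest univ fun t => ker a (x - t) :=
  ⟨(contDiff_ker a).comp (contDiff_const.sub contDiff_id),
    (hasCompactSupport_ker ha).comp_homeomorph (Homeomorph.subLeft x), subset_univ _⟩

lemma fderiv_moll (hf : LocallyIntegrable f) {a : ℝ} (ha : 0 < a) (x v : ℂ) :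
    fderiv ℝ (moll a f) x v = -∫ y, f y * fderiv ℝ (fun t => ker a (x - t)) y v := by
  have hc := hasCompactSupport_ker ha
  have hd : Differentiable ℝ (ker a) := (contDiff_ker a).differentiable (by simp)
  have h := hc.hasFDerivAt_convolution_left (ContinuousLinearMap.lsmul ℝ ℝ) (μ := volume)
    ((contDiff_ker a).of_le (WithTop.coe_le_coe.2 le_top)) hf x
  rw [moll_eq_conv, h.fderiv, convolution_def, ContinuousLinearMap.integral_apply, ← integral_neg]
  · rw [← integral_sub_left_eq_self _ volume x]
    refine integral_congr_ae (Eventually.of_forall fun y => ?_)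
    have h2 : HasFDerivAt (fun t => ker a (x - t))
        ((fderiv ℝ (ker a) (x - y)).comp (-ContinuousLinearMap.id ℝ ℂ)) y :=
      (hd (x - y)).hasFDerivAt.comp y ((hasFDerivAt_id y).const_sub x)
    simp [h2.fderiv, mul_comm]
  · exact ((hc.fderiv ℝ).convolutionExists_left _
      ((contDiff_ker a).continuous_fderiv (by simp)) hf x).integrable

lemma fderiv_moll_eq_moll (hf : ContDiff ℝ ∞ f) {a : ℝ} (ha : 0 < a) (x v : ℂ) :
    fderiv ℝ (moll a f) x v = moll a (fun y => fderiv ℝ f y v) x := by
  rw [fderiv_moll hf.continuous.locallyIntegrable ha,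
    ← integral_fderiv_mul_test isOpen_univ hf.contDiffOn (isTest_ker_translate ha x)]
  refine integral_congr_ae (Eventually.of_forall fun y => ?_)
  simp [ker_sub_comm]

lemma moll_comm {p : ℂ → ℝ} (hp : LocallyIntegrable p) {a b : ℝ} (ha : 0 < a) (hb : 0 < b)
    (hB : KerBound B) (x : ℂ) :
    moll b (moll a p) x = moll a (moll b p) x := by
  have key : ∀ s t : ℝ, 0 < s → 0 < t → moll t (moll s p) x =
      ∫ z, p z * ∫ y, ker s (z - y) * ker t (y - x) := by
    intro s t hs ht
    have hk : Integrable fun y => B / s ^ 2 * |ker t (y - x)| :=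
      ((((contDiff_ker t).continuous.comp (continuous_id.sub continuous_const)
        ).integrable_of_hasCompactSupport ((hasCompactSupport_ker ht).comp_homeomorph
          (Homeomorph.subRight x))).abs).const_mul _
    have hz : Integrable ((closedBall x (s + t)).indicator fun z => ‖p z‖) :=
      IntegrableOn.integrable_indicator (hp.integrableOn_isCompact (isCompact_closedBall _ _)).norm
        isClosed_closedBall.measurableSet
    have hint : Integrable (Function.uncurry fun y z => p z * (ker s (z - y) * ker t (y - x)))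
        (volume.prod volume) := by
      refine (hk.mul_prod hz).mono' ?_ (Eventually.of_forall fun q => ?_)
      · exact (hp.aestronglyMeasurable.comp_snd).mul
          ((((contDiff_ker s).continuous.comp (continuous_snd.sub continuous_fst)).mul
            ((contDiff_ker t).continuous.comp (continuous_fst.sub continuous_const))
              ).aestronglyMeasurable)
      · obtain ⟨y, z⟩ := q
        simp only [Function.uncurry, norm_mul, Real.norm_eq_abs]
        by_cases hzm : z ∈ closedBall x (s + t)
        · rw [indicator_of_mem hzm, mul_comm |p z|]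
          exact mul_le_mul_of_nonneg_right
            (mul_le_mul_of_nonneg_right (hB s _) (abs_nonneg _)) (abs_nonneg _)
        · have h0 : ker s (z - y) = 0 ∨ ker t (y - x) = 0 := by
            by_cases h1 : s < ‖z - y‖
            · exact Or.inl (ker_eq_zero hs h1)
            · refine Or.inr (ker_eq_zero ht ?_)
              rw [mem_closedBall, dist_eq_norm, not_le] at hzm
              linarith [norm_sub_le_norm_sub_add_norm_sub z y x]
          rw [indicator_of_notMem hzm]
          rcases h0 with h0 | h0 <;> simp [h0]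
    calc moll t (moll s p) x = ∫ y, ∫ z, p z * (ker s (z - y) * ker t (y - x)) := by
          refine integral_congr_ae (Eventually.of_forall fun y => ?_)
          dsimp only [moll]
          rw [← integral_mul_const]
          simp [mul_assoc]
      _ = ∫ z, ∫ y, p z * (ker s (z - y) * ker t (y - x)) := integral_integral_swap hint
      _ = _ := by simp [integral_const_mul]
  rw [key a b ha hb, key b a hb ha]
  refine integral_congr_ae (Eventually.of_forall fun z => ?_)
  dsimp only
  congr 1
  rw [← integral_sub_left_eq_self (fun y => ker a (z - y) * ker b (y - x)) volume (z + x)]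
  refine integral_congr_ae (Eventually.of_forall fun y => ?_)
  dsimp only
  rw [show z - (z + x - y) = y - x by ring, show z + x - y - x = z - y by ring, mul_comm]

lemma abs_moll_le (hf : LocallyIntegrable f) (hB : KerBound B) {a : ℝ}
    (ha : 0 < a) (x : ℂ) : |moll a f x| ≤ B / a ^ 2 * ∫ y in closedBall x a, |f y| := by
  rw [← integral_const_mul, ← integral_indicator isClosed_closedBall.measurableSet]
  refine abs_integral_le_integral_abs.trans (integral_mono_of_nonneg
    (Eventually.of_forall fun y => abs_nonneg _) ?_ (Eventually.of_forall fun y => ?_))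
  · exact IntegrableOn.integrable_indicator
      ((hf.integrableOn_isCompact (isCompact_closedBall x a)).abs.const_mul _)
      isClosed_closedBall.measurableSet
  · by_cases hy : y ∈ closedBall x a
    · rw [indicator_of_mem hy]
      show |_| ≤ _
      rw [abs_mul, mul_comm]
      exact mul_le_mul_of_nonneg_right (hB a _) (abs_nonneg _)
    · rw [indicator_of_notMem hy]
      rw [mem_closedBall, dist_eq_norm, not_le] at hy
      simp [ker_eq_zero ha hy]

lemma abs_moll_sub_le (hf : LocallyIntegrable f) (hB : KerBound B) {a : ℝ}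
    (ha : 0 < a) (x : ℂ) {δ : ℝ} (hδ : ∀ y ∈ closedBall x a, |f y - f x| ≤ δ) :
    |moll a f x - f x| ≤ δ * (B * Real.pi) := by
  have hi := integrable_ker_mul hf ha x
  have hc : Integrable fun y => f x * ker a (y - x) :=
    (((contDiff_ker a).continuous.comp
      (continuous_id.sub continuous_const)).integrable_of_hasCompactSupport
      ((hasCompactSupport_ker ha).comp_homeomorph (Homeomorph.subRight x))).const_mul _
  have hl : LocallyIntegrable fun y => f y - f x :=
    hf.sub continuous_const.locallyIntegrable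
  have e : moll a f x - f x = moll a (fun y => f y - f x) x := by
    simp only [moll, sub_mul]
    rw [integral_sub hi hc, integral_const_mul, integral_sub_right_eq_self, integral_ker ha,
      mul_one]
  rw [e]
  refine (abs_moll_le hl hB ha x).trans ?_
  have hB0 : 0 ≤ B / a ^ 2 := (abs_nonneg _).trans (hB a 0)
  have hvol : (volume : Measure ℂ).real (closedBall x a) = a ^ 2 * Real.pi := by
    simp [measureReal_def, Complex.volume_closedBall, ha.le]
  refine (mul_le_mul_of_nonneg_left (setIntegral_mono_on
    (hl.integrableOn_isCompact (isCompact_closedBall x a)).abs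
    (integrableOn_const (isCompact_closedBall x a).measure_lt_top.ne)
    isClosed_closedBall.measurableSet hδ) hB0).trans_eq ?_
  rw [setIntegral_const, hvol, smul_eq_mul]
  field_simp

/-- Mollifications of components of the rotated gradient are small. -/
lemma abs_moll_rgrad_le (hR : Reg u K) (hD : HasDensityBound u K)
    (hB : KerBound B) (hB0 : 0 ≤ B) (p : ℂ →L[ℝ] ℝ)
    (hp : ∀ z, |p z| ≤ ‖z‖) {a : ℝ} (ha : 0 < a) (x : ℂ) :
    |moll a (fun y => p (rgrad u y)) x| ≤ 4 * Real.pi * B / Real.sqrt a := by
  have hl := locallyIntegrable_rgrad_comp hR p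
  have hsq : 0 < Real.sqrt a := Real.sqrt_pos.2 ha
  have hsqsq : Real.sqrt a * Real.sqrt a = a := Real.mul_self_sqrt ha.le
  set Q := ball x (2 * a) with hQ
  have hvol : (volume : Measure ℂ).real Q = (2 * a) ^ 2 * Real.pi := by
    simp [hQ, measureReal_def, Complex.volume_ball, ha.le]
  have hG : IntegrableOn (fun y => ‖grad u y‖ ^ 2) Q := by
    obtain ⟨r, hr⟩ := (isBounded_ball (x := x) (r := 2 * a)).subset_ball (0 : ℂ)
    exact IntegrableOn.mono_set (hR.memLp r).norm.integrable_sq hr
  have hc : IntegrableOn (fun _ : ℂ => 1 / Real.sqrt a) Q :=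
    integrableOn_const measure_ball_lt_top.ne
  have hs : IntegrableOn (fun y => Real.sqrt a * ‖grad u y‖ ^ 2) Q := hG.const_mul _
  have hlQ : IntegrableOn (fun y => |p (rgrad u y)|) Q :=
    IntegrableOn.mono_set (hl.integrableOn_isCompact (isCompact_closedBall x (2 * a))).abs
      ball_subset_closedBall
  have h1 : ∫ y in closedBall x a, |p (rgrad u y)| ≤ 4 * Real.pi * a ^ 2 / Real.sqrt a :=
    calc ∫ y in closedBall x a, |p (rgrad u y)| ≤ ∫ y in Q, |p (rgrad u y)| :=
          setIntegral_mono_set hlQ (Eventually.of_forall fun y => abs_nonneg _)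
            (closedBall_subset_ball (by linarith : a < 2 * a)).eventuallyLE
      _ ≤ ∫ y in Q, (Real.sqrt a * ‖grad u y‖ ^ 2 + 1 / Real.sqrt a) / 2 := by
          refine setIntegral_mono hlQ ((hs.add hc).div_const 2) fun y => ?_
          refine (hp _).trans ?_
          rw [rgrad, norm_mul, Complex.norm_I, one_mul]
          have hsq0 := sq_nonneg (Real.sqrt a * ‖grad u y‖ - 1)
          have h2 : (Real.sqrt a * ‖grad u y‖ ^ 2 + 1 / Real.sqrt a) / 2 - ‖grad u y‖ =
              (Real.sqrt a * ‖grad u y‖ - 1) ^ 2 / (2 * Real.sqrt a) := by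
            field_simp
            ring
          linarith [div_nonneg hsq0 (by positivity : (0 : ℝ) ≤ 2 * Real.sqrt a)]
      _ = (Real.sqrt a * (∫ y in Q, ‖grad u y‖ ^ 2) +
            (2 * a) ^ 2 * Real.pi * (1 / Real.sqrt a)) / 2 := by
          rw [integral_div, integral_add hs hc, integral_const_mul, setIntegral_const, hvol,
            smul_eq_mul]
      _ ≤ (Real.sqrt a * (2 * Real.pi * (2 * a)) +
            (2 * a) ^ 2 * Real.pi * (1 / Real.sqrt a)) / 2 := by
          have := mul_le_mul_of_nonneg_left (hD x (2 * a) (by linarith)).2 hsq.le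
          linarith
      _ = 4 * Real.pi * a ^ 2 / Real.sqrt a := by
          field_simp
          rw [Real.sq_sqrt ha.le]
          ring
  refine ((abs_moll_le hl hB ha x).trans (mul_le_mul_of_nonneg_left h1 (by positivity))).trans_eq ?_
  field_simp

/-- The mollified rotated gradient. -/
def mollField (u : ℂ → ℝ) (a : ℝ) (x : ℂ) : ℂ :=
  ⟨moll a (fun y => (rgrad u y).re) x, moll a (fun y => (rgrad u y).im) x⟩

lemma norm_mollField_le (hR : Reg u K) (hD : HasDensityBound u K)
    (hB : KerBound B) (hB0 : 0 ≤ B) {a : ℝ} (ha : 0 < a) (x : ℂ) :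
    ‖mollField u a x‖ ≤ 8 * Real.pi * B / Real.sqrt a := by
  refine (Complex.norm_le_abs_re_add_abs_im _).trans ?_
  have h1 := abs_moll_rgrad_le hR hD hB hB0 Complex.reCLM (fun z => Complex.abs_re_le_norm z) ha x
  have h2 := abs_moll_rgrad_le hR hD hB hB0 Complex.imCLM (fun z => Complex.abs_im_le_norm z) ha x
  simp only [Complex.reCLM_apply, Complex.imCLM_apply] at h1 h2
  calc |(mollField u a x).re| + |(mollField u a x).im|
      ≤ 4 * Real.pi * B / Real.sqrt a + 4 * Real.pi * B / Real.sqrt a := add_le_add h1 h2
    _ = _ := by ring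

/-- The mollified field has a primitive vanishing at the origin. -/
lemma exists_mollPotential (hR : Reg u K) {a : ℝ} (ha : 0 < a) :
    ∃ W : ℂ → ℝ, ContDiff ℝ ∞ W ∧ (∀ x, grad W x = mollField u a x) ∧ W 0 = 0 := by
  set p := fun y => (rgrad u y).re
  set q := fun y => (rgrad u y).im
  have hp : LocallyIntegrable p := locallyIntegrable_rgrad_comp hR Complex.reCLM
  have hq : LocallyIntegrable q := locallyIntegrable_rgrad_comp hR Complex.imCLM
  have hs : ContDiff ℝ ∞ (mollField u a) := by
    have e : mollField u a = fun x => Complex.equivRealProdCLM.symm (moll a p x, moll a q x) := by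
      funext x
      simp [mollField, p, q, Complex.ext_iff]
    rw [e]
    exact Complex.equivRealProdCLM.symm.contDiff.comp
      ((contDiff_moll hp ha).prodMk (contDiff_moll hq ha))
  obtain ⟨W, hW, hWg⟩ := exists_primitive hs dense_univ fun z _ => by
    have hd := hs.differentiable (by simp) z
    rw [← fderiv_re_apply hd, ← fderiv_im_apply hd]
    change fderiv ℝ (moll a p) z Complex.I = fderiv ℝ (moll a q) z 1
    rw [fderiv_moll hp ha, fderiv_moll hq ha, neg_inj]
    set θ := fun t => ker a (z - t)
    have ht : IsTest univ θ := isTest_ker_translate ha z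
    have h0 := hR.euler ht.1.contDiffOn ht.2.1 (Islands.memLp_grad_test ht)
    have e : (fun y => dot (grad u y) (grad θ y)) = fun y =>
        q y * fderiv ℝ θ y 1 - p y * fderiv ℝ θ y Complex.I := by
      funext y
      simp only [p, q, dot, rgrad_re, rgrad_im, grad_re, grad_im]
      ring
    rw [e, integral_sub, sub_eq_zero] at h0
    · exact h0.symm
    · simpa using hq.integrable_smul_right_of_hasCompactSupport (ht.fderiv_apply 1).1.continuous
        (ht.fderiv_apply 1).2.1
    · simpa using hp.integrable_smul_right_of_hasCompactSupport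
        (ht.fderiv_apply Complex.I).1.continuous (ht.fderiv_apply Complex.I).2.1
  refine ⟨fun x => W x - W 0, hW.sub contDiff_const, fun x => ?_, sub_self _⟩
  rw [grad_sub (hW.differentiable (by simp) x) (differentiableAt_const _), hWg]
  simp [grad, Complex.ext_iff]

lemma fderiv_eq_dotL {W : ℂ → ℝ} {x : ℂ} : fderiv ℝ W x = dotL (grad W x) := by
  refine ContinuousLinearMap.ext fun v => ?_
  conv_lhs => rw [show v = v.re • (1 : ℂ) + v.im • Complex.I by simp, map_add, map_smul, map_smul]
  simp only [dotL_apply, dot, grad_re, grad_im, smul_eq_mul]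
  ring

lemma norm_dotL_le (v : ℂ) : ‖dotL v‖ ≤ ‖v‖ :=
  ContinuousLinearMap.opNorm_le_bound _ (norm_nonneg v) fun w => by
    rw [dotL_apply, Real.norm_eq_abs]
    exact abs_dot_le v w

/-- Primitives at two scales are uniformly close. -/
lemma abs_mollPotential_sub_le (hR : Reg u K) (hD : HasDensityBound u K)
    (hB : KerBound B) (hB0 : 0 ≤ B) {a b : ℝ} (ha : 0 < a) (hb : 0 < b)
    {V W : ℂ → ℝ} (hV : ContDiff ℝ ∞ V) (hW : ContDiff ℝ ∞ W)
    (hVg : ∀ x, grad V x = mollField u a x) (hWg : ∀ x, grad W x = mollField u b x)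
    (hV0 : V 0 = 0) (hW0 : W 0 = 0) (x : ℂ) :
    |V x - W x| ≤ 2 * (8 * Real.pi * B * (B * Real.pi) * (b / Real.sqrt a + a / Real.sqrt b)) := by
  have hlip : ∀ (c : ℝ), 0 < c → ∀ Z : ℂ → ℝ, ContDiff ℝ ∞ Z →
      (∀ x, grad Z x = mollField u c x) → ∀ (d : ℝ), 0 < d → ∀ y,
        |moll d Z y - Z y| ≤ 8 * Real.pi * B / Real.sqrt c * d * (B * Real.pi) := by
    intro c hc Z hZ hZg d hd y
    refine abs_moll_sub_le hZ.continuous.locallyIntegrable hB hd y fun z hz => ?_
    have h := convex_univ.norm_image_sub_le_of_norm_fderiv_le (f := Z) (x := y) (y := z)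
      (fun w _ => hZ.differentiable (by simp) w)
      (fun w _ => by
        rw [fderiv_eq_dotL, hZg]
        exact (norm_dotL_le _).trans (norm_mollField_le hR hD hB hB0 hc w))
      (mem_univ _) (mem_univ _)
    rw [Real.norm_eq_abs] at h
    rw [mem_closedBall, dist_eq_norm] at hz
    exact h.trans (mul_le_mul_of_nonneg_left hz (by positivity))
  set F := fun y => moll b V y - moll a W y with hF
  have dV := (contDiff_moll hV.continuous.locallyIntegrable hb).differentiable (by simp)
  have dW := (contDiff_moll hW.continuous.locallyIntegrable ha).differentiable (by simp)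
  have hF0 : ∀ y, fderiv ℝ F y = 0 := fun y => by
    refine fderiv_eq_zero_of_grad ?_
    rw [hF, grad_sub (dV y) (dW y), sub_eq_zero]
    apply Complex.ext
    · rw [grad_re, grad_re, fderiv_moll_eq_moll hV hb, fderiv_moll_eq_moll hW ha]
      simp only [← grad_re, hVg, hWg, mollField]
      exact moll_comm (locallyIntegrable_rgrad_comp hR Complex.reCLM) ha hb hB y
    · rw [grad_im, grad_im, fderiv_moll_eq_moll hV hb, fderiv_moll_eq_moll hW ha]
      simp only [← grad_im, hVg, hWg, mollField]
      exact moll_comm (locallyIntegrable_rgrad_comp hR Complex.imCLM) ha hb hB y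
  have hconst := is_const_of_fderiv_eq_zero (fun y => (dV y).sub (dW y)) hF0 x 0
  replace hconst : moll b V x - moll a W x = moll b V 0 - moll a W 0 := hconst
  have v1 := hlip a ha V hV hVg b hb x
  have v2 := hlip b hb W hW hWg a ha x
  have v3 := hlip a ha V hV hVg b hb 0
  have v4 := hlip b hb W hW hWg a ha 0
  rw [hV0, sub_zero] at v3
  rw [hW0, sub_zero] at v4
  rw [show 2 * (8 * Real.pi * B * (B * Real.pi) * (b / Real.sqrt a + a / Real.sqrt b)) =
    2 * (8 * Real.pi * B / Real.sqrt a * b * (B * Real.pi)) +
      2 * (8 * Real.pi * B / Real.sqrt b * a * (B * Real.pi)) by ring, abs_le]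
  rw [abs_le] at v1 v2 v3 v4
  constructor <;> linarith [v1.1, v1.2, v2.1, v2.2, v3.1, v3.2, v4.1, v4.2]

/-- The conjugate potential exists. -/
theorem potentialFieldGoal : PotentialGoal := by
  intro u K hR hD
  obtain ⟨B, hB0, hB⟩ := exists_ker_bound
  set a : ℕ → ℝ := fun n => (1 / 4) ^ n with hadef
  have ha : ∀ n, 0 < a n := fun n => by positivity
  have hsq : ∀ n, Real.sqrt (a n) = (1 / 2) ^ n := fun n => by
    rw [Real.sqrt_eq_iff_mul_self_eq (ha n).le (by positivity), hadef]
    simp only [← mul_pow]
    norm_num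
  choose V hVs hVg hV0 using fun n => exists_mollPotential hR (ha n)
  set C := 2 * (8 * Real.pi * B * (B * Real.pi) * (9 / 4)) with hC
  have hgeo : ∀ x n, dist (V n x) (V (n + 1) x) ≤ C * (1 / 2) ^ n := by
    intro x n
    rw [Real.dist_eq]
    refine (abs_mollPotential_sub_le hR hD hB hB0 (ha n) (ha (n + 1)) (hVs n) (hVs _) (hVg n)
      (hVg _) (hV0 n) (hV0 _) x).trans_eq ?_
    have e1 : a n = (1 / 2) ^ n * (1 / 2) ^ n := by
      rw [hadef, ← mul_pow]
      norm_num
    have e2 : a (n + 1) = a n / 4 := by
      rw [hadef]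
      simp only [pow_succ]
      ring
    rw [hC, hsq, hsq, e2, e1, pow_succ]
    field_simp
    ring
  choose v hv using fun x => cauchySeq_tendsto_of_complete
    (cauchySeq_of_le_geometric (1 / 2) C (by norm_num) (hgeo x))
  have hvc : Continuous v := by
    refine TendstoUniformly.continuous (F := V) (p := atTop) ?_
      (Frequently.of_forall fun n => (hVs n).continuous)
    refine Metric.tendstoUniformly_iff.2 fun ε hε => ?_
    have ht : Tendsto (fun n : ℕ => C * (1 / 2 : ℝ) ^ n / (1 - 1 / 2)) atTop (𝓝 0) := by
      simpa using ((tendsto_pow_atTop_nhds_zero_of_lt_one (by norm_num : (0 : ℝ) ≤ 1 / 2)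
        (by norm_num)).const_mul C).div_const (1 - 1 / 2 : ℝ)
    filter_upwards [ht.eventually (Iio_mem_nhds hε)] with n hn x
    rw [dist_comm]
    exact lt_of_le_of_lt
      (dist_le_of_le_geometric_of_tendsto (1 / 2) C (by norm_num) (hgeo x) (hv x) n) hn
  have ho : IsOpen Kᶜ := hR.isClosed.isOpen_compl
  have hws : ContDiffOn ℝ ∞ (rgrad u) Kᶜ :=
    contDiffOn_const.mul (contDiffOn_grad ho hR.smooth)
  have hder : ∀ x ∈ Kᶜ, HasFDerivAt v (dotL (rgrad u x)) x := by
    intro x hx
    obtain ⟨r, hr, hrK⟩ := Metric.nhds_basis_closedBall.mem_iff.1 (ho.mem_nhds hx)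
    refine hasFDerivAt_of_tendstoUniformlyOn (l := atTop) (f := V)
      (f' := fun n y => fderiv ℝ (V n) y) (g' := fun y => dotL (rgrad u y))
      (isOpen_ball (x := x) (ε := r / 2)) ?_
      (fun n y _ => ((hVs n).differentiable (by simp) y).hasFDerivAt) (fun y _ => hv y)
      (mem_ball_self (half_pos hr))
    refine Metric.tendstoUniformlyOn_iff.2 fun ε hε => ?_
    set δ := ε / (2 * (B * Real.pi) + 1) with hδ
    have hδ0 : 0 < δ := by positivity
    obtain ⟨η, hη, huni⟩ := Metric.uniformContinuousOn_iff.1
      ((isCompact_closedBall x r).uniformContinuousOn_of_continuous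
        (hws.continuousOn.mono hrK)) δ hδ0
    have ht : Tendsto a atTop (𝓝 0) :=
      tendsto_pow_atTop_nhds_zero_of_lt_one (by norm_num) (by norm_num)
    filter_upwards [ht.eventually (Iio_mem_nhds (lt_min (half_pos hr) hη))] with n hn y hy
    obtain ⟨hn1, hn2⟩ := lt_min_iff.1 hn
    have hyr : y ∈ closedBall x r :=
      ball_subset_closedBall (ball_subset_ball (by linarith) hy)
    have hloc : ∀ p : ℂ →L[ℝ] ℝ, (∀ z, |p z| ≤ ‖z‖) →
        |moll (a n) (fun z => p (rgrad u z)) y - p (rgrad u y)| ≤ δ * (B * Real.pi) := by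
      intro p hp
      refine abs_moll_sub_le (locallyIntegrable_rgrad_comp hR p) hB (ha n) y fun z hz => ?_
      rw [← map_sub]
      refine (hp _).trans ?_
      rw [← dist_eq_norm]
      have hzr : z ∈ closedBall x r := by
        rw [mem_closedBall] at hz ⊢
        rw [mem_ball] at hy
        linarith [dist_triangle z y x]
      exact (huni z hzr y hyr (lt_of_le_of_lt (mem_closedBall.1 hz) hn2)).le
    have h1 := hloc Complex.reCLM fun z => Complex.abs_re_le_norm z
    have h2 := hloc Complex.imCLM fun z => Complex.abs_im_le_norm z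
    simp only [Complex.reCLM_apply, Complex.imCLM_apply] at h1 h2
    rw [dist_comm, dist_eq_norm, fderiv_eq_dotL, hVg, ← map_sub]
    refine lt_of_le_of_lt ((norm_dotL_le _).trans (Complex.norm_le_abs_re_add_abs_im _)) ?_
    refine lt_of_le_of_lt (add_le_add h1 h2) ?_
    have : δ * (2 * (B * Real.pi) + 1) = ε := div_mul_cancel₀ _ (by positivity)
    linarith
  refine ⟨v, hvc, (contDiffOn_infty_iff_fderiv_of_isOpen ho).2
    ⟨fun x hx => (hder x hx).differentiableAt.differentiableWithinAt,
      (dotL.contDiff.comp_contDiffOn hws).congr fun x hx => (hder x hx).fderiv⟩, fun x hx => ?_⟩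
  simp [grad, (hder x hx).fderiv, dotL_apply, dot]

end Vale.Agent.P128.Connected
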