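import Vale.Agent.P128.Connected.Interface

/-!
# Pairing a test function with a measure of linear growth

For a measure of linear growth carried by a disk of radius `R` the integral of `|θ|` is at most a
multiple of `R` times the Dirichlet norm of the test function `θ`: express `θ` by its gradient on
segments and use the inequality of arithmetic and geometric means at each scale.
-/

noncomputable section

namespace Vale.Agent.P128.Connected.TraceBound

open MeasureTheory Filter Metric Set Islands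
open scoped Topology ENNReal NNReal ContDiff

lemma abs_fderiv_apply_le (f : ℂ → ℝ) (x v : ℂ) : |fderiv ℝ f x v| ≤ ‖grad f x‖ * ‖v‖ := by
  have e : fderiv ℝ f x v = dot (grad f x) v := by
    have hv : v = v.re • (1 : ℂ) + v.im • Complex.I := by simp
    conv_lhs => rw [hv]
    rw [map_add, map_smul, map_smul]
    simp [dot, grad, mul_comm]
  rw [e, dot_eq_inner]
  exact abs_real_inner_le_norm _ _

lemma enorm_sub_le_segment {θ : ℂ → ℝ} (hθ : ContDiff ℝ ∞ θ) (x y : ℂ) :
    ENNReal.ofReal |θ x - θ y| ≤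
      ∫⁻ t in Ioc (0 : ℝ) 1, ‖grad θ (x + t • (y - x))‖ₑ * ‖y - x‖ₑ := by
  have hd : ∀ t ∈ uIcc (0 : ℝ) 1, HasDerivAt (fun t => θ (x + t • (y - x)))
      (fderiv ℝ θ (x + t • (y - x)) (y - x)) t := fun t _ => by
    have h1 : HasDerivAt (fun t : ℝ => x + t • (y - x)) (y - x) t := by
      simpa using ((hasDerivAt_id t).smul_const (y - x)).const_add x
    exact ((hθ.differentiable (by simp)) _).hasFDerivAt.comp_hasDerivAt t h1
  have hc : Continuous fun t : ℝ => fderiv ℝ θ (x + t • (y - x)) (y - x) :=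
    ((hθ.continuous_fderiv (by simp)).comp (by fun_prop)).clm_apply continuous_const
  have h := intervalIntegral.integral_eq_sub_of_hasDerivAt hd (hc.intervalIntegrable _ _)
  simp only [zero_smul, add_zero, one_smul, add_sub_cancel] at h
  rw [intervalIntegral.integral_of_le zero_le_one] at h
  rw [← Real.norm_eq_abs, norm_sub_rev, ← h, ofReal_norm]
  refine (enorm_integral_le_lintegral_enorm _).trans (lintegral_mono fun t => ?_)
  rw [← ofReal_norm, ← ofReal_norm, ← ofReal_norm, ← ENNReal.ofReal_mul (norm_nonneg _)]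
  exact ENNReal.ofReal_le_ofReal (by rw [Real.norm_eq_abs]; exact abs_fderiv_apply_le _ _ _)

lemma lintegral_ball_scale (g : ℂ → ℝ≥0∞) (hg : Measurable g) {t : ℝ} (ht : 0 < t) (x c : ℂ)
    (R : ℝ) : ∫⁻ y in ball c R, g (x + t • (y - x)) ≤
      ENNReal.ofReal (t ^ 2)⁻¹ * ∫⁻ z in ball (x + t • (c - x)) (t * R), g z := by
  set F : ℂ → ℝ≥0∞ := (ball (x + t • (c - x)) (t * R)).indicator g with hF
  have hFm : Measurable F := hg.indicator measurableSet_ball
  have h1 : ∫⁻ y in ball c R, g (x + t • (y - x)) ≤ ∫⁻ y, F (x + t • (y - x)) := by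
    rw [← lintegral_indicator measurableSet_ball]
    refine lintegral_mono fun y => ?_
    by_cases hy : y ∈ ball c R
    · rw [indicator_of_mem hy, hF, indicator_of_mem]
      rw [mem_ball, dist_eq_norm, show x + t • (y - x) - (x + t • (c - x)) = t • (y - c) by
        module, norm_smul, Real.norm_of_nonneg ht.le]
      exact mul_lt_mul_of_pos_left (mem_ball_iff_norm.1 hy) ht
    · rw [indicator_of_notMem hy]; exact zero_le
  refine h1.trans (le_of_eq ?_)
  rw [lintegral_sub_right_eq_self (fun z => F (x + t • z)) x,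
    ← lintegral_map (f := fun w => F (x + w)) (hFm.comp (measurable_const_add x))
      (measurable_const_smul t), Measure.map_addHaar_smul volume ht.ne', lintegral_smul_measure,
    lintegral_add_left_eq_self F x, hF, lintegral_indicator measurableSet_ball,
    Complex.finrank_real_complex, abs_of_pos (by positivity), smul_eq_mul]

lemma volume_disk (z : ℂ) {r : ℝ} (hr : 0 ≤ r) :
    (volume : Measure ℂ) (ball z r) = ENNReal.ofReal (Real.pi * r ^ 2) := by
  rw [Complex.volume_ball, ENNReal.ofReal_mul Real.pi_nonneg, ENNReal.ofReal_pow hr, mul_comm,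
    ← NNReal.coe_real_pi, ENNReal.ofReal_coe_nnreal]

/-- A test function is controlled by the averages of its gradient over balls around the point. -/
lemma test_le_averages {R : ℝ} (hR : 0 < R) {θ : ℂ → ℝ} (hθ : IsTest (ball 0 R) θ) (x : ℂ)
    (hx : ‖x‖ < R) :
    ENNReal.ofReal (Real.pi * R ^ 2) * ENNReal.ofReal |θ x| ≤
      ENNReal.ofReal (4 * R) * ∫⁻ t in Ioc (0 : ℝ) 1, ENNReal.ofReal (t ^ 2)⁻¹ *
        ∫⁻ z in ball x (4 * R * t), ‖grad θ z‖ₑ := by
  set c : ℂ := x + (3 * R : ℝ) with hc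
  have hgc : Continuous (grad θ) :=
    continuousOn_univ.1 (contDiffOn_grad isOpen_univ hθ.1.contDiffOn).continuousOn
  have hnorm : ‖c - x‖ = 3 * R := by
    rw [hc, add_sub_cancel_left, Complex.norm_real, Real.norm_of_nonneg (by linarith)]
  have h0 : ∀ y ∈ ball c R, θ y = 0 := fun y hy => image_eq_zero_of_notMem_tsupport fun h => by
    have h1 := mem_ball_zero_iff.1 (hθ.2.2 h)
    rw [mem_ball_iff_norm] at hy
    have h2 := norm_sub_le_norm_sub_add_norm_sub c y x
    rw [norm_sub_rev c y] at h2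
    have h3 := norm_sub_le y x
    linarith
  have hseg : ∀ y ∈ ball c R, ‖y - x‖ₑ ≤ ENNReal.ofReal (4 * R) := fun y hy => by
    rw [← ofReal_norm]
    refine ENNReal.ofReal_le_ofReal ?_
    have := norm_sub_le_norm_sub_add_norm_sub y c x
    rw [mem_ball_iff_norm] at hy
    linarith
  set ν : Measure ℝ := volume.restrict (Ioc (0 : ℝ) 1) with hν
  set μc : Measure ℂ := volume.restrict (ball c R) with hμc
  set k : ℝ≥0∞ := ENNReal.ofReal (4 * R) with hk
  set f : ℂ → ℝ → ℝ≥0∞ := fun y t => ‖grad θ (x + t • (y - x))‖ₑ with hf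
  have hfm : ∀ t, Measurable fun y => f y t := fun t =>
    (hgc.comp (by fun_prop : Continuous fun y : ℂ => x + t • (y - x))).enorm.measurable
  have hm : AEMeasurable (Function.uncurry fun y t => f y t * k) (μc.prod ν) := by
    have h1 : Continuous fun p : ℂ × ℝ => grad θ (x + p.2 • (p.1 - x)) := hgc.comp (by fun_prop)
    exact (h1.enorm.measurable.mul_const k).aemeasurable
  calc ENNReal.ofReal (Real.pi * R ^ 2) * ENNReal.ofReal |θ x|
      = ∫⁻ _ in ball c R, ENNReal.ofReal |θ x| := by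
        rw [lintegral_const, Measure.restrict_apply_univ, volume_disk c hR.le, mul_comm]
    _ ≤ ∫⁻ y, ∫⁻ t, f y t * k ∂ν ∂μc := by
        refine lintegral_mono_ae (ae_restrict_of_forall_mem measurableSet_ball fun y hy => ?_)
        have h := enorm_sub_le_segment hθ.1 x y
        rw [h0 y hy, sub_zero] at h
        exact h.trans (lintegral_mono fun t => mul_le_mul' le_rfl (hseg y hy))
    _ = ∫⁻ t, (∫⁻ y, f y t ∂μc) * k ∂ν := by
        rw [lintegral_lintegral_swap hm]
        exact lintegral_congr fun t => lintegral_mul_const k (hfm t)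
    _ ≤ ∫⁻ t, (ENNReal.ofReal (t ^ 2)⁻¹ *
          ∫⁻ z in ball x (4 * R * t), ‖grad θ z‖ₑ) * k ∂ν := by
        refine lintegral_mono_ae (ae_restrict_of_forall_mem measurableSet_Ioc fun t ht => ?_)
        refine mul_le_mul' ?_ le_rfl
        refine (lintegral_ball_scale _ hgc.enorm.measurable ht.1 x c R).trans
          (mul_le_mul' le_rfl (lintegral_mono_set ?_))
        refine ball_subset_ball' ?_
        rw [dist_eq_norm, add_sub_cancel_left, norm_smul, hnorm, Real.norm_of_nonneg ht.1.le]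
        exact le_of_eq (by ring)
    _ = _ := by
        rw [lintegral_mul_const' k _ ENNReal.ofReal_ne_top, mul_comm]

lemma am_gm {a g m : ℝ} (ha : 0 < a) : g * m ≤ a / 2 * g ^ 2 + 1 / (2 * a) * m ^ 2 := by
  have h : a / 2 * g ^ 2 + 1 / (2 * a) * m ^ 2 - g * m = (a * g - m) ^ 2 / (2 * a) := by
    field_simp
    ring
  have : (0 : ℝ) ≤ (a * g - m) ^ 2 / (2 * a) := by positivity
  linarith

/-- The pairing of a gradient with the masses of balls of one radius. -/
lemma lintegral_mass_le {μ : Measure ℂ} [SFinite μ] {A : ℝ} (hA : 0 ≤ A) {R ρ : ℝ} (hρ : 0 < ρ)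
    (hball : ∀ z, μ (ball z ρ) ≤ ENNReal.ofReal (A * ρ)) (hmass : μ univ ≤ ENNReal.ofReal (A * R))
    {g : ℂ → ℂ} (hg : Continuous g) {a : ℝ} (ha : 0 < a) (hgi : Integrable fun z => ‖g z‖ ^ 2) :
    ∫⁻ z, ‖g z‖ₑ * μ (ball z ρ) ≤
      ENNReal.ofReal (a / 2 * (∫ z, ‖g z‖ ^ 2)) +
        ENNReal.ofReal (1 / (2 * a) * (A * ρ)) * (ENNReal.ofReal (A * R) *
          ENNReal.ofReal (Real.pi * ρ ^ 2)) := by
  have hS : MeasurableSet {p : ℂ × ℂ | dist p.2 p.1 < ρ} :=
    (isOpen_lt (by fun_prop) continuous_const).measurableSet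
  have hsum : ∫⁻ z, μ (ball z ρ) ≤ ENNReal.ofReal (A * R) * ENNReal.ofReal (Real.pi * ρ ^ 2) := by
    calc ∫⁻ z, μ (ball z ρ) = ∫⁻ z, μ (Prod.mk z ⁻¹' {p : ℂ × ℂ | dist p.2 p.1 < ρ}) := rfl
      _ = (volume.prod μ) {p : ℂ × ℂ | dist p.2 p.1 < ρ} := (Measure.prod_apply hS).symm
      _ = ∫⁻ x, volume ((fun z => (z, x)) ⁻¹' {p : ℂ × ℂ | dist p.2 p.1 < ρ}) ∂μ :=
        Measure.prod_apply_symm hS
      _ = ∫⁻ _, ENNReal.ofReal (Real.pi * ρ ^ 2) ∂μ := by
        refine lintegral_congr fun x => ?_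
        have e : (fun z => (z, x)) ⁻¹' {p : ℂ × ℂ | dist p.2 p.1 < ρ} = ball x ρ := by
          ext z; simp [dist_comm]
        rw [e, volume_disk x hρ.le]
      _ ≤ _ := by
        rw [lintegral_const, mul_comm]
        exact mul_le_mul' hmass le_rfl
  have hpt : ∀ z, ‖g z‖ₑ * μ (ball z ρ) ≤
      ENNReal.ofReal (a / 2 * ‖g z‖ ^ 2) +
        ENNReal.ofReal (1 / (2 * a) * (A * ρ)) * μ (ball z ρ) := by
    intro z
    set M := μ (ball z ρ)
    have hM : M ≠ ⊤ := ne_top_of_le_ne_top ENNReal.ofReal_ne_top (hball z)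
    have hMr : M.toReal ≤ A * ρ := ENNReal.toReal_le_of_le_ofReal (by positivity) (hball z)
    rw [← ENNReal.ofReal_toReal hM, ← ofReal_norm, ← ENNReal.ofReal_mul (norm_nonneg _),
      ← ENNReal.ofReal_mul (by positivity), ← ENNReal.ofReal_add (by positivity) (by positivity)]
    refine ENNReal.ofReal_le_ofReal ((am_gm ha).trans (add_le_add le_rfl ?_))
    rw [mul_assoc (1 / (2 * a)), pow_two]
    exact mul_le_mul_of_nonneg_left (mul_le_mul_of_nonneg_right hMr ENNReal.toReal_nonneg)
      (by positivity)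
  have hmg : Measurable fun z => ENNReal.ofReal (a / 2 * ‖g z‖ ^ 2) :=
    (measurable_const.mul (hg.norm.pow 2).measurable).ennreal_ofReal
  refine (lintegral_mono hpt).trans ?_
  rw [lintegral_add_left hmg, lintegral_const_mul' _ _ ENNReal.ofReal_ne_top]
  refine add_le_add (le_of_eq ?_) (mul_le_mul' le_rfl hsum)
  rw [← ofReal_integral_eq_lintegral_ofReal (hgi.const_mul _)
    (Eventually.of_forall fun z => by positivity), integral_const_mul]

/-- The universal constant. -/
def kappa : ℝ := (∫ t in Ioc (0 : ℝ) 1, t ^ (-(1 / 2) : ℝ)) * 4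

lemma kappa_nonneg : 0 ≤ kappa :=
  mul_nonneg (setIntegral_nonneg measurableSet_Ioc fun _ ht => Real.rpow_nonneg ht.1.le _)
    (by norm_num)

/-- The bound, with a free parameter in place of the square root. -/
theorem lintegral_test_le {μ : Measure ℂ} [SFinite μ] {A R : ℝ} (hA : 0 ≤ A) (hR : 0 < R)
    (hball : ∀ z r, 0 ≤ r → μ (ball z r) ≤ ENNReal.ofReal (A * r))
    (hmass : μ univ ≤ ENNReal.ofReal (A * R)) (hsupp : μ (ball 0 R)ᶜ = 0)
    {θ : ℂ → ℝ} (hθ : IsTest (ball 0 R) θ) {s : ℝ} (hs : 0 < s) :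
    ∫⁻ x, ENNReal.ofReal |θ x| ∂μ ≤ ENNReal.ofReal
      (kappa * R * (s * (∫ z, ‖grad θ z‖ ^ 2) + 16 * A ^ 2 / (Real.pi * s))) := by
  set N := ∫ z, ‖grad θ z‖ ^ 2
  have hN : 0 ≤ N := integral_nonneg fun z => sq_nonneg _
  have hgc : Continuous (grad θ) :=
    continuousOn_univ.1 (contDiffOn_grad isOpen_univ hθ.1.contDiffOn).continuousOn
  have hgs : HasCompactSupport (grad θ) :=
    HasCompactSupport.intro hθ.2.1.isCompact fun x hx => grad_eq_zero_of_notMem_tsupport hx
  have hgi : Integrable fun z => ‖grad θ z‖ ^ 2 :=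
    (hgc.memLp_of_hasCompactSupport hgs).norm.integrable_sq
  have hae : ∀ᵐ x ∂μ, ‖x‖ < R := by
    rw [ae_iff]
    refine measure_mono_null (fun x hx => ?_) hsupp
    simpa using hx
  have hS : MeasurableSet {p : (ℂ × ℝ) × ℂ | dist p.2 p.1.1 < 4 * R * p.1.2} :=
    (isOpen_lt (by fun_prop) (by fun_prop)).measurableSet
  set Φ : (ℂ × ℝ) × ℂ → ℝ≥0∞ :=
    {p : (ℂ × ℝ) × ℂ | dist p.2 p.1.1 < 4 * R * p.1.2}.indicator fun p => ‖grad θ p.2‖ₑ with hΦ
  have hΦm : Measurable Φ := (hgc.enorm.measurable.comp measurable_snd).indicator hS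
  have hin : ∀ x t, ∫⁻ z in ball x (4 * R * t), ‖grad θ z‖ₑ = ∫⁻ z, Φ ((x, t), z) := fun x t => by
    rw [← lintegral_indicator measurableSet_ball]
    refine lintegral_congr fun z => ?_
    by_cases hz : dist z x < 4 * R * t
    · rw [indicator_of_mem (mem_ball.2 hz), hΦ, indicator_of_mem]
      exact hz
    · rw [indicator_of_notMem (fun h => hz (mem_ball.1 h)), hΦ, indicator_of_notMem]
      exact hz
  have hswap : ∀ t, ∫⁻ x, ∫⁻ z, Φ ((x, t), z) ∂volume ∂μ =
      ∫⁻ z, ‖grad θ z‖ₑ * μ (ball z (4 * R * t)) := fun t => by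
    have hu : Measurable (Function.uncurry fun (x : ℂ) (z : ℂ) => Φ ((x, t), z)) :=
      hΦm.comp ((measurable_fst.prodMk measurable_const).prodMk measurable_snd)
    rw [lintegral_lintegral_swap hu.aemeasurable]
    refine lintegral_congr fun z => ?_
    rw [show (fun x => Φ ((x, t), z)) = (ball z (4 * R * t)).indicator fun _ => ‖grad θ z‖ₑ from
      funext fun x => by
        by_cases hz : dist x z < 4 * R * t
        · rw [indicator_of_mem (mem_ball.2 hz), hΦ, indicator_of_mem]
          show dist z x < _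
          rwa [dist_comm]
        · rw [indicator_of_notMem (fun h => hz (mem_ball.1 h)), hΦ, indicator_of_notMem]
          show ¬ dist z x < _
          rwa [dist_comm], lintegral_indicator measurableSet_ball,
      lintegral_const, Measure.restrict_apply_univ]
  have h4 : ∀ t ∈ Ioc (0 : ℝ) 1, ENNReal.ofReal (t ^ 2)⁻¹ *
      (∫⁻ z, ‖grad θ z‖ₑ * μ (ball z (4 * R * t))) ≤
      ENNReal.ofReal (Real.pi * R ^ 2 / (4 * R) * (t ^ (-(1 / 2) : ℝ) *
        (4 * R * (s * N + 16 * A ^ 2 / (Real.pi * s))))) := by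
    intro t ht
    have ht0 := ht.1
    set w := t ^ (-(1 / 2) : ℝ) with hwdef
    have hw : 0 < w := Real.rpow_pos_of_pos ht0 _
    have hw2 : w ^ 2 * t = 1 := by
      rw [hwdef, ← Real.rpow_natCast, ← Real.rpow_mul ht0.le]
      norm_num
      rw [Real.rpow_neg_one, inv_mul_cancel₀ ht0.ne']
    set a := 2 * Real.pi * s * R ^ 2 * w * t ^ 2 with hadef
    have ha : 0 < a := by positivity
    have h := lintegral_mass_le (μ := μ) hA (R := R) (ρ := 4 * R * t) (by positivity)
      (fun z => hball z _ (by positivity)) hmass hgc ha hgi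
    refine (mul_le_mul' le_rfl h).trans ?_
    rw [← ENNReal.ofReal_mul (by positivity), ← ENNReal.ofReal_mul (by positivity),
      ← ENNReal.ofReal_add (by positivity) (by positivity), ← ENNReal.ofReal_mul (by positivity)]
    refine ENNReal.ofReal_le_ofReal (le_of_eq ?_)
    have hwne : w ≠ 0 := hw.ne'
    have hwt : 1 / w = w * t := by
      field_simp
      linarith
    rw [hadef]
    field_simp
    linear_combination (-(64 : ℝ) * A ^ 2) * hw2
  have hint : IntegrableOn (fun t : ℝ => t ^ (-(1 / 2) : ℝ)) (Ioc 0 1) :=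
    (intervalIntegral.intervalIntegrable_rpow' (by norm_num) (a := 0) (b := 1)).1
  have hpos : (0 : ℝ) < Real.pi * R ^ 2 := by positivity
  refine (ENNReal.mul_le_mul_iff_right (ENNReal.ofReal_pos.2 hpos).ne' ENNReal.ofReal_ne_top).1 ?_
  calc ENNReal.ofReal (Real.pi * R ^ 2) * ∫⁻ x, ENNReal.ofReal |θ x| ∂μ
      = ∫⁻ x, ENNReal.ofReal (Real.pi * R ^ 2) * ENNReal.ofReal |θ x| ∂μ :=
        (lintegral_const_mul' _ _ ENNReal.ofReal_ne_top).symm
    _ ≤ ∫⁻ x, ENNReal.ofReal (4 * R) * (∫⁻ t in Ioc (0 : ℝ) 1, ENNReal.ofReal (t ^ 2)⁻¹ *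
          ∫⁻ z, Φ ((x, t), z)) ∂μ := by
        refine lintegral_mono_ae (hae.mono fun x hx => ?_)
        simp only [← hin]
        exact test_le_averages hR hθ x hx
    _ = ENNReal.ofReal (4 * R) * ∫⁻ t in Ioc (0 : ℝ) 1, ENNReal.ofReal (t ^ 2)⁻¹ *
          ∫⁻ z, ‖grad θ z‖ₑ * μ (ball z (4 * R * t)) := by
        have hm : Measurable fun q : ℂ × ℝ =>
            ENNReal.ofReal (q.2 ^ 2)⁻¹ * ∫⁻ z, Φ ((q.1, q.2), z) :=
          (by fun_prop : Measurable fun q : ℂ × ℝ => ENNReal.ofReal (q.2 ^ 2)⁻¹).mul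
            hΦm.lintegral_prod_right'
        rw [lintegral_const_mul' _ _ ENNReal.ofReal_ne_top, lintegral_lintegral_swap hm.aemeasurable]
        congr 1
        refine lintegral_congr fun t => ?_
        rw [lintegral_const_mul' _ _ ENNReal.ofReal_ne_top, hswap]
    _ ≤ ENNReal.ofReal (4 * R) * ∫⁻ t in Ioc (0 : ℝ) 1, ENNReal.ofReal
          (Real.pi * R ^ 2 / (4 * R) * (t ^ (-(1 / 2) : ℝ) * (4 * R * (s * N + 16 * A ^ 2 / (Real.pi * s))))) :=
        mul_le_mul' le_rfl (lintegral_mono_ae (ae_restrict_of_forall_mem measurableSet_Ioc h4))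
    _ = _ := by
        rw [← ofReal_integral_eq_lintegral_ofReal ((hint.mul_const _).const_mul _)
          (ae_restrict_of_forall_mem measurableSet_Ioc fun t ht => by
            have := Real.rpow_nonneg ht.1.le (-(1 / 2) : ℝ)
            show (0 : ℝ) ≤ _
            positivity),
          ← ENNReal.ofReal_mul (by positivity), ← ENNReal.ofReal_mul hpos.le, integral_const_mul,
          integral_mul_const, kappa]
        congr 1
        field_simp

end Vale.Agent.P128.Connected.TraceBound
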